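import Vale.Agent.P366R.Stm

/-! The embedding of round data in the Schwarzschild spacetime. -/

namespace Vale.Agent.P366R

open scoped Matrix ContDiff Topology
open Filter Set Matrix
open Vale.Agent.P366 (Pt Ten rad pd chr)

namespace Embx

theorem cdd {f : ℝ → ℝ} {t : ℝ} (h : ContDiffAt ℝ ∞ f t) : ContDiffAt ℝ ∞ (deriv f) t := by
  have h1 : ContDiffAt ℝ ∞ (fderiv ℝ f) t := h.fderiv_right (by simp)
  exact h1.clm_apply contDiffAt_const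

theorem hd {f : ℝ → ℝ} {t : ℝ} (h : ContDiffAt ℝ ∞ f t) : HasDerivAt f (deriv f t) t :=
  (h.differentiableAt (by simp)).hasDerivAt

variable {n : ℕ}

theorem dot (A B : Matrix (Fin n) (Fin n) ℝ) (u v : Pt n) :
    (A *ᵥ u) ⬝ᵥ (B *ᵥ v) = u ⬝ᵥ ((Aᵀ * B) *ᵥ v) := by
  rw [← mulVec_mulVec, dotProduct_mulVec u, vecMul_transpose]

theorem skew {W : Matrix (Fin n) (Fin n) ℝ} (hW : Wᵀ = -W) (u v : Pt n) :
    u ⬝ᵥ (W *ᵥ v) = -((W *ᵥ u) ⬝ᵥ v) := by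
  rw [dotProduct_mulVec, ← mulVec_transpose, hW, neg_mulVec, neg_dotProduct]

theorem skew0 {W : Matrix (Fin n) (Fin n) ℝ} (hW : Wᵀ = -W) (u : Pt n) : u ⬝ᵥ (W *ᵥ u) = 0 := by
  have := skew hW u u
  rw [dotProduct_comm (W *ᵥ u)] at this
  linarith

theorem d00 {M0 : Matrix (Fin n) (Fin n) ℝ} {C : ℝ}
    (h0 : M0ᵀ * M0 = C • (1 : Matrix (Fin n) (Fin n) ℝ)) (u v : Pt n) :
    (M0 *ᵥ u) ⬝ᵥ (M0 *ᵥ v) = C * (u ⬝ᵥ v) := by
  rw [dot, h0, smul_mulVec, one_mulVec, dotProduct_smul, smul_eq_mul]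

theorem d01 {M0 M1 W : Matrix (Fin n) (Fin n) ℝ} {c : ℝ}
    (h1 : M0ᵀ * M1 = c • (1 : Matrix (Fin n) (Fin n) ℝ) + W) (u v : Pt n) :
    (M0 *ᵥ u) ⬝ᵥ (M1 *ᵥ v) = c * (u ⬝ᵥ v) + u ⬝ᵥ (W *ᵥ v) := by
  rw [dot, h1, add_mulVec, smul_mulVec, one_mulVec, dotProduct_add, dotProduct_smul, smul_eq_mul]

theorem d11 {M0 M1 W : Matrix (Fin n) (Fin n) ℝ} {C c : ℝ} (hC : C ≠ 0) (hW : Wᵀ = -W)
    (h0 : M0ᵀ * M0 = C • (1 : Matrix (Fin n) (Fin n) ℝ))
    (h1 : M0ᵀ * M1 = c • (1 : Matrix (Fin n) (Fin n) ℝ) + W) (x : Pt n) :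
    (M1 *ᵥ x) ⬝ᵥ (M1 *ᵥ x) = (c ^ 2 * (x ⬝ᵥ x) + (W *ᵥ x) ⬝ᵥ (W *ᵥ x)) / C := by
  have e1 : (C⁻¹ • M0ᵀ) * M0 = 1 := by
    rw [Matrix.smul_mul, h0, smul_smul, inv_mul_cancel₀ hC, one_smul]
  have e2 : M0 * (C⁻¹ • M0ᵀ) = 1 := mul_eq_one_comm.1 e1
  have e3 : M0 * M0ᵀ = C • (1 : Matrix (Fin n) (Fin n) ℝ) := by
    rw [← e2, Matrix.mul_smul, smul_smul, mul_inv_cancel₀ hC, one_smul]
  have e4 := d00 (M0 := M0ᵀ) (C := C) (by rw [transpose_transpose]; exact e3) (M1 *ᵥ x) (M1 *ᵥ x)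
  rw [mulVec_mulVec, h1, add_mulVec, smul_mulVec, one_mulVec] at e4
  simp only [dotProduct_add, add_dotProduct, dotProduct_smul, smul_dotProduct, smul_eq_mul] at e4
  rw [dotProduct_comm (W *ᵥ x) x, skew0 hW] at e4
  field_simp
  linarith

theorem hdv {M : ℝ → Matrix (Fin n) (Fin n) ℝ} {t : ℝ}
    (h : ∀ a b, ContDiffAt ℝ ∞ (fun s => M s a b) t) (x : Pt n) (a : Fin n) :
    HasDerivAt (fun s => (M s *ᵥ x) a) ((mD M t *ᵥ x) a) t := by
  simp only [mulVec, dotProduct, mD, Matrix.of_apply]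
  exact HasDerivAt.fun_sum fun b _ => (hd (h a b)).mul_const (x b)

theorem d02 {M W : ℝ → Matrix (Fin n) (Fin n) ℝ} {C : ℝ → ℝ} {t0 t : ℝ} (ht : t0 < t)
    (hC : ContDiffAt ℝ ∞ C t) (hM : ∀ a b, ContDiffAt ℝ ∞ (fun s => M s a b) t)
    (h : ∀ s, t0 < s → (W s)ᵀ = -W s ∧
      (M s)ᵀ * mD M s = (deriv C s / 2) • (1 : Matrix (Fin n) (Fin n) ℝ) + W s) (x : Pt n) :
    (M t *ᵥ x) ⬝ᵥ (mD (mD M) t *ᵥ x) =
      deriv (deriv C) t / 2 * (x ⬝ᵥ x) - (mD M t *ᵥ x) ⬝ᵥ (mD M t *ᵥ x) := by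
  have hM1 : ∀ a b, ContDiffAt ℝ ∞ (fun s => mD M s a b) t := fun a b => cdd (hM a b)
  have h1 : HasDerivAt (fun s => ∑ a, (M s *ᵥ x) a * (mD M s *ᵥ x) a)
      (∑ a, ((mD M t *ᵥ x) a * (mD M t *ᵥ x) a + (M t *ᵥ x) a * (mD (mD M) t *ᵥ x) a)) t :=
    HasDerivAt.fun_sum fun a _ => (hdv hM x a).mul (hdv hM1 x a)
  have h2 : HasDerivAt (fun s => deriv C s / 2 * (x ⬝ᵥ x)) (deriv (deriv C) t / 2 * (x ⬝ᵥ x)) t :=
    ((hd (cdd hC)).div_const 2).mul_const _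
  have h3 : (fun s => ∑ a, (M s *ᵥ x) a * (mD M s *ᵥ x) a) =ᶠ[𝓝 t]
      fun s => deriv C s / 2 * (x ⬝ᵥ x) := by
    filter_upwards [lt_mem_nhds ht] with s hs
    have := d01 (h s hs).2 x x
    rw [skew0 (h s hs).1, add_zero] at this
    exact this
  have h4 := (h1.congr_of_eventuallyEq h3.symm).unique h2
  rw [Finset.sum_add_distrib] at h4
  have h5 : (mD M t *ᵥ x) ⬝ᵥ (mD M t *ᵥ x) + (M t *ᵥ x) ⬝ᵥ (mD (mD M) t *ᵥ x) =
      deriv (deriv C) t / 2 * (x ⬝ᵥ x) := h4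
  linarith

theorem cd_fS (n : ℕ) (m : ℝ) {s : ℝ} (hs : 0 < s) : ContDiffAt ℝ ∞ (fS n m) s := by
  unfold fS
  refine contDiffAt_const.sub (contDiffAt_const.div ((Real.contDiffAt_sqrt hs.ne').pow _) ?_)
  exact pow_ne_zero _ (Real.sqrt_pos.2 hs).ne'

/-- The function `z`. -/
noncomputable def zz (C N : ℝ → ℝ) (t : ℝ) : ℝ := (C t + t * deriv C t) / √(N t * C t)

/-- The derivative of the time function. -/
noncomputable def hh (n : ℕ) (m : ℝ) (C N κ : ℝ → ℝ) (t : ℝ) : ℝ :=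
  (C t + t * deriv C t) * κ t / (2 * zz C N t * fS n m (t * C t))

theorem rad1 {m t0 : ℝ} {C N κ k0 : ℝ → ℝ} (h0 : 0 < t0) (hS : SlData n m t0 C N κ k0) {t : ℝ}
    (ht : t0 < t) : 0 < zz C N t ∧ ContDiffAt ℝ ∞ (zz C N) t ∧
      fS n m (t * C t) = zz C N t ^ 2 - t * C t * κ t ^ 2 ∧
      N t = (C t + t * deriv C t) ^ 2 / (C t * zz C N t ^ 2) ∧
      ContDiffAt ℝ ∞ (fun s => fS n m (s * C s)) t ∧ ContDiffAt ℝ ∞ (hh n m C N κ) t := by
  obtain ⟨c1, c2, c3, p1, p2, p3, p4, e1, -⟩ := hS t ht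
  have hp : 0 < N t * C t := mul_pos p2 p1
  have hz : 0 < zz C N t := div_pos p3 (Real.sqrt_pos.2 hp)
  have cD : ContDiffAt ℝ ∞ (fun s => C s + s * deriv C s) t :=
    c1.add (contDiffAt_id.mul (cdd c1))
  have cz : ContDiffAt ℝ ∞ (zz C N) t :=
    cD.div ((c2.mul c1).sqrt hp.ne') (Real.sqrt_pos.2 hp).ne'
  have ez : zz C N t ^ 2 = (C t + t * deriv C t) ^ 2 / (N t * C t) := by
    unfold zz
    rw [div_pow, Real.sq_sqrt hp.le]
  have cf : ContDiffAt ℝ ∞ (fun s => fS n m (s * C s)) t :=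
    ContDiffAt.comp (g := fS n m) (f := fun s => s * C s) t
      (cd_fS n m (mul_pos (h0.trans ht) p1)) (contDiffAt_id.mul c1)
  refine ⟨hz, cz, by rw [ez]; exact e1, ?_, cf, ?_⟩
  · rw [ez]
    field_simp
  · exact (cD.mul c3).div ((contDiffAt_const.mul cz).mul cf) (by positivity)

theorem rad2 {m t0 : ℝ} {C N κ k0 : ℝ → ℝ} (h0 : 0 < t0) (hS : SlData n m t0 C N κ k0) {t : ℝ}
    (ht : t0 < t) {C0 C1 C2 k k1 f f' z : ℝ} (a0 : C0 = C t) (a1 : C1 = deriv C t)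
    (a2 : C2 = deriv (deriv C) t) (a3 : k = κ t) (a4 : k1 = deriv κ t) (a5 : f = fS n m (t * C t))
    (a6 : f' = deriv (fS n m) (t * C t)) (a7 : z = zz C N t) :
    deriv (hh n m C N κ) t =
      (((2 * C1 + t * C2) * k + (C0 + t * C1) * k1) * (z * f) - (C0 + t * C1) * k *
      ((f' * (C0 + t * C1) + (C0 + t * C1) * k ^ 2 + 2 * t * C0 * k * k1) / (2 * z) * f
        + z * (f' * (C0 + t * C1)))) / (2 * (z * f) ^ 2) := by
  obtain ⟨c1, c2, c3, p1, p2, p3, p4, -, -⟩ := hS t ht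
  obtain ⟨hz, cz, -, -, -, -⟩ := rad1 h0 hS ht
  have dC : HasDerivAt C C1 t := a1 ▸ hd c1
  have dC1 : HasDerivAt (deriv C) C2 t := a2 ▸ hd (cdd c1)
  have dk : HasDerivAt κ k1 t := a4 ▸ hd c3
  have dz : HasDerivAt (zz C N) (deriv (zz C N) t) t := hd cz
  have dtC : HasDerivAt (fun s => s * C s) (1 * C t + t * C1) t := (hasDerivAt_id' t).mul dC
  have dD : HasDerivAt (fun s => C s + s * deriv C s) (C1 + (1 * deriv C t + t * C2)) t :=
    dC.add ((hasDerivAt_id' t).mul dC1)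
  have df0 : HasDerivAt (fS n m) f' (t * C t) := a6 ▸ hd (cd_fS n m (mul_pos (h0.trans ht) p1))
  have df : HasDerivAt (fun s => fS n m (s * C s)) (f' * (1 * C t + t * C1)) t :=
    HasDerivAt.comp (h₂ := fS n m) (h := fun s => s * C s) t df0 dtC
  have dr : HasDerivAt (fun s => zz C N s * zz C N s - s * C s * (κ s * κ s))
      (deriv (zz C N) t * zz C N t + zz C N t * deriv (zz C N) t -
        ((1 * C t + t * C1) * (κ t * κ t) + t * C t * (k1 * κ t + κ t * k1))) t :=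
    (dz.mul dz).sub (dtC.mul (dk.mul dk))
  have ev : (fun s => fS n m (s * C s)) =ᶠ[𝓝 t]
      fun s => zz C N s * zz C N s - s * C s * (κ s * κ s) := by
    filter_upwards [lt_mem_nhds ht] with s hs
    rw [(rad1 h0 hS hs).2.2.1]
    ring
  have e := (df.congr_of_eventuallyEq ev.symm).unique dr
  have ez : deriv (zz C N) t =
      (f' * (C0 + t * C1) + (C0 + t * C1) * k ^ 2 + 2 * t * C0 * k * k1) / (2 * z) := by
    rw [a0, a3, a7, eq_div_iff (by positivity)]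
    linarith
  have dh : HasDerivAt (hh n m C N κ) _ t :=
    (dD.mul dk).div ((dz.const_mul 2).mul df)
      (by show 2 * zz C N t * fS n m (t * C t) ≠ 0; positivity)
  rw [dh.deriv, ← ez]
  simp only [Pi.mul_apply]
  rw [← a0, ← a1, ← a3, ← a7, a0, ← a5, ← a0]
  have : z ≠ 0 := by rw [a7]; exact hz.ne'
  have : f ≠ 0 := by rw [a5]; exact p4.ne'
  field_simp
  ring

theorem inj {m t0 : ℝ} {C N κ k0 : ℝ → ℝ} (hS : SlData n m t0 C N κ k0) :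
    StrictMonoOn (fun s => s * C s) (Ioi t0) := by
  have dtC : ∀ s, t0 < s → HasDerivAt (fun s => s * C s) (1 * C s + s * deriv C s) s :=
    fun s hs => (hasDerivAt_id' s).mul (hd (hS s hs).1)
  refine strictMonoOn_of_deriv_pos (convex_Ioi t0)
    (fun s hs => (dtC s hs).continuousAt.continuousWithinAt) fun s hs => ?_
  rw [interior_Ioi] at hs
  rw [(dtC s hs).deriv, one_mul]
  exact (hS s hs).2.2.2.2.2.1

theorem algK {t C C1 C2 κ k0 N f f' z τ1 τ2 χ xi xj wi wj δ ww : ℝ} (ht : t ≠ 0) (hC : C ≠ 0)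
    (hf : f ≠ 0) (hz : z ≠ 0) (hχ : χ = (f⁻¹ - 1) / (t * C))
    (h1 : τ1 = (C + t * C1) * κ / (2 * z * f))
    (h2 : 4 * z * τ2 - κ / f * (2 * C1 + 2 * t * C2 - t * C1 ^ 2 / C)
      + f' * (4 * (C + t * C1) * τ1 * z / f - 4 * κ * (t * C) * τ1 ^ 2)
      - (-f' / (f ^ 2 * (t * C)) - χ / (t * C)) * (C + t * C1) ^ 2 * κ * (t * C)
      - κ * (f⁻¹ - 1) * (2 * C1 + t * C1 ^ 2 / C) = (k0 * N - κ * C) / t) :
    κ * (C * δ + 2 * (wi * xj + xi * wj) + ((N - C) / t + 4 * ww / C) * (xi * xj))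
      + (k0 - κ) * N / t * (xi * xj) =
    -((-z * (2 * δ * τ1 + 4 * xi * xj * τ2) + κ / f * (2 * xj * (C1 / 2 * xi - wi)
        + 2 * xi * (C1 / 2 * xj - wj) + 2 * δ * (C1 / 2 * t)
        + 4 * xi * xj * (C2 / 2 * t - ((C1 / 2) ^ 2 * t + ww) / C)))
      + (-f' * ((C + t * C1) * xi * (2 * xj * τ1) * (z / f)
            + (C + t * C1) * xj * (2 * xi * τ1) * (z / f)
            - κ * (t * C) * (2 * xi * τ1) * (2 * xj * τ1))
          + (-f' / (f ^ 2 * (t * C)) - χ / (t * C)) * ((C + t * C1) * xi) * ((C + t * C1) * xj)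
            * (κ * (t * C))
          + χ * (C * δ + 2 * (wi * xj + xi * wj) + (2 * C1 + t * C1 ^ 2 / C + 4 * ww / C) * (xi * xj))
            * (κ * (t * C)))) := by
  have e1 : χ * (t * C) = f⁻¹ - 1 := by rw [hχ]; field_simp
  have e2 : 2 * z * τ1 = (C + t * C1) * κ * f⁻¹ := by rw [h1]; field_simp
  have e3 : (k0 * N - κ * C) / t = κ * ((N - C) / t) + (k0 - κ) * N / t := by field_simp; ring
  rw [e3] at h2
  simp only [div_eq_mul_inv] at h2 ⊢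
  linear_combination (-(xi * xj)) * h2 - δ * e2
    + κ * (C * δ + 2 * (wi * xj + xi * wj) + (2 * C1 + t * C1 ^ 2 * C⁻¹ + 4 * ww * C⁻¹) * (xi * xj)) * e1

end Embx

open Embx in
theorem emb_pf (hS : SchwStmt) (hP : PhiJetStmt) (hA : EmbAlgStmt) (hT : TauStmt) : EmbStmt := by
  intro n m t0 C N κ k0 M W g K h0 hD hM hg
  obtain ⟨τ, hτ⟩ := hT (hh n m C N κ) t0 fun t ht => (rad1 h0 hD ht).2.2.2.2.2
  have yy : ∀ x : Pt n, t0 < x ⬝ᵥ x →
      (M (x ⬝ᵥ x) *ᵥ x) ⬝ᵥ (M (x ⬝ᵥ x) *ᵥ x) = (x ⬝ᵥ x) * C (x ⬝ᵥ x) := by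
    intro x hx
    rw [d00 (hM _ hx).2.2.1, mul_comm]
  have sch : ∀ x : Pt n, t0 < x ⬝ᵥ x → _ := fun x hx =>
    hS n m (τ (x ⬝ᵥ x)) (fS n m ((x ⬝ᵥ x) * C (x ⬝ᵥ x))) (deriv (fS n m) ((x ⬝ᵥ x) * C (x ⬝ᵥ x)))
      (((fS n m ((x ⬝ᵥ x) * C (x ⬝ᵥ x)))⁻¹ - 1) / ((x ⬝ᵥ x) * C (x ⬝ᵥ x))) (M (x ⬝ᵥ x) *ᵥ x)
      (by
        intro h
        have h1 := yy x hx
        rw [h, dotProduct_zero] at h1
        exact (mul_pos (h0.trans hx) (hD _ hx).2.2.2.1).ne h1)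
      (by rw [yy x hx]) (hD _ hx).2.2.2.2.2.2.1.ne' (by rw [yy x hx]) (by rw [yy x hx])
  refine ⟨emb τ M, ⟨?_, ?_⟩, ?_⟩
  · intro x hx x' hx' e
    have e1 : M (x ⬝ᵥ x) *ᵥ x = M (x' ⬝ᵥ x') *ᵥ x' := congrArg Fin.tail e
    have e2 : x ⬝ᵥ x = x' ⬝ᵥ x' := by
      refine (inj hD).injOn hx hx' ?_
      show (x ⬝ᵥ x) * C (x ⬝ᵥ x) = (x' ⬝ᵥ x') * C (x' ⬝ᵥ x')
      rw [← yy x hx, ← yy x' hx', e1]
    rw [← e2] at e1
    have e3 := d00 (hM _ hx).2.2.1 (x - x') (x - x')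
    rw [mulVec_sub, e1, sub_self, dotProduct_zero] at e3
    have e4 : (x - x') ⬝ᵥ (x - x') = 0 :=
      (mul_eq_zero.1 e3.symm).resolve_left (hD _ hx).2.2.2.1.ne'
    exact sub_eq_zero.1 (dotProduct_self_eq_zero.1 e4)
  · intro x hx
    replace hx : t0 < x ⬝ᵥ x := hx
    obtain ⟨j0, j1, j2⟩ := hP n τ M x (hτ _ hx).1 (hM _ hx).1
    obtain ⟨-, s1, s2⟩ := sch x hx
    have hy := yy x hx
    obtain ⟨g1, g2⟩ := hg x hx
    have hφ : emb τ M x = Fin.cons (τ (x ⬝ᵥ x)) (M (x ⬝ᵥ x) *ᵥ x) := rfl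
    have q02 := d02 (W := W) hx (hD _ hx).1 (hM _ hx).1
      (fun s hs => ⟨(hM s hs).2.1, (hM s hs).2.2.2⟩) x
    obtain ⟨-, m1, m2, m3⟩ := hM _ hx
    obtain ⟨-, -, -, p1, p2, p3, p4, -, r2⟩ := hD _ hx
    obtain ⟨hz, -, r3, r4, -, -⟩ := rad1 h0 hD hx
    have r5 := rad2 h0 hD hx rfl rfl rfl rfl rfl rfl rfl rfl
    have t1 : deriv τ (x ⬝ᵥ x) = hh n m C N κ (x ⬝ᵥ x) := (hτ _ hx).2
    have t2 : deriv (deriv τ) (x ⬝ᵥ x) = deriv (hh n m C N κ) (x ⬝ᵥ x) := by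
      refine Filter.EventuallyEq.deriv_eq ?_
      filter_upwards [lt_mem_nhds hx] with s hs
      exact (hτ s hs).2
    rw [← t2] at r5
    unfold hh at t1
    have q11 := d11 p1.ne' m1 m2 m3 x
    have q00 := d00 m2
    have q01 := d01 m3
    have sk := skew m1
    have sk0 := skew0 m1 x
    have tp : 0 < x ⬝ᵥ x := h0.trans hx
    generalize hxx : x ⬝ᵥ x = t at *
    obtain ⟨A1, A2⟩ := hA t (C t) (deriv C t) (deriv (deriv C) t) (κ t) (deriv κ t) (k0 t) (N t)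
      _ _ (zz C N t) (deriv τ t) (deriv (deriv τ) t) _ tp.ne' p1.ne' p4.ne' hz.ne' p3.ne' r3 r4 r2
      rfl t1 r5
    generalize hχ : ((fS n m (t * C t))⁻¹ - 1) / (t * C t) = χ at *
    generalize deriv (fS n m) (t * C t) = f' at *
    generalize fS n m (t * C t) = f at *
    generalize zz C N t = z at *
    generalize deriv (deriv τ) t = τ2 at *
    generalize deriv τ t = τ1 at *
    generalize deriv (deriv C) t = C2 at *
    generalize deriv C t = C1 at *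
    generalize mD (mD M) t = M2 at *
    generalize mD M t = M1 at *
    generalize M t = M0 at *
    generalize C t = C0 at *
    generalize κ t = k at *
    generalize W t = W0 at *
    have e1 : χ * (t * C0) = f⁻¹ - 1 := by rw [← hχ]; field_simp
    have sN : ∀ V : Pt (n + 1), ∑ a, ∑ b, schw n m (Fin.cons (τ t) (M0 *ᵥ x)) a b *
        (Fin.cons (z / f) (k • (M0 *ᵥ x)) : Pt (n + 1)) a * V b =
        -z * V 0 + k / f * ((M0 *ᵥ x) ⬝ᵥ Fin.tail V) := by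
      intro V
      rw [s1]
      simp only [Fin.cons_zero, Fin.tail_cons, smul_dotProduct, dotProduct_smul, smul_eq_mul, hy]
      have : f * f⁻¹ = 1 := mul_inv_cancel₀ p4.ne'
      simp only [div_eq_mul_inv]
      linear_combination (k * ((M0 *ᵥ x) ⬝ᵥ Fin.tail V)) * e1 - z * V 0 * this
    have ya : ∀ i, (M0 *ᵥ x) ⬝ᵥ (M0 *ᵥ Pi.single i 1 + (2 * x i) • (M1 *ᵥ x)) =
        (C0 + t * C1) * x i := by
      intro i
      rw [dotProduct_add, dotProduct_smul, q00, q01, sk0, hxx, dotProduct_single, smul_eq_mul]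
      ring
    have aa : ∀ i j, (M0 *ᵥ Pi.single i 1 + (2 * x i) • (M1 *ᵥ x)) ⬝ᵥ
        (M0 *ᵥ Pi.single j 1 + (2 * x j) • (M1 *ᵥ x)) = C0 * (if i = j then 1 else 0) +
        2 * ((W0 *ᵥ x) i * x j + x i * (W0 *ᵥ x) j) +
        (2 * C1 + t * C1 ^ 2 / C0 + 4 * ((W0 *ᵥ x) ⬝ᵥ (W0 *ᵥ x)) / C0) * (x i * x j) := by
      intro i j
      simp only [dotProduct_add, add_dotProduct, dotProduct_smul, smul_dotProduct, smul_eq_mul]
      rw [dotProduct_comm (M1 *ᵥ x) (M0 *ᵥ _), q00, q01, q01, q11]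
      simp only [single_dotProduct, one_mul, Pi.single_apply]
      ring
    have gg : ∀ i j, g x i j = C0 * (if i = j then 1 else 0) +
        2 * ((W0 *ᵥ x) i * x j + x i * (W0 *ᵥ x) j) +
        ((N t - C0) / t + 4 * ((W0 *ᵥ x) ⬝ᵥ (W0 *ᵥ x)) / C0) * (x i * x j) := by
      intro i j
      rw [g1]
      simp only [Matrix.add_apply, Matrix.smul_apply, vecMulVec_apply, smul_eq_mul, Matrix.one_apply]
    have k1 : ∀ i, pd i (fun y => emb τ M y 0) x = 2 * x i * τ1 := fun i => congrFun (j1 i) 0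
    have k2 : ∀ i j, pd i (pd j fun y => emb τ M y 0) x =
        2 * (if i = j then 1 else 0) * τ1 + 4 * x i * x j * τ2 := fun i j => congrFun (j2 i j) 0
    refine ⟨j0, Fin.cons (z / f) (k • (M0 *ᵥ x)), ?_, ?_, ?_, fun i j => ⟨?_, ?_⟩⟩
    · rw [Fin.cons_zero]
      positivity
    · rw [hφ, sN]
      simp only [Fin.cons_zero, Fin.tail_cons, dotProduct_smul, smul_eq_mul, hy]
      field_simp
      linarith
    · intro i
      have := sN (fun a => pd i (fun y => emb τ M y a) x)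
      rw [hφ, this, j1 i, k1, Fin.tail_cons, ya, t1]
      field_simp
      ring
    · have := s1 (fun a => pd i (fun y => emb τ M y a) x) (fun a => pd j (fun y => emb τ M y a) x)
      rw [hφ, this, j1 i, j1 j, k1, k1, gg]
      simp only [Fin.tail_cons]
      rw [ya, ya, aa]
      linear_combination (-(x i * x j)) * A1
    · have u1 := sN (fun a => pd i (pd j fun y => emb τ M y a) x)
      have u2 := s2 (Fin.cons (z / f) (k • (M0 *ᵥ x))) (fun a => pd i (fun y => emb τ M y a) x)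
        (fun a => pd j (fun y => emb τ M y a) x)
      simp only [mul_add, Finset.sum_add_distrib]
      rw [hφ, u1, u2, j1 i, j1 j, j2 i j, k1, k1, k2, g2]
      simp only [Fin.cons_zero, Fin.tail_cons, Matrix.add_apply, Matrix.smul_apply,
        vecMulVec_apply, smul_eq_mul]
      rw [ya, ya, aa, gg]
      simp only [dotProduct_add, dotProduct_smul, smul_eq_mul, hy]
      rw [q02, q11, q01, q01, q01, sk0, sk x, sk x, hxx]
      simp only [dotProduct_single, mul_one]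
      have := algK (xi := x i) (xj := x j) (wi := (W0 *ᵥ x) i) (wj := (W0 *ᵥ x) j)
        (δ := if i = j then 1 else 0) (ww := (W0 *ᵥ x) ⬝ᵥ (W0 *ᵥ x))
        tp.ne' p1.ne' p4.ne' hz.ne' hχ.symm t1 A2
      linear_combination this
  · intro x hx
    have h1 := (sch x hx).1
    have h2 : Fin.tail (emb τ M x) = M (x ⬝ᵥ x) *ᵥ x := rfl
    rw [h2, h1]
    exact (hD _ hx).2.2.2.2.2.2.1

end Vale.Agent.P366R
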