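import Vale.Agent.P366R.Stm

/-! The pointwise algebra of the embedding and the primitive of a smooth function. -/

namespace Vale.Agent.P366R

open scoped Matrix ContDiff Topology
open Filter Set Matrix

theorem embAlg_pf : EmbAlgStmt := by
  intro t C C1 C2 κ κ1 k0 N f f' z τ1 τ2 χ ht hC hf hz _ ef eN ek eχ e1 e2
  obtain rfl : κ1 = (C + t * C1) * (k0 - κ) / (2 * t * C) := by
    rw [← ek]
    field_simp
  subst eN eχ e1 e2
  constructor
  · field_simp
    rw [ef]
    ring
  · field_simp
    rw [ef]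
    ring

theorem tau_pf : TauStmt := by
  intro h t0 hh
  have hc : ContinuousOn h (Ioi t0) := fun t ht => (hh t ht).continuousAt.continuousWithinAt
  have hd : ∀ t ∈ Ioi t0, HasDerivAt (fun u => ∫ x in (t0 + 1)..u, h x) (h t) t := fun t ht =>
    intervalIntegral.integral_hasDerivAt_right
      ((hc.mono (ordConnected_Ioi.uIcc_subset (by simp) ht)).intervalIntegrable)
      (hc.stronglyMeasurableAtFilter isOpen_Ioi t ht) (hh t ht).continuousAt
  have hs : ContDiffOn ℝ ∞ (fun u => ∫ x in (t0 + 1)..u, h x) (Ioi t0) :=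
    (contDiffOn_infty_iff_deriv_of_isOpen isOpen_Ioi).2
      ⟨fun t ht => (hd t ht).differentiableAt.differentiableWithinAt,
        ContDiffOn.congr (fun t ht => (hh t ht).contDiffWithinAt) fun t ht => (hd t ht).deriv⟩
  exact ⟨_, fun t ht => ⟨hs.contDiffAt (isOpen_Ioi.mem_nhds ht), (hd t ht).deriv⟩⟩

end Vale.Agent.P366R
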