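import Vale.Agent.P366R.Stm
import Vale.Agent.P366S.KeyDiag

/-! The Raychaudhuri-type inequalities for a diagonal vertical metric, equality case. -/

namespace Vale.Agent.P366R

open scoped Matrix ContDiff Topology
open Filter Set Matrix
open Vale.Agent.P366 (ll)
open Vale.Agent.P366S

namespace KeyDiagEq

/-- The off diagonal terms. -/
noncomputable def off (A K : Fin 3 → Fin 3 → ℝ) (g : Fin 3 → ℝ) (σ ε : ℝ) : ℝ :=
  (A 0 1 * σ + ε * K 0 1) ^ 2 / (g 0 * g 1) + (A 0 2 * σ + ε * K 0 2) ^ 2 / (g 0 * g 2)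
    + (A 1 2 * σ + ε * K 1 2) ^ 2 / (g 1 * g 2)

theorem off_nonneg (A K : Fin 3 → Fin 3 → ℝ) {g : Fin 3 → ℝ} (hg : ∀ a, 0 < g a) (σ ε : ℝ) :
    0 ≤ off A K g σ ε := by
  have := hg 0
  have := hg 1
  have := hg 2
  unfold off
  positivity

theorem off_zero {A K : Fin 3 → Fin 3 → ℝ} {g : Fin 3 → ℝ} (hg : ∀ a, 0 < g a) {σ ε : ℝ}
    (h : off A K g σ ε ≤ 0) :
    A 0 1 * σ + ε * K 0 1 = 0 ∧ A 0 2 * σ + ε * K 0 2 = 0 ∧ A 1 2 * σ + ε * K 1 2 = 0 := by
  have z : ∀ (x : ℝ) (a b : Fin 3), 0 ≤ x ^ 2 / (g a * g b) := fun x a b =>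
    div_nonneg (sq_nonneg _) (mul_pos (hg a) (hg b)).le
  have w : ∀ (x : ℝ) (a b : Fin 3), x ^ 2 / (g a * g b) ≤ 0 → x = 0 := fun x a b hx => by
    have h0 := le_antisymm hx (z x a b)
    rcases div_eq_zero_iff.1 h0 with h1 | h1
    · exact pow_eq_zero_iff two_ne_zero |>.1 h1
    · exact absurd h1 (mul_pos (hg a) (hg b)).ne'
  have z1 := z (A 0 1 * σ + ε * K 0 1) 0 1
  have z2 := z (A 0 2 * σ + ε * K 0 2) 0 2
  have z3 := z (A 1 2 * σ + ε * K 1 2) 1 2
  unfold off at h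
  exact ⟨w _ 0 1 (by linarith), w _ 0 2 (by linarith), w _ 1 2 (by linarith)⟩

theorem dbl (A K : Fin 3 → Fin 3 → ℝ) (g : Fin 3 → ℝ) (hg : ∀ a, 0 < g a) (σ ε : ℝ)
    (he : ε ^ 2 = 1) :
    ∑ a, (A a a / g a * σ + ε * (K a a / g a)) ^ 2 + off A K g σ ε ≤
      σ ^ 2 * ∑ i, ∑ j, A i j ^ 2 / (g i * g j) + 2 * ε * σ * ∑ i, ∑ j, A i j * K i j / (g i * g j)
        + ∑ i, ∑ j, K i j ^ 2 / (g i * g j) := by
  have e : σ ^ 2 * ∑ i, ∑ j, A i j ^ 2 / (g i * g j)
      + 2 * ε * σ * ∑ i, ∑ j, A i j * K i j / (g i * g j) + ∑ i, ∑ j, K i j ^ 2 / (g i * g j) =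
      ∑ i, ∑ j, (A i j * σ + ε * K i j) ^ 2 / (g i * g j) := by
    simp only [Finset.mul_sum, ← Finset.sum_add_distrib]
    refine Finset.sum_congr rfl fun i _ => Finset.sum_congr rfl fun j _ => ?_
    linear_combination (-(K i j ^ 2 / (g i * g j))) * he
  have d : ∀ a, (A a a / g a * σ + ε * (K a a / g a)) ^ 2 =
      (A a a * σ + ε * K a a) ^ 2 / (g a * g a) := fun a => by
    have := (hg a).ne'
    field_simp
  have z : ∀ a b : Fin 3, 0 ≤ (A a b * σ + ε * K a b) ^ 2 / (g a * g b) := fun a b =>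
    div_nonneg (sq_nonneg _) (mul_pos (hg a) (hg b)).le
  rw [e]
  simp only [d, Fin.sum_univ_three, off]
  linarith [z 1 0, z 2 0, z 2 1]

theorem alg {q t N σ ε h h' W P P' R k0 U l kh SA SAK SK S X : ℝ} (ht : 0 < t) (hN : 0 < N)
    (hσ : 0 < σ) (e : σ ^ 2 = 1 / N / t) (he : ε = 1 ∨ ε = -1)
    (hS : S + X ≤ σ ^ 2 * SA + 2 * ε * σ * SAK + SK)
    (hD : |-2 * t * (1 / N) * P' + (h * k0 - SAK - q * l * kh) / N| / (t * σ) ≤
      (-4 * (1 / N) * h' + (R + 2 * h * W + 2 * h / (t * N) - h ^ 2 / (t * N)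
        - (SA + q * l ^ 2) / (t * N)) + (k0 + P) ^ 2
        - (k0 ^ 2 + 2 * N * U + SK + q * kh ^ 2)) / 2) :
    2 * (1 / N) * h' + h * (-W - σ ^ 2) + ε * (2 * t * σ * P') + (N * U + X / 2) ≤
      R / 2 + ε * k0 * (h * σ + ε * P) - ((h * σ) ^ 2 - P ^ 2) / 2
        - (S + q * (l * σ + ε * kh) ^ 2) / 2 := by
  have h0 := KeyDiag.alg (q := q) (t := t) (N := N) (σ := σ) (ε := ε) (h := h) (h' := h')
    (W := W) (P := P) (P' := P') (R := R) (k0 := k0) (U := 0) (l := l) (kh := kh) (SA := SA)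
    (SAK := SAK) (SK := 2 * N * U + SK) (S := S + X + 2 * N * U) ht hN hσ e he le_rfl
    (by linarith) (by linarith)
  linarith

end KeyDiagEq

theorem keyDiagEq_pf (hR : P366S.AlgRStmt) (hJ : P366S.AlgJStmt) (hK : P366S.AlgKStmt)
    (hH : P366S.HhStmt) (hJac : P366S.JacStmt) (hReg : P366S.RegStmt) : KeyDiagEqStmt := by
  intro q D t hq ht hF hC h12 h13 h23 hD g1 g' κ k0 eg eg' eκ ek
  obtain ⟨N, b, g, hN, hg, e⟩ := KeyDiag.form (D.sF t) hF h12 h13 h23
  have sF' := KeyDiag.md_symm D.sF t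
  have sK' := KeyDiag.md_symm D.sK t
  have g0 : ∀ a, g a ≠ 0 := fun a => (hg a).ne'
  obtain ⟨k1, k2, k3, k4, k5⟩ := hK q t N b g (md D.F t) (D.K t) (D.C t) (deriv D.C t) hN.ne' g0
    sF' (D.sK t)
  have r1 := hR q t N b g (md D.F t) (D.C t) (deriv D.C t) ht.ne' hN.ne' g0 hC.ne' sF'
  have j1 := hJ q t N b g (md D.F t) (D.K t) (md D.K t) (D.C t) (deriv D.C t) (D.c t) ht.ne' hN.ne'
    g0 hC.ne' sF' (D.sK t) sK'
  have eG : (D.F t)⁻¹ = GD N b g := by rw [e]; exact inv_eq_left_inv k1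
  have G00 : GD N b g 0 0 = 1 / N := rfl
  have ep : (D.F t)⁻¹ 0 0 = 1 / N := by rw [eG, G00]
  have hdet := hF.det_pos.ne'
  obtain ⟨h1, h2, h3⟩ := hH q D t ht hdet (by rw [ep]; positivity)
  obtain ⟨-, -, dp, -⟩ := hJac.2 D.F t (D.hF t ht) hdet
  obtain ⟨p0, -, e30, -, -, -, c3, cC, -⟩ := hReg q D t ht hF hC
  have dP : HasDerivAt (toSca q D).p (-(GD N b g * md D.F t * GD N b g) 0 0) t := by
    rw [← eG]; exact dp 0 0
  have ep' : (toSca q D).p t = 1 / N := ep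
  have d3 : DifferentiableAt ℝ (deriv (toSca q D).e3) t :=
    (c3.derivWithin (m := 1) le_rfl).differentiableAt one_ne_zero
  have dC : DifferentiableAt ℝ (deriv (toSca q D).C) t :=
    (cC.derivWithin (m := 1) le_rfl).differentiableAt one_ne_zero
  have dh : DifferentiableAt ℝ (hh q (toSca q D)) t :=
    (((differentiableAt_id.mul d3).div (c3.differentiableAt two_ne_zero) e30.ne').const_add 3).add
      ((((differentiableAt_id.mul dC).div (cC.differentiableAt two_ne_zero) hC.ne').const_add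
        1).const_mul q)
  have q0 : 0 < (toSca q D).p t / t := div_pos p0 ht
  have s0 : 0 < sg (toSca q D) t := Real.sqrt_pos.2 q0
  have s2 : sg (toSca q D) t ^ 2 = 1 / N / t := by rw [← ep']; exact Real.sq_sqrt q0.le
  have dH : HasDerivAt (H1 q (toSca q D)) _ t :=
    dh.hasDerivAt.fun_mul ((dP.fun_div (hasDerivAt_id' t) ht.ne').sqrt q0.ne')
  have eH : 2 * t * sg (toSca q D) t * deriv (H1 q (toSca q D)) t =
      2 * (1 / N) * deriv (hh q (toSca q D)) t + hh q (toSca q D) t *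
        (-(GD N b g * md D.F t * GD N b g) 0 0 - sg (toSca q D) t ^ 2) := by
    have e1 : 1 / N = t * sg (toSca q D) t ^ 2 := by rw [s2]; field_simp
    rw [dH.deriv, ep', e1]
    have e2 : √(t * sg (toSca q D) t ^ 2 / t) = sg (toSca q D) t := by
      rw [mul_div_cancel_left₀ _ ht.ne', Real.sqrt_sq s0.le]
    rw [e2]
    field_simp
  have es : √(t * (1 / N)) = t * sg (toSca q D) t := by
    rw [Real.sqrt_eq_iff_mul_self_eq (by positivity) (by positivity)]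
    have : t * sg (toSca q D) t * (t * sg (toSca q D) t) = t ^ 2 * sg (toSca q D) t ^ 2 := by ring
    rw [this, s2]
    field_simp
  have eP : (toSca q D).P t = ∑ a : Fin 3, D.K t a.succ a.succ / g a + q * (D.c t / D.C t) := by
    rw [← k4]
    show ((D.F t)⁻¹ * D.K t).trace - ((D.F t)⁻¹ * D.K t * (D.F t)⁻¹) 0 0 / (D.F t)⁻¹ 0 0
      + q * (D.c t / D.C t) = _
    rw [eG, G00, div_div_eq_mul_div, div_one]
  have eT : TT q (GD N b g) (D.K t) (D.C t) (D.c t) =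
      (GD N b g * D.K t * GD N b g) 0 0 * N + (toSca q D).P t := by
    rw [eP, ← k4, TT]
    ring
  have eA : ∀ a : Fin 3, 1 + t * md D.F t a.succ a.succ / g a =
      AA t b g (md D.F t) a a / g a := fun a => by
    rw [eq_div_iff (g0 a), add_mul, one_mul, div_mul_cancel₀ _ (g0 a)]
    fin_cases a <;> rfl
  have eg1 : g1 = g := by
    rw [eg, e]
    funext a
    fin_cases a <;> rfl
  have ek0 : k0 = (GD N b g * D.K t * GD N b g) 0 0 * N := by
    rw [ek, eG, G00, div_div_eq_mul_div, div_one]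
  rw [eg1] at eκ ⊢
  have hU : 0 ≤ ∑ a : Fin 3, (D.K t *ᵥ (GD N b g *ᵥ e0)) a.succ ^ 2 / g a :=
    Finset.sum_nonneg fun a _ => div_nonneg (sq_nonneg _) (hg a).le
  have main : ∀ ε : ℝ, ε = 1 ∨ ε = -1 → keyL q (toSca q D) t ε +
      (N * ∑ a : Fin 3, (D.K t *ᵥ (GD N b g *ᵥ e0)) a.succ ^ 2 / g a +
        KeyDiagEq.off (AA t b g (md D.F t)) (fun i j => D.K t i.succ j.succ) g
          (sg (toSca q D) t) ε / 2) ≤ keyR q (toSca q D) t g g' κ k0 (D.c t / D.C t) ε := by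
    intro ε he
    unfold DecM at hD
    rw [eG, G00, es, eT, k5] at hD
    rw [eG] at h1
    rw [← e, ← h1] at r1 j1
    rw [r1, j1] at hD
    unfold keyL keyR
    rw [eH, eg', eκ, ek0]
    simp only [eA]
    exact KeyDiagEq.alg ht hN s0 s2 he
      (KeyDiagEq.dbl (AA t b g (md D.F t)) (fun i j => D.K t i.succ j.succ) g hg _ ε
        (by rcases he with rfl | rfl <;> norm_num)) hD
  have hNU := mul_nonneg hN.le hU
  refine ⟨⟨hg, ?_, ?_, eg' ▸ h3, ?_, eκ ▸ eP, fun ε he => ?_⟩, fun hE => ?_⟩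
  · show ((D.F t).submatrix Fin.succ Fin.succ).trace = _
    rw [e, trace_fin_three, Fin.sum_univ_three]
    rfl
  · show ((D.F t).submatrix Fin.succ Fin.succ).det = _
    rw [e, det_fin_three, Fin.prod_univ_three]
    simp [FD]
  · rw [h2, eg', ← k3, eG, G00, div_div_eq_mul_div, div_one]
  · have m := main ε he
    have o := KeyDiagEq.off_nonneg (AA t b g (md D.F t)) (fun i j => D.K t i.succ j.succ) hg
      (sg (toSca q D) t) ε
    linarith
  · have m1 := main 1 (Or.inl rfl)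
    have m2 := main (-1) (Or.inr rfl)
    rw [hE 1 (Or.inl rfl)] at m1
    rw [hE (-1) (Or.inr rfl)] at m2
    have o1 := KeyDiagEq.off_nonneg (AA t b g (md D.F t)) (fun i j => D.K t i.succ j.succ) hg
      (sg (toSca q D) t) 1
    obtain ⟨a1, a2, a3⟩ := KeyDiagEq.off_zero (A := AA t b g (md D.F t))
      (K := fun i j => D.K t i.succ j.succ) hg (σ := sg (toSca q D) t) (ε := 1) (by linarith)
    obtain ⟨b1, b2, b3⟩ := KeyDiagEq.off_zero (A := AA t b g (md D.F t))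
      (K := fun i j => D.K t i.succ j.succ) hg (σ := sg (toSca q D) t) (ε := -1) (by linarith)
    have c1 : D.K t (0 : Fin 3).succ (1 : Fin 3).succ = 0 := by linarith
    have c2 : D.K t (0 : Fin 3).succ (2 : Fin 3).succ = 0 := by linarith
    have c3' : D.K t (1 : Fin 3).succ (2 : Fin 3).succ = 0 := by linarith
    refine ⟨c1, c2, c3', fun a => ?_⟩
    have hz : N * ∑ a : Fin 3, (D.K t *ᵥ (GD N b g *ᵥ e0)) a.succ ^ 2 / g a = 0 := by linarith
    have hz2 := (mul_eq_zero.1 hz).resolve_left hN.ne'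
    have hz3 := (Finset.sum_eq_zero_iff_of_nonneg
      (fun a _ => div_nonneg (sq_nonneg _) (hg a).le)).1 hz2 a (Finset.mem_univ a)
    rw [eG]
    exact pow_eq_zero_iff two_ne_zero |>.1 ((div_eq_zero_iff.1 hz3).resolve_right (g0 a))

end Vale.Agent.P366R
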