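import Vale.Agent.P366R.Stm
import Vale.Agent.P371.LinODE

/-! Global smooth solutions of linear systems on a half line. -/

namespace Vale.Agent.P366R

open scoped Matrix ContDiff Topology
open Filter Set Matrix

namespace LinOdeAux

variable {E : Type} [NormedAddCommGroup E] [NormedSpace ℝ E]

theorem uniq {B : ℝ → E →L[ℝ] E} (hB : Continuous B) {a b : ℝ} {f g : ℝ → E}
    (hf : ∀ t ∈ Icc a b, HasDerivAt f (B t (f t)) t) (hg : ∀ t ∈ Icc a b, HasDerivAt g (B t (g t)) t)
    (h : f a = g a) : EqOn f g (Icc a b) := by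
  obtain ⟨M, hM⟩ := (isCompact_Icc (a := a) (b := b)).exists_bound_of_continuousOn hB.continuousOn
  refine ODE_solution_unique_of_mem_Icc_right (v := fun t y => B t y) (s := fun _ => univ)
    (K := M.toNNReal) (fun t ht => ?_) (HasDerivAt.continuousOn hf)
    (fun t ht => (hf t (Ico_subset_Icc_self ht)).hasDerivWithinAt) (fun _ _ => mem_univ _)
    (HasDerivAt.continuousOn hg)
    (fun t ht => (hg t (Ico_subset_Icc_self ht)).hasDerivWithinAt) (fun _ _ => mem_univ _) h
  refine ((B t).lipschitz.weaken ?_).lipschitzOnWith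
  exact NNReal.coe_le_coe.mp ((hM t (Ico_subset_Icc_self ht)).trans (Real.le_coe_toNNReal M))

variable [CompleteSpace E]

theorem fwd {B : ℝ → E →L[ℝ] E} (hB : Continuous B) (a : ℝ) (x : E) :
    ∃ γ : ℝ → E, γ a = x ∧ ∀ t, a ≤ t → HasDerivWithinAt γ (B t (γ t)) (Ici a) t := by
  have h1 : ∀ n : ℕ, ∃ γ : ℝ → E, γ a = x ∧
      ∀ t ∈ Icc a (a + (n + 1)), HasDerivAt γ (B t (γ t)) t := by
    intro n
    obtain ⟨Y, -, hY⟩ := P371.exists_linODE (P := Unit) (fun _ => B) (hB.comp continuous_snd)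
      (fun _ => x) continuous_const (a := a) (b := a + (n + 1))
      (lt_add_of_pos_right a (Nat.cast_add_one_pos n))
    exact ⟨Y (), hY ()⟩
  choose γ h0 hγ using h1
  have h2 : ∀ m n : ℕ, m ≤ n → EqOn (γ m) (γ n) (Icc a (a + (m + 1))) := by
    intro m n hmn
    have : (m : ℝ) ≤ n := Nat.cast_le.mpr hmn
    exact uniq hB (hγ m) (fun t ht => hγ n t ⟨ht.1, by linarith [ht.2]⟩) ((h0 m).trans (h0 n).symm)
  refine ⟨fun t => γ ⌊t - a⌋₊ t, h0 _, fun t ht => ?_⟩
  have h3 : ∀ r ∈ Icc a (t + 1), γ ⌊r - a⌋₊ r = γ ⌊t + 1 - a⌋₊ r := by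
    intro r hr
    refine h2 _ _ (Nat.floor_le_floor (by linarith [hr.2])) ⟨hr.1, ?_⟩
    linarith [Nat.lt_floor_add_one (r - a)]
  have h4 : t ∈ Icc a (t + 1) := ⟨ht, by linarith⟩
  have h5 := hγ ⌊t + 1 - a⌋₊ t ⟨ht, by linarith [Nat.lt_floor_add_one (t + 1 - a)]⟩
  rw [← h3 t h4] at h5
  refine h5.hasDerivWithinAt.congr_of_eventuallyEq ?_ (h3 t h4)
  filter_upwards [self_mem_nhdsWithin, mem_nhdsWithin_of_mem_nhds (Iic_mem_nhds (lt_add_one t))]
    with r hr hr'
  exact h3 r ⟨hr, hr'⟩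

theorem glob {B : ℝ → E →L[ℝ] E} (hB : Continuous B) (a : ℝ) (x : E) :
    ∃ γ : ℝ → E, γ a = x ∧ ∀ t, HasDerivAt γ (B t (γ t)) t := by
  obtain ⟨f, hf0, hf⟩ := fwd hB a x
  obtain ⟨g, hg0, hg⟩ := fwd (B := fun t => -B (-t)) (hB.comp continuous_neg).neg (-a) x
  have hg' : ∀ t, t ≤ a → HasDerivWithinAt (fun r => g (-r)) (B t (g (-t))) (Iic a) t := by
    intro t ht
    have := (hg (-t) (neg_le_neg ht)).scomp t (hasDerivAt_neg t).hasDerivWithinAt
      (fun r (hr : r ∈ Iic a) => mem_Ici.mpr (neg_le_neg (mem_Iic.mp hr)))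
    simpa [Function.comp_def] using this
  have e1 : ∀ r ∈ Iic a, (if r ≤ a then g (-r) else f r) = g (-r) := fun r hr => if_pos hr
  have e2 : ∀ r ∈ Ici a, (if r ≤ a then g (-r) else f r) = f r := by
    intro r hr
    split_ifs with h
    · rw [le_antisymm h hr, hg0, hf0]
    · rfl
  refine ⟨fun r => if r ≤ a then g (-r) else f r, (e2 a self_mem_Ici).trans hf0, fun t => ?_⟩
  have d1 : t ≤ a → HasDerivWithinAt (fun r => if r ≤ a then g (-r) else f r)
      (B t (if t ≤ a then g (-t) else f t)) (Iic a) t := fun h => by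
    rw [e1 t h]; exact (hg' t h).congr e1 (e1 t h)
  have d2 : a ≤ t → HasDerivWithinAt (fun r => if r ≤ a then g (-r) else f r)
      (B t (if t ≤ a then g (-t) else f t)) (Ici a) t := fun h => by
    rw [e2 t h]; exact (hf t h).congr e2 (e2 t h)
  rcases lt_trichotomy t a with h | h | h
  · exact (d1 h.le).hasDerivAt (Iic_mem_nhds h)
  · have := (d1 h.le).union (d2 h.ge)
    rwa [Iic_union_Ici, hasDerivWithinAt_univ] at this
  · exact (d2 h.le).hasDerivAt (Ici_mem_nhds h)

end LinOdeAux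

theorem linOde_pf : LinOdeStmt := by
  intro A t0 t1 s1 h01 hA
  let B : ℝ → (Fin 4 → ℝ) →L[ℝ] (Fin 4 → ℝ) := fun u =>
    Real.exp u • LinearMap.toContinuousLinearMap (Matrix.toLin' (A (t0 + Real.exp u)))
  have hBv : ∀ u v, B u v = Real.exp u • (A (t0 + Real.exp u) *ᵥ v) := fun u v => rfl
  have hc : ∀ a b, Continuous fun u => A (t0 + Real.exp u) a b := fun a b =>
    continuous_iff_continuousAt.mpr fun u =>
      ContinuousAt.comp (f := fun u => t0 + Real.exp u) (g := fun s => A s a b)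
        (hA _ (lt_add_of_pos_right t0 (Real.exp_pos u)) a b).continuousAt (by fun_prop)
  have hB : Continuous B := by
    refine continuous_clm_apply.mpr fun v => ?_
    simp only [hBv]
    refine Real.continuous_exp.smul (continuous_pi fun a => ?_)
    show Continuous fun u => ∑ b, A (t0 + Real.exp u) a b * v b
    exact continuous_finsetSum _ fun b _ => (hc a b).mul continuous_const
  obtain ⟨y, hy0, hy⟩ := LinOdeAux.glob hB (Real.log (t1 - t0)) s1
  have hd : ∀ t, t0 < t → HasDerivAt (fun r => y (Real.log (r - t0)))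
      (A t *ᵥ y (Real.log (t - t0))) t := by
    intro t ht
    have hp : 0 < t - t0 := sub_pos.mpr ht
    have h1 : HasDerivAt (fun r => Real.log (r - t0)) (1 / (t - t0)) t :=
      ((hasDerivAt_id' t).sub_const t0).log hp.ne'
    have h2 := (hy (Real.log (t - t0))).scomp t h1
    rw [hBv, Real.exp_log hp, add_sub_cancel, smul_smul, one_div, inv_mul_cancel₀ hp.ne',
      one_smul] at h2
    exact h2
  have hda : ∀ t, t0 < t → ∀ a, HasDerivAt (fun r => y (Real.log (r - t0)) a)
      ((A t *ᵥ y (Real.log (t - t0))) a) t := fun t ht a => hasDerivAt_pi.mp (hd t ht) a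
  have hs : ∀ (n : ℕ) (a : Fin 4), ContDiffOn ℝ n (fun r => y (Real.log (r - t0)) a) (Ioi t0) := by
    intro n
    induction n with
    | zero =>
      intro a
      exact contDiffOn_zero.mpr fun t ht => (hda t ht a).continuousAt.continuousWithinAt
    | succ n ih =>
      intro a
      rw [Nat.cast_succ, contDiffOn_succ_iff_deriv_of_isOpen isOpen_Ioi]
      refine ⟨fun t ht => (hda t ht a).differentiableAt.differentiableWithinAt,
        fun h => absurd h (by simp), ?_⟩
      refine ContDiffOn.congr (f := fun t => ∑ b, A t a b * y (Real.log (t - t0)) b) ?_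
        (fun t ht => (hda t ht a).deriv)
      refine ContDiffOn.sum fun b _ => ContDiffOn.mul (fun t ht => ?_) (ih b)
      exact ((hA t ht a b).of_le (by exact_mod_cast le_top)).contDiffWithinAt
  refine ⟨fun r => y (Real.log (r - t0)), hy0, fun t ht a => ⟨?_, (hda t ht a).deriv⟩⟩
  exact (contDiffOn_infty.mpr fun n => hs n a).contDiffAt (Ioi_mem_nhds ht)

end Vale.Agent.P366R
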