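import Vale.Agent.P366R.MainS

/-! Assembly: general boundary and equality case for `Spin(9)`. -/

namespace Vale.Agent.P366R

open scoped Matrix ContDiff Topology
open Filter Set
open Vale.Agent.P366 (Pt Ten rad mu cur curNorm meanCurv trS omega area energyFlux momFlux Decay
  Dat exists_rad)
open Vale.Agent.P366C
open Vale.Agent.P366N

/-- Reduction of invariant data to the radial functions. -/
def SetupSpin : Prop :=
  ∀ (J : Fin 9 → Matrix (Fin 16) (Fin 16) ℝ), IsCliff J →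
    ∀ (g K : Ten 16) (R E : ℝ) (P : Pt 16), Exterior g K R → Invt (spinGroup J) g R →
    Invt (spinGroup J) K R → (∀ x, R < rad x → curNorm g K x ≤ mu g K x) →
    Tendsto (energyFlux g) atTop (𝓝 E) → (∀ i, Tendsto (momFlux g K i) atTop (𝓝 (P i))) →
    ∃ D : Dat, (∀ x, R ≤ rad x → g x = hopf J D.A D.B D.C x ∧ K x = hopf J D.a D.b D.c x) ∧
      (∀ t, R ^ 2 ≤ t → 0 < D.A t ∧ 0 < D.B t ∧ 0 < D.C t) ∧
      (∀ x, R ≤ rad x → meanCurv g x + trS g K x = H1 D (x ⬝ᵥ x) + PP D (x ⬝ᵥ x)) ∧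
      (∀ r, R ≤ r → area g r / omega 16 = ar1 D (r ^ 2)) ∧ rad P = 0 ∧
      (∀ t, R ^ 2 < t → |J1 D t| / √(t * D.A t) ≤ mu1 D t) ∧ Asym D ∧
      Tendsto (fun t : ℝ => √t ^ 14 * F1 D t / 30) atTop (𝓝 E)

theorem setup_spin (hS : ScalStmt) (hK : KStmt) (hH : HStmt) (hC : CurStmt)
    (hCs : CsStmt) (hF : FluxStmt) (hD : DecayStmt) (hSm : SmoothStmt) (hCg : CongrStmt)
    (hI : Inv9Stmt) : SetupSpin := by
  rintro J hJ g K R E P ⟨hR, ⟨R₀, hR₀, hsm⟩, hpd, τ, hτ, hdec⟩ hg hKi hDEC hE hP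
  obtain ⟨A, B, C, eg, hA, hB, hC'⟩ := hI J g R₀ R hJ hR hR₀ (fun x hx i j => (hsm x hx i j).1)
    (fun x hx => by simpa using (hpd x hx).1.1.eq) hg
  obtain ⟨a, b, c, eK, ha, hb, hc⟩ := hI J K R₀ R hJ hR hR₀ (fun x hx i j => (hsm x hx i j).2)
    (fun x hx => (hpd x hx).2) hKi
  let D : Dat := ⟨A, B, C, a, b, c, hA, hB, hC', ha, hb, hc⟩
  have cg := fun R' (hR' : R ≤ R') => hCg 16 g (hopf J D.A D.B D.C) K (hopf J D.a D.b D.c) R'
    (hR.trans_le hR') (fun x hx => ⟨eg x (hR'.trans hx), eK x (hR'.trans hx)⟩) (fun x hx i j =>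
      ⟨(hsm x (hR₀.trans_le (hx ▸ hR')) i j).1.of_le (by exact_mod_cast le_top),
        (hSm J A B C x (ne_zero_of_rad hR (hx ▸ hR')) hA hB hC' i j).of_le (by norm_num)⟩)
  obtain ⟨c1, -, c3, c4, c5⟩ := cg R le_rfl
  have hn0 : 0 < 16 := by omega
  have hR2 : 0 < R ^ 2 := by positivity
  have hpos : ∀ t, R ^ 2 ≤ t → 0 < D.A t ∧ 0 < D.B t ∧ 0 < D.C t := by
    intro t ht
    obtain ⟨x, hx, hxt, hrx⟩ := exists_rad hn0 (hR2.trans_le ht)
    have h1 : R ≤ rad x := by rw [hrx]; exact Real.le_sqrt_of_sq_le ht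
    have h2 := (hpd x h1).1
    rw [eg x h1, hopf, hxt] at h2
    exact pos_of_blk9 hJ hx h2
  have hfl : ∀ r, R ≤ r → _ := fun r hr =>
    have h2 : R ^ 2 ≤ r ^ 2 := by gcongr
    hF J D r hJ (hR.trans_le hr) (hpos _ h2).1 (hpos _ h2).2.1 (hpos _ h2).2.2
  have hP0 : P = 0 := by
    funext i
    refine tendsto_nhds_unique (hP i) ?_
    refine tendsto_const_nhds.congr' ?_
    filter_upwards [eventually_gt_atTop R] with r hr
    exact (((c4 r hr).2 i).trans ((hfl r hr.le).2.1 i)).symm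
  refine ⟨D, fun x hx => ⟨eg x hx, eK x hx⟩, hpos, fun x hx => ?_, fun r hr => ?_,
    by simp [hP0, rad], fun t ht => ?_,
    hD J D (R + 1) τ hJ (by linarith) (by norm_num at hτ; linarith) (c5 τ hdec), ?_⟩
  · have hx0 := ne_zero_of_rad hR hx
    obtain ⟨hA, hB, hC'⟩ := hpos (x ⬝ᵥ x) (by rw [← rad_sq]; gcongr)
    obtain ⟨e1, e2⟩ := (cg (rad x) hx).2.1 x rfl
    rw [e1, e2, hH J D x hJ hx0 hA hB.ne' hC'.ne', (hK J D x hJ hx0 hA hB.ne' hC'.ne').2.2.1]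
  · rw [c3 r hr, (hfl r hr).2.2]
  · obtain ⟨x, hx, hxt, hrx⟩ := exists_rad hn0 (hR2.trans ht)
    obtain ⟨hA, hB, hC'⟩ := hpos t ht.le
    rw [← hxt] at hA hB hC'
    have h0 : R < rad x := by rw [hrx]; exact Real.lt_sqrt_of_sq_lt ht
    have h1 := hDEC x h0
    rw [(c1 x h0).1, (c1 x h0).2] at h1
    have h2 := hCs J x (fun j => cur (hopf J D.A D.B D.C) (hopf J D.a D.b D.c) j x) _ _ _ hJ hx
      hA hB hC'
    rw [hC J D x hJ hx hA hB.ne' hC'.ne'] at h2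
    obtain ⟨k1, k2, -, -⟩ := hK J D x hJ hx hA hB.ne' hC'.ne'
    rw [mu, hS J D x hJ hx hA.ne' hB.ne' hC'.ne', k1, k2] at h1
    rw [← hxt]
    exact h2.trans h1
  · refine (hE.comp Real.tendsto_sqrt_atTop).congr' ?_
    filter_upwards [eventually_gt_atTop (R ^ 2)] with t ht
    have h1 : R < √t := Real.lt_sqrt_of_sq_lt ht
    have h2 := (hfl _ h1.le).1
    rw [Real.sq_sqrt (hR2.le.trans ht.le)] at h2
    exact ((c4 _ h1).1).trans h2

theorem main_spin (hS : SetupSpin) (hO : OdeStmt) (hT : TouchStmt) (hSph : P366.SphStmt)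
    (hOr : OdeRigA9Stmt) (hM : MonoEq9Stmt) (hSl : Slice9Stmt)
    (J : Fin 9 → Matrix (Fin 16) (Fin 16) ℝ) (hJ : IsCliff J) : PenroseRigid (spinGroup J) := by
  rintro g K f R E P ⟨hf, hdf, ⟨p, hp, hpR⟩, hout, hex, hg, hKi, hDEC, htrap, hE, hP⟩
  obtain ⟨D, e, hpos, hth, har, hP0, hkey, hA, hE'⟩ := hS J hJ g K R E P hex hg hKi
    (fun x hx => hDEC x (hout x hx).le) hE hP
  have hR := hex.1
  have hn0 : 0 < 16 := by omega
  have hR2 : 0 < R ^ 2 := by positivity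
  have hz : H1 D (R ^ 2) + PP D (R ^ 2) ≤ 0 := by
    have h1 := (hT 16 g K f p R hR hpR (hex.2.2.1 p hpR.ge).1 hf hp (hdf p hp) hout).trans
      (htrap p hp)
    rwa [hth p hpR.ge, ← rad_sq, hpR] at h1
  obtain ⟨t, ht, hle⟩ := hO D (R ^ 2) E hR2 hpos hkey hz hA hE'
  have hE0 : 0 ≤ E := by
    refine le_trans ?_ hle
    have : 0 ≤ ar1 D t := by unfold ar1; positivity
    positivity
  have hm : √(E ^ 2 - rad P ^ 2) = E := by rw [hP0]; simp [Real.sqrt_sq hE0]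
  have e14 : (((16 : ℕ) : ℝ) - 2) / (((16 : ℕ) : ℝ) - 1) = 14 / 15 := by norm_num
  rw [hm, e14]
  refine ⟨⟨by rw [hP0]; exact hE0, √t, Real.le_sqrt_of_sq_le ht, ?_⟩, fun A hA0 har0 hom heq => ?_⟩
  · rwa [har _ (Real.le_sqrt_of_sq_le ht), Real.sq_sqrt (hR2.le.trans ht)]
  have hω := (hSph 16 hn0).1
  have hp : ∀ t, R ^ 2 < t → 0 < H1 D t + PP D t := by
    intro t ht
    have h1 : R < √t := Real.lt_sqrt_of_sq_lt ht
    obtain ⟨x, hx, h2⟩ := hom _ h1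
    rwa [hth x (hx ▸ h1.le), ← rad_sq, hx, Real.sq_sqrt (hR2.le.trans ht.le)] at h2
  obtain ⟨hAa, hEpos, hr⟩ := hOr D (R ^ 2) E (A / omega 16) (div_nonneg hA0 hω.le) hR2 hpos hkey
    hz hp (fun t ht => by
      have h1 : R ≤ √t := Real.le_sqrt_of_sq_le ht
      have h2 := har _ h1
      rw [Real.sq_sqrt (hR2.le.trans ht)] at h2
      rw [← h2]
      exact div_le_div_of_nonneg_right (har0 _ h1) hω.le) hA hE' heq
  obtain ⟨φ, h1, h2⟩ := hSl J D (R ^ 2) E hR2 (fun t ht => by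
    obtain ⟨a1, a2, a3⟩ := hr t ht
    obtain ⟨b1, b2, b3⟩ := hpos t ht.le
    exact ⟨b1, b3, hp t ht, a1, a2, hM D t (hR2.trans ht) b1 b2 b3 (hkey t ht) (hp t ht) a1
      (by rw [a2]; exact hEpos) a3⟩)
  have hU : {x : Pt 16 | R < rad x} = {x | R ^ 2 < x ⬝ᵥ x} := Set.ext fun x => lt_rad_iff hR x
  rw [← har R le_rfl] at hAa
  refine ⟨(div_left_inj' hω.ne').1 hAa, φ, ?_, fun x hx => h2 x ((lt_rad_iff hR x).1 hx)⟩
  rw [← hU] at h1
  exact h1.congr fun x hx => e x (le_of_lt hx)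

end Vale.Agent.P366R
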