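import Vale.Agent.P366R.Stm
import Vale.Agent.P366S.MonoAbs

/-! The equality case of the algebraic monotonicity inequality. -/

namespace Vale.Agent.P366R

open Vale.Agent.P366S (MonoAbs_pt)

theorem MonoAbsEq_pt {H P w c l k : ℝ} (hp : 0 < H + P) (hm : 0 < H - P) (hw : 0 < w)
    (huw : H ^ 2 - P ^ 2 < w ^ 2) (h : H * w * c ^ 2 +
      w * ((H - P) * (l + k) ^ 2 + (H + P) * (l - k) ^ 2) / 2 + 2 * (H ^ 2 - P ^ 2) * (c * l) = 0) :
    c = 0 ∧ l = 0 ∧ k = 0 := by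
  have hH : 0 < H := by linarith
  have hu : 0 < H ^ 2 - P ^ 2 := by nlinarith [mul_pos hp hm]
  have e : H * w * (H * w * c ^ 2 +
      w * ((H - P) * (l + k) ^ 2 + (H + P) * (l - k) ^ 2) / 2 + 2 * (H ^ 2 - P ^ 2) * (c * l)) =
      (H ^ 2 - P ^ 2) * (w * l + H * c) ^ 2 + (w ^ 2 - (H ^ 2 - P ^ 2)) * (H * c) ^ 2 +
        w ^ 2 * ((H - P) * (l + k) - (H + P) * (l - k)) ^ 2 / 4 := by ring
  rw [h, mul_zero] at e
  have hv : 0 < w ^ 2 - (H ^ 2 - P ^ 2) := sub_pos.2 huw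
  have a1 := mul_nonneg hu.le (sq_nonneg (w * l + H * c))
  have a2 := mul_nonneg hv.le (sq_nonneg (H * c))
  have a3 : 0 ≤ w ^ 2 * ((H - P) * (l + k) - (H + P) * (l - k)) ^ 2 / 4 := by positivity
  have z1 : (H ^ 2 - P ^ 2) * (w * l + H * c) ^ 2 = 0 := by linarith
  have z2 : (w ^ 2 - (H ^ 2 - P ^ 2)) * (H * c) ^ 2 = 0 := by linarith
  have z3 : w ^ 2 * ((H - P) * (l + k) - (H + P) * (l - k)) ^ 2 = 0 := by linarith
  have y2 : H * c = 0 := pow_eq_zero_iff (two_ne_zero) |>.1 ((mul_eq_zero.1 z2).resolve_left hv.ne')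
  have hc : c = 0 := (mul_eq_zero.1 y2).resolve_left hH.ne'
  have y1 : w * l + H * c = 0 :=
    pow_eq_zero_iff (two_ne_zero) |>.1 ((mul_eq_zero.1 z1).resolve_left hu.ne')
  have hl : l = 0 := by
    rw [y2, add_zero] at y1
    exact (mul_eq_zero.1 y1).resolve_left hw.ne'
  have y3 : (H - P) * (l + k) - (H + P) * (l - k) = 0 :=
    pow_eq_zero_iff (two_ne_zero) |>.1
      ((mul_eq_zero.1 z3).resolve_left (pow_pos hw 2).ne')
  have hk : k = 0 := by
    have : (2 * H) * k = 0 := by rw [hl] at y3; linarith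
    exact (mul_eq_zero.1 this).resolve_left (by positivity)
  exact ⟨hc, hl, hk⟩

theorem monoAbsEq_pf : MonoAbsEqStmt := by
  intro m lam kap gam d H P w ws Hs Ps k0 R hm hd hH hP hw w0 hws hR h1 h2 hp hn huw hz
  have H0 : 0 < H := by linarith
  have d0 : 0 < d := by
    rw [hd]
    exact Finset.sum_pos (fun i _ => hm i) Finset.univ_nonempty
  have hterm := fun i (_ : i ∈ (Finset.univ : Finset (Fin 4))) => mul_nonneg (hm i).le
    (MonoAbs_pt (c := gam i + w / d) (l := lam i - H / d) (k := kap i - P / d) hp hn w0 huw.le)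
  have q := Finset.sum_nonneg hterm
  have hq0 := Finset.sum_eq_zero_iff_of_nonneg hterm
  have e : ∀ a b e : ℝ, ∑ i, m i * (H * w * (gam i + e) ^ 2 + w * ((H - P) *
      (lam i - a + (kap i - b)) ^ 2 + (H + P) * (lam i - a - (kap i - b)) ^ 2) / 2 +
      2 * (H ^ 2 - P ^ 2) * ((gam i + e) * (lam i - a))) =
      H * w * ∑ i, m i * gam i ^ 2 + w * ((H - P) * ∑ i, m i * (lam i + kap i) ^ 2 +
        (H + P) * ∑ i, m i * (lam i - kap i) ^ 2) / 2 +
        2 * (H ^ 2 - P ^ 2) * ∑ i, m i * gam i * lam i +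
      (2 * (H ^ 2 - P ^ 2) * e - w * ((H - P) * (a + b) + (H + P) * (a - b))) *
        ∑ i, m i * lam i +
      w * ((H + P) * (a - b) - (H - P) * (a + b)) * ∑ i, m i * kap i -
      (2 * H * w * e - 2 * (H ^ 2 - P ^ 2) * a) * (-∑ i, m i * gam i) +
      (H * w * e ^ 2 + w * ((H - P) * (a + b) ^ 2 + (H + P) * (a - b) ^ 2) / 2 -
        2 * (H ^ 2 - P ^ 2) * e * a) * ∑ i, m i := fun a b e => by
    simp only [Fin.sum_univ_four]
    ring
  rw [e, ← hH, ← hP, ← hw, ← hd, ← hws] at q hq0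
  generalize ∑ i, m i * gam i ^ 2 = G at q hq0 hR
  generalize ∑ i, m i * (lam i + kap i) ^ 2 = Np at q hq0 h1 ⊢
  generalize ∑ i, m i * (lam i - kap i) ^ 2 = Nm at q hq0 h2 ⊢
  have e1 : (2 * (H ^ 2 - P ^ 2) * (w / d) - w * ((H - P) * (H / d + P / d) +
      (H + P) * (H / d - P / d))) * H +
      w * ((H + P) * (H / d - P / d) - (H - P) * (H / d + P / d)) * P -
      (2 * H * w * (w / d) - 2 * (H ^ 2 - P ^ 2) * (H / d)) * w +
      (H * w * (w / d) ^ 2 + w * ((H - P) * (H / d + P / d) ^ 2 +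
        (H + P) * (H / d - P / d) ^ 2) / 2 - 2 * (H ^ 2 - P ^ 2) * (w / d) * (H / d)) * d =
      -(H * w * (w ^ 2 - (H ^ 2 - P ^ 2)) / d) := by
    field_simp
    ring
  have e2 : (d - 1) / d * H * (1 - (H ^ 2 - P ^ 2) / w ^ 2) - (2 * H * Hs - 2 * P * Ps) / w ^ 2
      + 2 * (H ^ 2 - P ^ 2) * ws / w ^ 3 = (H * w * (w ^ 2 - (H ^ 2 - P ^ 2)) -
        H * w * (w ^ 2 - (H ^ 2 - P ^ 2)) / d - w * ((H - P) * (Hs + Ps) + (H + P) * (Hs - Ps)) +
        2 * (H ^ 2 - P ^ 2) * ws) / w ^ 3 := by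
    field_simp
    ring
  rw [e2, div_eq_zero_iff] at hz
  have hz' := hz.resolve_right (pow_pos w0 3).ne'
  have b1 := mul_le_mul_of_nonneg_left h1 (mul_pos w0 hn).le
  have b2 := mul_le_mul_of_nonneg_left h2 (mul_pos w0 hp).le
  have b3 := mul_le_mul_of_nonneg_left hR (mul_pos H0 w0).le
  generalize H * w * (w ^ 2 - (H ^ 2 - P ^ 2)) / d = Z at e1 hz'
  refine ⟨fun i => ?_, ?_, ?_⟩
  · have h0 := hq0.1 (by linarith) i (Finset.mem_univ i)
    obtain ⟨hc, hl, hk⟩ := MonoAbsEq_pt hp hn w0 huw ((mul_eq_zero.1 h0).resolve_left (hm i).ne')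
    refine ⟨by linarith, by linarith, ?_⟩
    rw [neg_div]
    linarith
  · exact mul_left_cancel₀ (mul_pos w0 hn).ne' (by linarith)
  · exact mul_left_cancel₀ (mul_pos w0 hp).ne' (by linarith)

end Vale.Agent.P366R
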