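import Vale.Agent.P366R.Stm
import Vale.Agent.P366S.Mono

/-! The equality case of the monotonicity of the mass function. -/

namespace Vale.Agent.P366R

open scoped Matrix ContDiff Topology
open Filter Set Matrix
open Vale.Agent.P366 (ll)
open Vale.Agent.P366S

namespace MonoEq

theorem rnd {q v0 v1 v2 G Y : ℝ} (hq : 0 < q) (h0 : 0 < v0) (hG : 0 < G) (e : v0 * v1 * v2 = G ^ 3)
    (e0 : 2 * v0 - (v0 + v1 + v2) + q / 6 * (Y - G) = -Y)
    (e1 : 2 * v1 - (v0 + v1 + v2) + q / 6 * (Y - G) = -Y)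
    (e2 : 2 * v2 - (v0 + v1 + v2) + q / 6 * (Y - G) = -Y) :
    v0 = G ∧ v1 = G ∧ v2 = G ∧ Y = G := by
  have a1 : v1 = v0 := by linarith
  have a2 : v2 = v0 := by linarith
  subst a1 a2
  have a : v2 = G := (pow_left_inj₀ h0.le hG.le (n := 3) (by norm_num)).1 (by rw [← e]; ring)
  subst a
  refine ⟨rfl, rfl, rfl, ?_⟩
  have : (Y - v2) * (1 + q / 6) = 0 := by linarith
  rcases mul_eq_zero.1 this with c | c <;> linarith

theorem fin {q r s C H P w Hs Ps k0 kh R l0 l1 l2 lc : ℝ} {g κ : Fin 3 → ℝ}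
    {lam kap gam : Fin 4 → ℝ} (q0 : 0 < q) (r0 : 0 < r) (s0 : 0 < s) (hC : 0 < C) (G0 : 0 < g 0)
    (eV : g 0 / (r * s ^ 3) * (g 1 / (r * s ^ 3)) * (g 2 / (r * s ^ 3)) = (1 / (r * s)) ^ 3)
    (eS : H = l0 + l1 + l2 + q * lc) (el : lam = ![l0, l1, l2, lc])
    (ek : kap = ![κ 0, κ 1, κ 2, kh])
    (eg : gam = ![2 * (g 0 / (r * s ^ 3)) - (g 0 / (r * s ^ 3) + g 1 / (r * s ^ 3)
        + g 2 / (r * s ^ 3)) + q / 6 * (s / (r * C) - 1 / (r * s)),
      2 * (g 1 / (r * s ^ 3)) - (g 0 / (r * s ^ 3) + g 1 / (r * s ^ 3) + g 2 / (r * s ^ 3))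
        + q / 6 * (s / (r * C) - 1 / (r * s)),
      2 * (g 2 / (r * s ^ 3)) - (g 0 / (r * s ^ 3) + g 1 / (r * s ^ 3) + g 2 / (r * s ^ 3))
        + q / 6 * (s / (r * C) - 1 / (r * s)), -(s / (r * C))])
    (k : (∀ i, lam i = H / (q + 3) ∧ kap i = P / (q + 3) ∧ gam i = -w / (q + 3)) ∧
      Hs + Ps = R / 2 + k0 * (H + P) - (H ^ 2 - P ^ 2) / 2
        - (∑ i, ![1, 1, 1, q] i * (lam i + kap i) ^ 2) / 2 ∧
      Hs - Ps = R / 2 - k0 * (H - P) - (H ^ 2 - P ^ 2) / 2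
        - (∑ i, ![1, 1, 1, q] i * (lam i - kap i) ^ 2) / 2) :
    (∀ a, g a = C ∧ κ a = kh) ∧ H = (q + 3) * lc ∧
    (∀ ε : ℝ, ε = 1 ∨ ε = -1 → Hs + ε * Ps = R / 2 + ε * k0 * (H + ε * P) - (H ^ 2 - P ^ 2) / 2
      - ((l0 + ε * κ 0) ^ 2 + (l1 + ε * κ 1) ^ 2 + (l2 + ε * κ 2) ^ 2
        + q * (lc + ε * kh) ^ 2) / 2) ∧ Ps = H * (k0 - kh) := by
  subst el ek eg
  obtain ⟨k, k1, k2⟩ := k
  obtain ⟨-, c0, b0⟩ := k 0
  obtain ⟨-, c1, b1⟩ := k 1
  obtain ⟨-, c2, b2⟩ := k 2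
  obtain ⟨l3, c3, b3⟩ := k 3
  simp only [Fin.sum_univ_four, Matrix.cons_val] at c0 c1 c2 c3 b0 b1 b2 b3 l3 k1 k2
  obtain ⟨u0, u1, u2, u3⟩ := rnd q0 (by positivity) (by positivity) eV (b0.trans b3.symm)
    (b1.trans b3.symm) (b2.trans b3.symm)
  have eC : C = s ^ 2 := by field_simp at u3; linarith
  have eg : ∀ z : ℝ, z / (r * s ^ 3) = 1 / (r * s) → z = C := fun z hz => by
    rw [eC]; field_simp at hz; linarith
  have j0 := c0.trans c3.symm
  have j1 := c1.trans c3.symm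
  have j2 := c2.trans c3.symm
  refine ⟨fun a => ?_, by rw [l3]; field_simp, ?_, ?_⟩
  · fin_cases a
    exacts [⟨eg _ u0, j0⟩, ⟨eg _ u1, j1⟩, ⟨eg _ u2, j2⟩]
  · rintro ε (rfl | rfl)
    · linear_combination k1
    · linear_combination k2
  · rw [j0, j1, j2] at k1 k2
    linear_combination (k1 - k2) / 2 + kh * eS

end MonoEq

theorem monoEq_pf (h1 : MonoAbsEqStmt) (h2 : P366S.HJStmt) : MonoEqStmt := by
  intro n S t g g' κ k0 kh hn ht hR hK hp hq hm hd
  obtain ⟨hp0, he1, he3, hC, cp, c1, c3, cC, cP⟩ := hR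
  obtain ⟨m, rfl⟩ : ∃ m, n = m + 5 := ⟨n - 5, by omega⟩
  have dp := (cp.differentiableAt (by simp)).hasDerivAt
  have d1 := (c1.differentiableAt (by simp)).hasDerivAt
  have d3 := (c3.differentiableAt (by simp)).hasDerivAt
  have dC := (cC.differentiableAt (by simp)).hasDerivAt
  have dP := (cP.differentiableAt (by simp)).hasDerivAt
  have dar := Mono.d_ar m S ht he3 hC d3 dC
  have ek : (((m + 5 : ℕ) : ℝ) - 2) / (((m + 5 : ℕ) : ℝ) - 1) = (m + 1 + 2) / (m + 1 + 3) := by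
    push_cast
    congr 1 <;> ring
  have eq : ((m + 5 : ℕ) : ℝ) - 4 = m + 1 := by push_cast; ring
  have eq1 : ((m + 5 : ℕ) : ℝ) - 1 = m + 1 + 3 := by push_cast; ring
  unfold mass at hm hd
  rw [eq] at hK hp hq
  rw [eq, ek] at hm hd
  rw [eq, eq1]
  clear ek eq eq1
  have q0 : (0 : ℝ) < m + 1 := by positivity
  have a0 : 0 < ar1 (m + 5) S t := by unfold ar1; positivity
  generalize (m : ℝ) + 1 = q at *
  generalize ar1 (m + 5) S = ar at *
  obtain ⟨g0, x1, x3, y1, y3, xP, hK⟩ := hK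
  unfold keyL keyR at hK ⊢
  have dll : DifferentiableAt ℝ (ll S.C) t :=
    ((differentiableAt_id.mul (Mono.d_der cC)).div dC.differentiableAt hC.ne').const_add 1
  have dh : DifferentiableAt ℝ (hh q S) t :=
    (((differentiableAt_id.mul (Mono.d_der c3)).div d3.differentiableAt he3.ne').const_add 3).add
      (dll.const_mul q)
  have pt : 0 < S.p t / t := div_pos hp0 ht
  have dsg : DifferentiableAt ℝ (sg S) t :=
    (dp.differentiableAt.div differentiableAt_id ht.ne').sqrt pt.ne'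
  have dH : HasDerivAt (H1 q S) (deriv (H1 q S) t) t := (dh.mul dsg).hasDerivAt
  have r0 := Real.sqrt_pos.2 ht
  have b0 := Real.sqrt_pos.2 he3
  have L0 : 0 < sg S t := Real.sqrt_pos.2 pt
  have s0 := Real.rpow_pos_of_pos he3 ((1 : ℝ) / 6)
  have s6 : (S.e3 t ^ ((1 : ℝ) / 6)) ^ 6 = S.e3 t := by
    rw [← Real.rpow_natCast, ← Real.rpow_mul he3.le]; norm_num
  have s3 : √(S.e3 t) = (S.e3 t ^ ((1 : ℝ) / 6)) ^ 3 := by
    rw [Real.sqrt_eq_iff_mul_self_eq he3.le (by positivity), ← pow_add]; exact s6.symm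
  have ds := d3.rpow_const (p := (1 : ℝ) / 6) (.inl he3.ne')
  have db := d3.sqrt he3.ne'
  have dw : HasDerivAt (w1 q S) _ t :=
    ((d1.fun_div db b0.ne').fun_add
      ((((hasDerivAt_const t (1 : ℝ)).fun_div ds s0.ne').fun_add
        (ds.fun_div dC hC.ne')).const_mul (q / 2))).fun_div (Real.hasDerivAt_sqrt ht.ne') r0.ne'
  have w0 : 0 < w1 q S t := by unfold w1; positivity
  have dm := ((dar.rpow_const (p := (q + 2) / (q + 3)) (.inl a0.ne')).const_mul (1 / 2)).fun_mul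
    ((((dH.fun_pow 2).fun_sub (dP.fun_pow 2)).fun_div (dw.fun_pow 2) (by positivity)).const_sub 1)
  rw [dm.deriv, ← dw.deriv] at hd
  have p0 := Real.rpow_pos_of_pos a0 ((q + 2) / (q + 3))
  have et := Real.sq_sqrt ht.le
  have ew := dw.deriv
  rw [Real.rpow_sub_one he3.ne', s3] at ew
  have ew0 : w1 q S t = (S.e1 t / (S.e3 t ^ ((1 : ℝ) / 6)) ^ 3
      + q / 2 * (1 / S.e3 t ^ ((1 : ℝ) / 6) + S.e3 t ^ ((1 : ℝ) / 6) / S.C t)) / √t := by
    rw [w1, s3]
  have eH : H1 q S t = (3 + t * deriv S.e3 t / S.e3 t + q * ll S.C t) * sg S t := rfl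
  have eh : hh q S t = H1 q S t / sg S t := (mul_div_cancel_right₀ _ L0.ne').symm
  have hM : H1 q S t ^ 2 - S.P t ^ 2 < w1 q S t ^ 2 :=
    (div_lt_one (by positivity)).1 (sub_pos.1 ((mul_pos_iff_of_pos_left (by positivity)).1 hm))
  have K1 := hK 1 (.inl rfl)
  have K2 := hK (-1) (.inr rfl)
  have G0 := g0 0
  have G1 := g0 1
  have G2 := g0 2
  simp only [Fin.sum_univ_three, Fin.prod_univ_three] at x1 x3 y1 y3 xP K1 K2 ⊢
  rw [Real.rpow_sub_one a0.ne', eh] at hd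
  generalize S.e3 t ^ ((1 : ℝ) / 6) = s at *
  generalize √t = r at *
  have eR := Mono.alg_R q g r0 s0 hC et (x3.symm.trans s6.symm)
  have eV : g 0 / (r * s ^ 3) * (g 1 / (r * s ^ 3)) * (g 2 / (r * s ^ 3)) = (1 / (r * s)) ^ 3 := by
    rw [div_mul_div_comm, div_mul_div_comm, ← x3, ← s6]; field_simp
  have hJ := h2 q (g 0 / (r * s ^ 3)) (g 1 / (r * s ^ 3)) (g 2 / (r * s ^ 3)) _ (1 / (r * s))
    (s / (r * S.C t)) q0.le (by positivity) (by positivity) (by positivity) (by positivity)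
    (by positivity) eV rfl
  rw [← eR] at hJ
  have eW : w1 q S t = g 0 / (r * s ^ 3) + g 1 / (r * s ^ 3) + g 2 / (r * s ^ 3)
      + q / 2 * (1 / (r * s) + s / (r * S.C t)) := by
    rw [ew0, x1]; field_simp
  have eS : H1 q S t = (1 + t * g' 0 / g 0) * sg S t + (1 + t * g' 1 / g 1) * sg S t
      + (1 + t * g' 2 / g 2) * sg S t + q * (ll S.C t * sg S t) := by
    rw [eH, y3]; field_simp; ring
  have k := h1 ![1, 1, 1, q]
    ![(1 + t * g' 0 / g 0) * sg S t, (1 + t * g' 1 / g 1) * sg S t, (1 + t * g' 2 / g 2) * sg S t,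
      ll S.C t * sg S t] ![κ 0, κ 1, κ 2, kh]
    ![2 * (g 0 / (r * s ^ 3)) - (g 0 / (r * s ^ 3) + g 1 / (r * s ^ 3) + g 2 / (r * s ^ 3))
        + q / 6 * (s / (r * S.C t) - 1 / (r * s)),
      2 * (g 1 / (r * s ^ 3)) - (g 0 / (r * s ^ 3) + g 1 / (r * s ^ 3) + g 2 / (r * s ^ 3))
        + q / 6 * (s / (r * S.C t) - 1 / (r * s)),
      2 * (g 2 / (r * s ^ 3)) - (g 0 / (r * s ^ 3) + g 1 / (r * s ^ 3) + g 2 / (r * s ^ 3))
        + q / 6 * (s / (r * S.C t) - 1 / (r * s)), -(s / (r * S.C t))]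
    (q + 3) (H1 q S t) (S.P t) (w1 q S t) (2 * t * sg S t * deriv (w1 q S) t)
    (2 * t * sg S t * deriv (H1 q S) t) (2 * t * sg S t * deriv S.P t) k0 (RS q t (S.C t) g)
    (by intro i; fin_cases i <;> simp [q0])
    (by simp only [Fin.sum_univ_four, Matrix.cons_val]; ring)
    (by simp only [Fin.sum_univ_four, Matrix.cons_val]; linarith)
    (by simp only [Fin.sum_univ_four, Matrix.cons_val]; rw [xP]; ring)
    (by simp only [Fin.sum_univ_four, Matrix.cons_val]; rw [eW]; ring) w0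
    (by
      simp only [Fin.sum_univ_four, Matrix.cons_val]
      rw [ew, y1, y3, x1, ll]
      clear * - et s6 hC r0 s0 G0 G1 G2
      generalize deriv S.C t = C', sg S t = σ
      generalize S.C t = C, S.e3 t = e at *
      subst et s6
      field_simp
      ring)
    (by simp only [Fin.sum_univ_four, Matrix.cons_val]; rw [eW]; linarith)
    (by simp only [Fin.sum_univ_four, Matrix.cons_val]; linarith)
    (by simp only [Fin.sum_univ_four, Matrix.cons_val]; linarith) hp hq hM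
    (by
      refine mul_left_cancel₀ (half_pos p0).ne' ?_
      rw [mul_zero, ← mul_zero (2 * t * sg S t)]
      refine Eq.trans ?_ (congrArg _ hd)
      push_cast
      field_simp
      ring)
  exact MonoEq.fin q0 r0 s0 hC G0 eV eS rfl rfl rfl k

end Vale.Agent.P366R
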