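import Vale.Agent.P366R.Stm
import Vale.Agent.P366.Jet

/-! First and second derivatives of the embedding. -/

namespace Vale.Agent.P366R

open scoped Matrix ContDiff Topology
open Filter Set Matrix
open Vale.Agent.P366 (Pt pd JHD)

namespace PhiJetAux

variable {n : ℕ}

theorem two_le : (2 : WithTop ℕ∞) ≤ ∞ := WithTop.coe_le_coe.2 (le_top (a := (2 : ℕ∞)))

theorem ev {A : ℝ → ℝ} {t : ℝ} (h : ContDiffAt ℝ ∞ A t) :
    ∀ᶠ s in 𝓝 t, DifferentiableAt ℝ A s :=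
  ((h.of_le two_le).eventually (by simp)).mono fun _ hs => hs.differentiableAt (by simp)

theorem dd {A : ℝ → ℝ} {t : ℝ} (h : ContDiffAt ℝ ∞ A t) : DifferentiableAt ℝ (deriv A) t := by
  have h1 : ContDiffAt ℝ 1 (fderiv ℝ A) t := (h.of_le two_le).fderiv_right (by norm_num)
  have h2 : DifferentiableAt ℝ (fun s => fderiv ℝ A s 1) t :=
    (h1.differentiableAt (by simp)).clm_apply (differentiableAt_const _)
  exact h2

theorem cdot (x : Pt n) : ContDiffAt ℝ ∞ (fun y : Pt n => y ⬝ᵥ y) x :=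
  ContDiffAt.sum fun l _ =>
    (contDiff_apply ℝ ℝ l).contDiffAt.mul (contDiff_apply ℝ ℝ l).contDiffAt

theorem crad {A : ℝ → ℝ} {x : Pt n} (h : ContDiffAt ℝ ∞ A (x ⬝ᵥ x)) :
    ContDiffAt ℝ ∞ (fun y : Pt n => A (y ⬝ᵥ y)) x :=
  ContDiffAt.comp (f := fun y : Pt n => y ⬝ᵥ y) x h (cdot x)

theorem pd_congr {f g : Pt n → ℝ} {x : Pt n} (h : f =ᶠ[𝓝 x] g) (i : Fin n) :
    pd i f x = pd i g x := by
  unfold pd
  rw [h.fderiv_eq]

theorem jsc {A : ℝ → ℝ} {y : Pt n} (h : DifferentiableAt ℝ A (y ⬝ᵥ y)) (i : Fin n) :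
    JHD (fun y => A (y ⬝ᵥ y)) y (Pi.single i 1) (2 * y i * deriv A (y ⬝ᵥ y)) := by
  refine (JHD.dot.comp h.hasDerivAt).congr ?_
  simp only [dotProduct_single, mul_one]
  ring

theorem jmc {M : ℝ → Matrix (Fin n) (Fin n) ℝ} {y : Pt n}
    (h : ∀ a b, DifferentiableAt ℝ (fun s => M s a b) (y ⬝ᵥ y)) (v : Pt n) (i a : Fin n) :
    JHD (fun y => (M (y ⬝ᵥ y) *ᵥ v) a) y (Pi.single i 1)
      (2 * y i * (mD M (y ⬝ᵥ y) *ᵥ v) a) := by
  refine (JHD.sum Finset.univ fun b => (jsc (h a b) i).mul (JHD.const (v b))).congr ?_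
  simp only [Matrix.mulVec, dotProduct, mD, Matrix.of_apply, Finset.mul_sum]
  exact Finset.sum_congr rfl fun b _ => by ring

theorem jmv {M : ℝ → Matrix (Fin n) (Fin n) ℝ} {y : Pt n}
    (h : ∀ a b, DifferentiableAt ℝ (fun s => M s a b) (y ⬝ᵥ y)) (i a : Fin n) :
    JHD (fun y => (M (y ⬝ᵥ y) *ᵥ y) a) y (Pi.single i 1)
      ((M (y ⬝ᵥ y) *ᵥ Pi.single i 1) a + 2 * y i * (mD M (y ⬝ᵥ y) *ᵥ y) a) := by
  refine (JHD.sum Finset.univ fun b => (jsc (h a b) i).mul (JHD.app b)).congr ?_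
  generalize y ⬝ᵥ y = t
  simp only [Matrix.mulVec, dotProduct, mD, Matrix.of_apply, Finset.mul_sum,
    ← Finset.sum_add_distrib]
  exact Finset.sum_congr rfl fun b _ => by ring

end PhiJetAux

open PhiJetAux in
theorem phiJet_pf : PhiJetStmt := by
  intro n τ M x hτ hM
  have hc : Tendsto (fun y : Pt n => y ⬝ᵥ y) (𝓝 x) (𝓝 (x ⬝ᵥ x)) := (cdot x).continuousAt
  have eτ : ∀ᶠ y : Pt n in 𝓝 x, DifferentiableAt ℝ τ (y ⬝ᵥ y) := hc.eventually (ev hτ)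
  have eM : ∀ᶠ y : Pt n in 𝓝 x, ∀ a b, DifferentiableAt ℝ (fun s => M s a b) (y ⬝ᵥ y) :=
    eventually_all.2 fun a => eventually_all.2 fun b => hc.eventually (ev (hM a b))
  have dM : ∀ a b, DifferentiableAt ℝ (fun s => mD M s a b) (x ⬝ᵥ x) := fun a b => dd (hM a b)
  have e0 : (fun y => emb τ M y 0) = fun y => τ (y ⬝ᵥ y) := rfl
  have eS : ∀ a : Fin n, (fun y => emb τ M y a.succ) = fun y => (M (y ⬝ᵥ y) *ᵥ y) a :=
    fun a => rfl
  refine ⟨fun a => ?_, fun i => funext fun a => ?_, fun i j => funext fun a => ?_⟩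
  · refine Fin.cases ?_ (fun a => ?_) a
    · rw [e0]; exact crad hτ
    · rw [eS]
      exact ContDiffAt.sum (s := Finset.univ) (f := fun b (y : Pt n) => M (y ⬝ᵥ y) a b * y b)
        fun b _ => (crad (hM a b)).mul (contDiff_apply ℝ ℝ b).contDiffAt
  · refine Fin.cases ?_ (fun a => ?_) a
    · rw [e0, Fin.cons_zero, (jsc eτ.self_of_nhds i).pd_eq]
    · rw [eS, Fin.cons_succ, (jmv eM.self_of_nhds i a).pd_eq]
      simp only [Pi.add_apply, Pi.smul_apply, smul_eq_mul]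
  · refine Fin.cases ?_ (fun a => ?_) a
    · have h1 : pd j (fun y => τ (y ⬝ᵥ y)) =ᶠ[𝓝 x] fun y => 2 * y j * deriv τ (y ⬝ᵥ y) :=
        eτ.mono fun y hy => (jsc hy j).pd_eq
      rw [e0, Fin.cons_zero, pd_congr h1,
        (((JHD.const 2).mul (JHD.app j)).mul (jsc (dd hτ) i)).pd_eq]
      simp only [Pi.single_apply, eq_comm (a := j)]
      ring
    · have h1 : pd j (fun y => (M (y ⬝ᵥ y) *ᵥ y) a) =ᶠ[𝓝 x] fun y =>
          (M (y ⬝ᵥ y) *ᵥ Pi.single j 1) a + 2 * y j * (mD M (y ⬝ᵥ y) *ᵥ y) a :=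
        eM.mono fun y hy => (jmv hy j a).pd_eq
      rw [eS, Fin.cons_succ, pd_congr h1,
        ((jmc eM.self_of_nhds (Pi.single j 1) i a).add
          (((JHD.const 2).mul (JHD.app j)).mul (jmv dM i a))).pd_eq]
      simp only [Pi.add_apply, Pi.smul_apply, smul_eq_mul, Pi.single_apply, eq_comm (a := j)]
      ring

end Vale.Agent.P366R
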