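import Vale.Agent.P366R.Rot2

/-! Equality forces roundness. -/

namespace Vale.Agent.P366R

open scoped Matrix ContDiff Topology
open Matrix Filter Set
open Vale.Agent.P366 (Pt IsQuat ll)
open Vale.Agent.P366S

namespace RoundAux

theorem diag (F K : M4) (C κ : ℝ) (sF : Fᵀ = F) (sK : Kᵀ = K) (hF : F.PosDef)
    (f : ∀ a : Fin 3, F a.succ a.succ = C) (f12 : F 1 2 = 0) (f13 : F 1 3 = 0) (f23 : F 2 3 = 0)
    (k : ∀ a : Fin 3, K a.succ a.succ = κ * C) (k12 : K 1 2 = 0) (k13 : K 1 3 = 0)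
    (k23 : K 2 3 = 0) (kz : ∀ a : Fin 3, (K *ᵥ (F⁻¹ *ᵥ e0)) a.succ = 0) :
    F.submatrix Fin.succ Fin.succ = C • (1 : Matrix (Fin 3) (Fin 3) ℝ) ∧
      K = κ • F + (((F⁻¹ * K * F⁻¹) 0 0 / F⁻¹ 0 0 - κ) / F⁻¹ 0 0) • vecMulVec e0 e0 := by
  have tF : ∀ i j, F i j = F j i := fun i j => congrFun (congrFun sF j) i
  have tK : ∀ i j, K i j = K j i := fun i j => congrFun (congrFun sK j) i
  have hu : IsUnit F.det := (Matrix.isUnit_iff_isUnit_det F).1 hF.isUnit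
  have sG : (F⁻¹)ᵀ = F⁻¹ := by rw [Matrix.transpose_nonsing_inv, sF]
  have hp : 0 < F⁻¹ 0 0 := hF.inv.diag_pos
  have hFG := Matrix.mul_nonsing_inv F hu
  generalize F⁻¹ = G at *
  have tG : ∀ i j, G i j = G j i := fun i j => congrFun (congrFun sG j) i
  have f1 : F 1 1 = C := f 0
  have f2 : F 2 2 = C := f 1
  have f3 : F 3 3 = C := f 2
  have k1 : K 1 1 = κ * C := k 0
  have k2 : K 2 2 = κ * C := k 1
  have k3 : K 3 3 = κ * C := k 2
  have f21 := (tF 2 1).trans f12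
  have f31 := (tF 3 1).trans f13
  have f32 := (tF 3 2).trans f23
  have k21 := (tK 2 1).trans k12
  have k31 := (tK 3 1).trans k13
  have k32 := (tK 3 2).trans k23
  have ez : G *ᵥ e0 = fun i => G i 0 := by
    funext i
    simp [e0]
  have y : ∀ i, (K *ᵥ (G *ᵥ e0)) i = K i 0 * G 0 0 + K i 1 * G 1 0 + K i 2 * G 2 0 +
      K i 3 * G 3 0 := fun i => by
    rw [ez]
    simp [Matrix.mulVec, dotProduct, Fin.sum_univ_four]
  have w : ∀ i, F i 0 * G 0 0 + F i 1 * G 1 0 + F i 2 * G 2 0 + F i 3 * G 3 0 =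
      (1 : M4) i 0 := fun i => by
    rw [← hFG, Matrix.mul_apply, Fin.sum_univ_four]
  have y1 := (y 1).symm.trans (kz 0)
  have y2 := (y 2).symm.trans (kz 1)
  have y3 := (y 3).symm.trans (kz 2)
  have w0 := w 0
  have w1 := w 1
  have w2 := w 2
  have w3 := w 3
  rw [Matrix.one_apply_eq] at w0
  rw [Matrix.one_apply_ne (by decide)] at w1 w2 w3
  rw [k1, k12, k13] at y1
  rw [k21, k2, k23] at y2
  rw [k31, k32, k3] at y3
  rw [f1, f12, f13] at w1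
  rw [f21, f2, f23] at w2
  rw [f31, f32, f3] at w3
  have a1 : K 1 0 = κ * F 1 0 := mul_right_cancel₀ hp.ne' (by linear_combination y1 - κ * w1)
  have a2 : K 2 0 = κ * F 2 0 := mul_right_cancel₀ hp.ne' (by linear_combination y2 - κ * w2)
  have a3 : K 3 0 = κ * F 3 0 := mul_right_cancel₀ hp.ne' (by linear_combination y3 - κ * w3)
  have b1 : K 0 1 = κ * F 0 1 := by rw [tK, tF, a1]
  have b2 : K 0 2 = κ * F 0 2 := by rw [tK, tF, a2]
  have b3 : K 0 3 = κ * F 0 3 := by rw [tK, tF, a3]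
  have c0 : (G * K * G) 0 0 =
      (K 0 0 * G 0 0 + K 0 1 * G 1 0 + K 0 2 * G 2 0 + K 0 3 * G 3 0) * G 0 0 := by
    simp only [Matrix.mul_apply, Fin.sum_univ_four]
    rw [tG 0 1, tG 0 2, tG 0 3, k1, k2, k3, k12, k13, k23, k21, k31, k32]
    linear_combination G 1 0 * y1 + G 2 0 * y2 + G 3 0 * y3
  have c1 : K 0 0 = κ * F 0 0 + ((G * K * G) 0 0 / G 0 0 - κ) / G 0 0 := by
    rw [c0, mul_div_cancel_right₀ _ hp.ne', b1, b2, b3, ← sub_eq_iff_eq_add', eq_div_iff hp.ne']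
    linear_combination (-κ) * w0
  constructor
  · ext i j
    fin_cases i <;> fin_cases j <;> simp [f1, f2, f3, f12, f13, f23, f21, f31, f32]
  · generalize ((G * K * G) 0 0 / G 0 0 - κ) / G 0 0 = β at c1
    ext i j
    fin_cases i <;> fin_cases j <;>
      simp [e0, vecMulVec_apply, f1, f2, f3, f12, f13, f23, f21, f31, f32, k1, k2, k3, k12, k13,
        k23, k21, k31, k32, a1, a2, a3, b1, b2, b3, c1]

theorem hat_e (O : Matrix (Fin 3) (Fin 3) ℝ) :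
    (hat O)ᵀ * vecMulVec e0 e0 * hat O = vecMulVec e0 e0 := by
  ext i j
  fin_cases i <;> fin_cases j <;>
    simp [hat, e0, Matrix.mul_apply, Fin.sum_univ_four, vecMulVec_apply]

theorem unconj {m : ℕ} {H A B : Matrix (Fin m) (Fin m) ℝ} (h : Hᵀ * H = 1)
    (e : Hᵀ * A * H = Hᵀ * B * H) : A = B := by
  have h' : H * Hᵀ = 1 := mul_eq_one_comm.1 h
  have k : ∀ X : Matrix (Fin m) (Fin m) ℝ, H * (Hᵀ * X * H) * Hᵀ = X := fun X => by
    calc _ = (H * Hᵀ) * X * (H * Hᵀ) := by simp only [Matrix.mul_assoc]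
      _ = X := by rw [h', Matrix.one_mul, Matrix.mul_one]
  rw [← k A, e, k B]

theorem conj_inv {O : Matrix (Fin 3) (Fin 3) ℝ} (hO : Oᵀ * O = 1) (F K : M4) :
    ((hat O)ᵀ * F * hat O)⁻¹ 0 0 = F⁻¹ 0 0 ∧
    (((hat O)ᵀ * F * hat O)⁻¹ * ((hat O)ᵀ * K * hat O) * ((hat O)ᵀ * F * hat O)⁻¹) 0 0 =
      (F⁻¹ * K * F⁻¹) 0 0 := by
  have hH : (hat O)ᵀ * hat O = 1 := hat_mul hO
  have hH' : hat O * (hat O)ᵀ = 1 := mul_eq_one_comm.1 hH
  have hinv : (hat O)⁻¹ = (hat O)ᵀ := Matrix.inv_eq_left_inv hH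
  have hinv' : ((hat O)ᵀ)⁻¹ = hat O := Matrix.inv_eq_left_inv hH'
  have hi : ((hat O)ᵀ * F * hat O)⁻¹ = (hat O)ᵀ * F⁻¹ * hat O := by
    rw [Matrix.mul_inv_rev, Matrix.mul_inv_rev, hinv, hinv', Matrix.mul_assoc]
  have hm : ∀ F G : M4, (hat O)ᵀ * F * hat O * ((hat O)ᵀ * G * hat O) =
      (hat O)ᵀ * (F * G) * hat O := by
    intro F G
    calc _ = (hat O)ᵀ * F * (hat O * (hat O)ᵀ) * G * hat O := by simp only [Matrix.mul_assoc]
      _ = _ := by rw [hH', Matrix.mul_one, Matrix.mul_assoc ((hat O)ᵀ)]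
  rw [hi, hm, hm, hat_00, hat_00]
  exact ⟨rfl, rfl⟩

end RoundAux

open RoundAux in
theorem round_pf (hDec : P366S.DecStmt) (hK : KeyDiagEqStmt) (hM : MonoEqStmt)
    (hReg : P366S.RegStmt) : RoundStmt := by
  intro n J D x hn hJ hx hF hC hdec S hS h1 h2 h3 h4
  have ht : 0 < x ⬝ᵥ x := lt_of_le_of_ne
    (Finset.sum_nonneg fun i _ => mul_self_nonneg (x i))
    fun h => hx (dotProduct_self_eq_zero.1 h.symm)
  have hq : (0 : ℝ) ≤ (n : ℝ) - 4 := by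
    have : (4 : ℝ) < n := by exact_mod_cast hn
    linarith
  obtain ⟨J', D', hJ', r1, r2, r3, r4, f12, f13, f23, eC, ec, O, hO, eF, eK⟩ :=
    rot2 n J D ((n : ℝ) - 4) (x ⬝ᵥ x) hJ
  have hF' := r4 hF
  have hC' : 0 < D'.C (x ⬝ᵥ x) := by rwa [eC]
  have d := hDec n J' D' x hn hJ' hx hF' hC' (by rwa [r1, r2])
  have hR := hReg ((n : ℝ) - 4) D' _ ht hF' hC'
  generalize x ⬝ᵥ x = t at *
  obtain ⟨kb, ke⟩ := hK _ D' t hq ht hF' hC' f12 f13 f23 d _ _ _ _ rfl rfl rfl rfl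
  rw [r3, ← hS] at kb ke hR
  obtain ⟨m1, m2, m3, m4⟩ := hM n S t _ _ _ _ _ hn ht hR kb h1 h2 h3 h4
  obtain ⟨k12, k13, k23, kz⟩ := ke m3
  have eS : S.C = D.C := by rw [hS]; rfl
  have f : ∀ a : Fin 3, D'.F t a.succ a.succ = D.C t := fun a => (m1 a).1.trans (by rw [eS])
  have k : ∀ a : Fin 3, D'.K t a.succ a.succ = D.c t / D.C t * D.C t := fun a => by
    have := (m1 a).2
    simp only [f a, eC, ec] at this
    exact (div_eq_iff hC.ne').1 this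
  obtain ⟨g1, g2⟩ := diag (D'.F t) (D'.K t) _ _ (D'.sF t) (D'.sK t) hF' f f12 f13 f23 k k12 k13
    k23 kz
  obtain ⟨i1, i2⟩ := conj_inv hO (D.F t) (D.K t)
  rw [← eF, ← eK] at i2
  rw [← eF] at i1
  rw [i1, i2] at g2 m4
  rw [eC, ec] at m4
  refine ⟨⟨unconj hO ?_, unconj (hat_mul hO) ?_⟩, ?_, by rw [m2, eS], m4⟩
  · rw [← hat_sub, ← eF, g1, Matrix.mul_smul, Matrix.mul_one, Matrix.smul_mul, hO]
  · rw [← eK, Matrix.mul_add, Matrix.add_mul, Matrix.mul_smul, Matrix.mul_smul, Matrix.smul_mul,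
      Matrix.smul_mul, hat_e, ← eF]
    exact g2
  · rw [kb.2.2.2.2.2.1, Finset.sum_congr rfl fun a _ => (m1 a).2, eC, ec]
    simp only [Finset.sum_const, Finset.card_univ, Fintype.card_fin, nsmul_eq_mul]
    push_cast
    ring

end Vale.Agent.P366R
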