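import Vale.Agent.P366R.Stm

namespace Vale.Agent.P366R

open scoped Matrix ContDiff Topology
open Filter Set Matrix
open Vale.Agent.P366 (Pt Ten rad pd chr)

namespace SchwAux

variable {n : ℕ}

noncomputable def XS (n : ℕ) (m s : ℝ) : ℝ := ((fS n m s)⁻¹ - 1) / s

noncomputable def lin (a : Pt n) : Pt (n + 1) →L[ℝ] ℝ :=
  LinearMap.toContinuousLinearMap
    { toFun := fun w => Fin.tail w ⬝ᵥ a
      map_add' := fun u v => by
        simp only [dotProduct, Fin.tail, Pi.add_apply, add_mul, Finset.sum_add_distrib]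
      map_smul' := fun c v => by
        simp only [dotProduct, Fin.tail, Pi.smul_apply, smul_eq_mul, RingHom.id_apply,
          Finset.mul_sum, mul_assoc] }

lemma lin_apply (a : Pt n) (w : Pt (n + 1)) : lin a w = Fin.tail w ⬝ᵥ a := rfl

noncomputable def Bf (n : ℕ) (m : ℝ) (U V w : Pt (n + 1)) : ℝ :=
  -fS n m (Fin.tail w ⬝ᵥ Fin.tail w) * U 0 * V 0 + Fin.tail U ⬝ᵥ Fin.tail V
    + XS n m (Fin.tail w ⬝ᵥ Fin.tail w) * (Fin.tail w ⬝ᵥ Fin.tail U) * (Fin.tail w ⬝ᵥ Fin.tail V)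

lemma dot_nonneg (y : Pt n) : 0 ≤ y ⬝ᵥ y := Finset.sum_nonneg fun i _ => mul_self_nonneg (y i)

lemma rad_sq (y : Pt n) : rad y ^ 2 = y ⬝ᵥ y := Real.sq_sqrt (dot_nonneg y)

lemma lapse_eq (m : ℝ) (y : Pt n) : lapse2 m y = fS n m (y ⬝ᵥ y) := rfl

lemma s00 (m : ℝ) (w : Pt (n + 1)) : schw n m w 0 0 = -fS n m (Fin.tail w ⬝ᵥ Fin.tail w) := rfl

lemma s0s (m : ℝ) (w : Pt (n + 1)) (j : Fin n) : schw n m w 0 j.succ = 0 := rfl

lemma ss0 (m : ℝ) (w : Pt (n + 1)) (i : Fin n) : schw n m w i.succ 0 = 0 := rfl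

lemma sss (m : ℝ) (w : Pt (n + 1)) (i j : Fin n) : schw n m w i.succ j.succ =
    (if i = j then 1 else 0) + XS n m (Fin.tail w ⬝ᵥ Fin.tail w) * (w i.succ * w j.succ) := by
  have h : schw n m w i.succ j.succ = (if i = j then 1 else 0) +
      ((lapse2 m (Fin.tail w))⁻¹ - 1) * (w i.succ * w j.succ) / rad (Fin.tail w) ^ 2 := rfl
  rw [h, rad_sq, lapse_eq, XS]
  ring

lemma bil (m : ℝ) (w U V : Pt (n + 1)) :
    ∑ a, ∑ b, schw n m w a b * U a * V b = Bf n m U V w := by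
  simp only [Fin.sum_univ_succ, s00, s0s, ss0, sss, zero_mul, Finset.sum_const_zero, add_zero,
    zero_add, Bf]
  generalize XS n m (Fin.tail w ⬝ᵥ Fin.tail w) = X
  have h1 : ∀ i : Fin n, ∑ j : Fin n, ((if i = j then (1 : ℝ) else 0) + X * (w i.succ * w j.succ))
      * U i.succ * V j.succ
      = U i.succ * V i.succ + X * (w i.succ * U i.succ) * ∑ j : Fin n, w j.succ * V j.succ := by
    intro i
    have h2 : ∀ j : Fin n, ((if i = j then (1 : ℝ) else 0) + X * (w i.succ * w j.succ))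
        * U i.succ * V j.succ = (if i = j then U i.succ * V j.succ else 0)
          + X * (w i.succ * U i.succ) * (w j.succ * V j.succ) := by
      intro j
      split_ifs <;> ring
    simp only [h2, Finset.sum_add_distrib, Finset.sum_ite_eq, Finset.mem_univ, if_true,
      ← Finset.mul_sum]
  simp only [h1, Finset.sum_add_distrib, ← Finset.sum_mul, ← Finset.mul_sum, dotProduct, Fin.tail]
  ring

lemma entry (m : ℝ) (a b : Fin (n + 1)) :
    (fun w => schw n m w a b) = Bf n m (Pi.single a 1) (Pi.single b 1) := by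
  funext w
  rw [← bil]
  simp [Pi.single_apply]

lemma hS (z : Pt (n + 1)) : HasFDerivAt (fun w : Pt (n + 1) => Fin.tail w ⬝ᵥ Fin.tail w)
    ((2 : ℝ) • lin (Fin.tail z)) z := by
  have h := HasFDerivAt.fun_sum (u := Finset.univ) fun (i : Fin n) _ =>
    (hasFDerivAt_apply (𝕜 := ℝ) i.succ z).mul (hasFDerivAt_apply (𝕜 := ℝ) i.succ z)
  refine h.congr_fderiv ?_
  ext v
  simp only [_root_.sum_apply, _root_.add_apply,
    _root_.smul_apply, ContinuousLinearMap.proj_apply, smul_eq_mul, lin_apply,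
    dotProduct, Fin.tail, Finset.mul_sum]
  exact Finset.sum_congr rfl fun i _ => by ring

lemma fS_d (m s : ℝ) (hs : 0 < s) : HasDerivAt (fS n m) (deriv (fS n m) s) s := by
  apply DifferentiableAt.hasDerivAt
  have h1 : DifferentiableAt ℝ (fun t : ℝ => √t ^ (n - 2)) s :=
    (differentiableAt_id.sqrt hs.ne').pow _
  have h2 : √s ^ (n - 2) ≠ 0 := pow_ne_zero _ (Real.sqrt_pos.mpr hs).ne'
  exact (differentiableAt_const _).sub ((differentiableAt_const _).div h1 h2)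

lemma XS_d (m s : ℝ) (hs : 0 < s) (hf : fS n m s ≠ 0) : HasDerivAt (XS n m)
    (-deriv (fS n m) s / (fS n m s ^ 2 * s) - XS n m s / s) s := by
  have h := (((fS_d (n := n) m s hs).inv hf).sub_const 1).div (hasDerivAt_id s) hs.ne'
  refine h.congr_deriv ?_
  simp only [XS, id, Pi.inv_apply]
  field_simp

lemma Bf_d (m : ℝ) (V N z : Pt (n + 1)) (hs : 0 < Fin.tail z ⬝ᵥ Fin.tail z)
    (hf : fS n m (Fin.tail z ⬝ᵥ Fin.tail z) ≠ 0) :
    DifferentiableAt ℝ (Bf n m V N) z ∧ ∀ U, fderiv ℝ (Bf n m V N) z U =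
      -(deriv (fS n m) (Fin.tail z ⬝ᵥ Fin.tail z) * (2 * (Fin.tail z ⬝ᵥ Fin.tail U))) * V 0 * N 0
      + (-deriv (fS n m) (Fin.tail z ⬝ᵥ Fin.tail z) /
          (fS n m (Fin.tail z ⬝ᵥ Fin.tail z) ^ 2 * (Fin.tail z ⬝ᵥ Fin.tail z))
          - XS n m (Fin.tail z ⬝ᵥ Fin.tail z) / (Fin.tail z ⬝ᵥ Fin.tail z))
        * (2 * (Fin.tail z ⬝ᵥ Fin.tail U)) * (Fin.tail z ⬝ᵥ Fin.tail V) * (Fin.tail z ⬝ᵥ Fin.tail N)
      + XS n m (Fin.tail z ⬝ᵥ Fin.tail z) * ((Fin.tail U ⬝ᵥ Fin.tail V) * (Fin.tail z ⬝ᵥ Fin.tail N)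
        + (Fin.tail z ⬝ᵥ Fin.tail V) * (Fin.tail U ⬝ᵥ Fin.tail N)) := by
  have h1 := (fS_d (n := n) m _ hs).comp_hasFDerivAt z (hS z)
  have h2 := (XS_d (n := n) m _ hs hf).comp_hasFDerivAt z (hS z)
  have h3 : HasFDerivAt (fun w : Pt (n + 1) => Fin.tail w ⬝ᵥ Fin.tail V) (lin (Fin.tail V)) z :=
    (lin (Fin.tail V)).hasFDerivAt
  have h4 : HasFDerivAt (fun w : Pt (n + 1) => Fin.tail w ⬝ᵥ Fin.tail N) (lin (Fin.tail N)) z :=
    (lin (Fin.tail N)).hasFDerivAt
  have h5 := (((h1.neg.mul_const (V 0)).mul_const (N 0)).add_const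
    (Fin.tail V ⬝ᵥ Fin.tail N)).add ((h2.mul h3).mul h4)
  have h6 : HasFDerivAt (Bf n m V N) _ z := h5
  refine ⟨h6.differentiableAt, fun U => ?_⟩
  rw [h6.fderiv]
  simp only [_root_.add_apply, _root_.smul_apply,
    _root_.neg_apply, smul_eq_mul, lin_apply, Function.comp, Pi.mul_apply,
    dotProduct_comm (Fin.tail U) (Fin.tail z)]
  ring

lemma fd_sum {k : ℕ} (F : Pt k → ℝ) (z U : Pt k) : fderiv ℝ F z U = ∑ c, pd c F z * U c := by
  have h : U = ∑ c, U c • (Pi.single c (1 : ℝ) : Pt k) := by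
    funext i
    simp [Finset.sum_apply, Pi.single_apply]
  conv_lhs => rw [h]
  simp only [map_sum, map_smul, smul_eq_mul, pd]
  exact Finset.sum_congr rfl fun c _ => mul_comm _ _

lemma tri {k : ℕ} (G : Ten k) (z U V N : Pt k)
    (hd : ∀ a b, DifferentiableAt ℝ (fun w => G w a b) z) :
    fderiv ℝ (fun w => ∑ d, ∑ a, G w d a * V d * N a) z U =
      ∑ d, ∑ a, ∑ c, pd c (fun w => G w d a) z * U c * V d * N a := by
  have h := HasFDerivAt.fun_sum (u := Finset.univ) fun (d : Fin k) _ =>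
    HasFDerivAt.fun_sum (u := Finset.univ) fun (a : Fin k) _ =>
      ((hd d a).hasFDerivAt.mul_const (V d)).mul_const (N a)
  rw [h.fderiv]
  simp only [_root_.sum_apply, _root_.smul_apply, smul_eq_mul, fd_sum,
    Finset.mul_sum]
  refine Finset.sum_congr rfl fun d _ => Finset.sum_congr rfl fun a _ =>
    Finset.sum_congr rfl fun c _ => by ring

lemma lower {k : ℕ} (G : Ten k) (z : Pt k) (h : (G z).det ≠ 0) (a c d : Fin k) :
    ∑ b, G z a b * chr G b c d z = (1 / 2) *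
      (pd c (fun y => G y d a) z + pd d (fun y => G y c a) z - pd a (fun y => G y c d) z) := by
  have hi : G z * (G z)⁻¹ = 1 := Matrix.mul_nonsing_inv _ (isUnit_iff_ne_zero.mpr h)
  have h1 : ∀ l, ∑ b, G z a b * (G z)⁻¹ b l = if a = l then 1 else 0 := by
    intro l
    rw [← Matrix.mul_apply, hi, Matrix.one_apply]
  generalize hW : (fun l => pd c (fun y => G y d l) z + pd d (fun y => G y c l) z
    - pd l (fun y => G y c d) z) = W
  have hW' : ∀ l, pd c (fun y => G y d l) z + pd d (fun y => G y c l) z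
    - pd l (fun y => G y c d) z = W l := fun l => congrFun hW l
  simp only [chr, hW']
  calc ∑ b, G z a b * ((1 / 2) * ∑ l, (G z)⁻¹ b l * W l)
      = (1 / 2) * ∑ l, (∑ b, G z a b * (G z)⁻¹ b l) * W l := by
        simp only [Finset.mul_sum, Finset.sum_mul]
        rw [Finset.sum_comm]
        exact Finset.sum_congr rfl fun _ _ => Finset.sum_congr rfl fun _ _ => by ring
    _ = (1 / 2) * W a := by
        simp only [h1, ite_mul, one_mul, zero_mul, Finset.sum_ite_eq, Finset.mem_univ, if_true]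

lemma low3 {k : ℕ} (G : Ten k) (z N U V : Pt k) (h : (G z).det ≠ 0)
    (hd : ∀ a b, DifferentiableAt ℝ (fun w => G w a b) z) :
    ∑ a, ∑ b, G z a b * N a * ∑ c, ∑ d, chr G b c d z * U c * V d = (1 / 2) *
      (fderiv ℝ (fun w => ∑ d, ∑ a, G w d a * V d * N a) z U
        + fderiv ℝ (fun w => ∑ d, ∑ a, G w d a * U d * N a) z V
        - fderiv ℝ (fun w => ∑ d, ∑ a, G w d a * U d * V a) z N) := by
  rw [tri G z U V N hd, tri G z V U N hd, tri G z N U V hd]
  have e0 : ∀ a, ∑ b, G z a b * N a * ∑ c, ∑ d, chr G b c d z * U c * V d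
      = ∑ c, ∑ d, (∑ b, G z a b * chr G b c d z) * (N a * U c * V d) := by
    intro a
    simp only [Finset.mul_sum, Finset.sum_mul]
    rw [Finset.sum_comm]
    refine Finset.sum_congr rfl fun c _ => ?_
    rw [Finset.sum_comm]
    exact Finset.sum_congr rfl fun _ _ => Finset.sum_congr rfl fun _ _ => by ring
  have e1 : ∑ d, ∑ a, ∑ c, pd c (fun w => G w d a) z * U c * V d * N a
      = ∑ a, ∑ c, ∑ d, pd c (fun w => G w d a) z * (N a * U c * V d) := by
    rw [Finset.sum_comm]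
    refine Finset.sum_congr rfl fun a _ => ?_
    rw [Finset.sum_comm]
    exact Finset.sum_congr rfl fun _ _ => Finset.sum_congr rfl fun _ _ => by ring
  have e2 : ∑ c, ∑ a, ∑ d, pd d (fun w => G w c a) z * V d * U c * N a
      = ∑ a, ∑ c, ∑ d, pd d (fun w => G w c a) z * (N a * U c * V d) := by
    rw [Finset.sum_comm]
    exact Finset.sum_congr rfl fun _ _ => Finset.sum_congr rfl fun _ _ =>
      Finset.sum_congr rfl fun _ _ => by ring
  have e3 : ∑ c, ∑ d, ∑ a, pd a (fun w => G w c d) z * N a * U c * V d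
      = ∑ a, ∑ c, ∑ d, pd a (fun w => G w c d) z * (N a * U c * V d) := by
    symm
    rw [Finset.sum_comm]
    refine Finset.sum_congr rfl fun c _ => ?_
    rw [Finset.sum_comm]
    exact Finset.sum_congr rfl fun _ _ => Finset.sum_congr rfl fun _ _ => by ring
  rw [e1, e2, e3]
  simp only [e0, lower G z h]
  simp only [← Finset.sum_add_distrib, ← Finset.sum_sub_distrib, Finset.mul_sum]
  exact Finset.sum_congr rfl fun _ _ => Finset.sum_congr rfl fun _ _ =>
    Finset.sum_congr rfl fun _ _ => by ring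

lemma det_ne (m : ℝ) (z : Pt (n + 1)) (hs : 0 < Fin.tail z ⬝ᵥ Fin.tail z)
    (hf : fS n m (Fin.tail z ⬝ᵥ Fin.tail z) ≠ 0) : (schw n m z).det ≠ 0 := by
  intro h0
  obtain ⟨v, hv, hz⟩ := Matrix.exists_mulVec_eq_zero_iff.mpr h0
  have key : ∀ U, Bf n m U v z = 0 := by
    intro U
    rw [← bil]
    refine Finset.sum_eq_zero fun a _ => ?_
    have h1 : ∑ b, schw n m z a b * v b = 0 := congrFun hz a
    have h2 : ∑ b, schw n m z a b * U a * v b = U a * ∑ b, schw n m z a b * v b := by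
      rw [Finset.mul_sum]
      exact Finset.sum_congr rfl fun _ _ => by ring
    rw [h2, h1, mul_zero]
  have k1 := key (Fin.cons 1 0)
  have k2 := key (Fin.cons 0 (Fin.tail z))
  have k3 := key (Fin.cons 0 (Fin.tail v))
  simp only [Bf, Fin.cons_zero, Fin.tail_cons, mul_one, zero_dotProduct, dotProduct_zero,
    mul_zero, zero_mul, add_zero, zero_add] at k1 k2 k3
  have v0 : v 0 = 0 := by
    rcases mul_eq_zero.mp k1 with h | h
    · exact absurd (neg_eq_zero.mp h) hf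
    · exact h
  have v1 : Fin.tail z ⬝ᵥ Fin.tail v = 0 := by
    have e : XS n m (Fin.tail z ⬝ᵥ Fin.tail z) * (Fin.tail z ⬝ᵥ Fin.tail z)
        = (fS n m (Fin.tail z ⬝ᵥ Fin.tail z))⁻¹ - 1 := by
      rw [XS, div_mul_cancel₀ _ hs.ne']
    rw [e] at k2
    have k4 : (fS n m (Fin.tail z ⬝ᵥ Fin.tail z))⁻¹ * (Fin.tail z ⬝ᵥ Fin.tail v) = 0 := by
      linarith
    exact (mul_eq_zero.mp k4).resolve_left (inv_ne_zero hf)
  rw [v1, mul_zero, add_zero, dotProduct_self_eq_zero] at k3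
  apply hv
  funext a
  refine Fin.cases v0 (fun i => ?_) a
  exact congrFun k3 i

end SchwAux

open SchwAux in
theorem schw_pf : SchwStmt := by
  intro n m T f f' χ y hy hf hf0 hf' hχ
  have hs : 0 < y ⬝ᵥ y :=
    lt_of_le_of_ne (dot_nonneg y) fun h => hy (dotProduct_self_eq_zero.mp h.symm)
  have hX : XS n m (y ⬝ᵥ y) = χ := by rw [hχ, hf, XS]
  have ht : Fin.tail (Fin.cons T y : Pt (n + 1)) = y := Fin.tail_cons _ _
  have hs' : 0 < Fin.tail (Fin.cons T y : Pt (n + 1)) ⬝ᵥ Fin.tail (Fin.cons T y : Pt (n + 1)) := by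
    rw [ht]; exact hs
  have hf1 : fS n m (Fin.tail (Fin.cons T y : Pt (n + 1)) ⬝ᵥ
      Fin.tail (Fin.cons T y : Pt (n + 1))) ≠ 0 := by
    rw [ht, ← hf]; exact hf0
  refine ⟨hf.symm, fun U V => ?_, fun N U V => ?_⟩
  · rw [bil, Bf, ht, hX, ← hf]
  · rw [low3 _ _ N U V (det_ne m _ hs' hf1) fun a b => by
      rw [entry]; exact (Bf_d m _ _ _ hs' hf1).1]
    simp only [bil]
    rw [(Bf_d m V N _ hs' hf1).2, (Bf_d m U N _ hs' hf1).2, (Bf_d m U V _ hs' hf1).2, ht, hX,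
      ← hf, ← hf', dotProduct_comm (Fin.tail V) (Fin.tail U),
      dotProduct_comm (Fin.tail N) (Fin.tail U), dotProduct_comm (Fin.tail N) (Fin.tail V)]
    ring

end Vale.Agent.P366R
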