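import Vale.Agent.P366R.Stm
import Vale.Agent.P366N.Mono

/-! The equality case for `Spin(9)`. -/

namespace Vale.Agent.P366R

open scoped Matrix ContDiff Topology
open Filter Set Matrix
open Vale.Agent.P366 (Pt Ten rad Dat ll pr0)
open Vale.Agent.P366N

namespace Slice9

theorem core {H u w v x S R E us ws : ℝ} (hH : 0 < H) (hu : 0 < u)
    (hw : 0 < w) (huw : u ≤ w ^ 2) (hS : u * x ^ 2 ≤ H * S) (hE : 0 ≤ E)
    (hus : 15 * us = 15 * H * R - E - H * u * 16 - 56 * S)
    (hws : 15 * ws = -(w * H) + x * v)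
    (hR : v ^ 2 ≤ 56 * (14 * w ^ 2 - 15 * R))
    (h0 : 14 * H * (w ^ 2 - u) * w - 15 * us * w + 2 * u * (15 * ws) = 0) :
    H * S - u * x ^ 2 = 0 ∧ E = 0 ∧ 56 * w * x + v * H = 0 ∧
      56 * (14 * w ^ 2 - 15 * R) - v ^ 2 = 0 := by
  have e : 14 * H * (w ^ 2 - u) * w - 15 * us * w + 2 * u * (15 * ws) =
      H * w * (14 * w ^ 2 - 15 * R) + E * w + 56 * S * w + 2 * u * x * v := by
    rw [hus, hws]
    ring
  rw [e] at h0
  generalize 14 * w ^ 2 - 15 * R = T at hR h0
  have a1 : 0 ≤ (56 * w) ^ 2 * (H * S - u * x ^ 2) :=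
    mul_nonneg (sq_nonneg _) (sub_nonneg.2 hS)
  have a2 : 0 ≤ 56 * w * H * (E * w) := by positivity
  have a3 : 0 ≤ u * (56 * w * x + v * H) ^ 2 := by positivity
  have a4 : 0 ≤ (w ^ 2 - u) * (v * H) ^ 2 := mul_nonneg (sub_nonneg.2 huw) (sq_nonneg _)
  have a5 : 0 ≤ (H * w) ^ 2 * (56 * T - v ^ 2) := mul_nonneg (sq_nonneg _) (sub_nonneg.2 hR)
  have e2 : 56 * w * H * (H * w * T + E * w + 56 * S * w + 2 * u * x * v) =
      (56 * w) ^ 2 * (H * S - u * x ^ 2) + 56 * w * H * (E * w) +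
        u * (56 * w * x + v * H) ^ 2 + (w ^ 2 - u) * (v * H) ^ 2 +
        (H * w) ^ 2 * (56 * T - v ^ 2) := by ring
  rw [h0, mul_zero] at e2
  have b1 : (56 * w) ^ 2 * (H * S - u * x ^ 2) = 0 := by linarith
  have b2 : 56 * w * H * (E * w) = 0 := by linarith
  have b3 : u * (56 * w * x + v * H) ^ 2 = 0 := by linarith
  have b5 : (H * w) ^ 2 * (56 * T - v ^ 2) = 0 := by linarith
  refine ⟨(mul_eq_zero.1 b1).resolve_left (by positivity), ?_, ?_,
    (mul_eq_zero.1 b5).resolve_left (by positivity)⟩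
  · exact (mul_eq_zero.1 ((mul_eq_zero.1 b2).resolve_left (by positivity))).resolve_right hw.ne'
  · exact pow_eq_zero_iff (two_ne_zero) |>.1 ((mul_eq_zero.1 b3).resolve_left hu.ne')

theorem algEq {X Y l1 l2 k0 k1 k2 Hs Ps H P w ws u us μ j : ℝ} (hX : 0 < X) (hY : 0 < Y)
    (hH : H = 7 * l1 + 8 * l2) (hP : P = 7 * k1 + 8 * k2)
    (hμ : μ = ((42 * X ^ 2 + 224 * (X * Y) - 56 * Y ^ 2) - 2 * Hs - H ^ 2
      - (7 * l1 ^ 2 + 8 * l2 ^ 2) + (k0 + P) ^ 2 - (k0 ^ 2 + 7 * k1 ^ 2 + 8 * k2 ^ 2)) / 2)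
    (hj : j = -Ps + H * k0 - (7 * l1 * k1 + 8 * l2 * k2))
    (hw : w = 11 * X + 4 * Y) (hws : ws = -(11 * l1 * X) + 4 * Y * (l1 - 2 * l2))
    (hu : u = H ^ 2 - P ^ 2) (hus : us = 2 * H * Hs - 2 * P * Ps)
    (hd : |j| ≤ μ) (hp : 0 < H + P) (hm : 0 < H - P) (huw : u ≤ w ^ 2)
    (h0 : 14 / 15 * H * (1 - u / w ^ 2) - us / w ^ 2 + 2 * u * ws / w ^ 3 = 0) :
    X = Y ∧ l1 = l2 ∧ k1 = k2 ∧ j = 0 := by
  have hw0 : 0 < w := by
    rw [hw]
    positivity
  have hH0 : 0 < H := by linarith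
  have hu0 : 0 < u := by
    have : u = (H + P) * (H - P) := by
      rw [hu]
      ring
    rw [this]
    positivity
  obtain ⟨d1, d2⟩ := abs_le.1 hd
  have q1 : 0 ≤ (μ + j) * (H - P) := mul_nonneg (by linarith) hm.le
  have q2 : 0 ≤ (μ - j) * (H + P) := mul_nonneg (by linarith) hp.le
  have hE : 0 ≤ 15 * ((μ + j) * (H - P) + (μ - j) * (H + P)) :=
    mul_nonneg (by positivity) (add_nonneg q1 q2)
  have e : 14 / 15 * H * (1 - u / w ^ 2) - us / w ^ 2 + 2 * u * ws / w ^ 3 =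
      (14 * H * (w ^ 2 - u) * w - 15 * us * w + 2 * u * (15 * ws)) / (15 * w ^ 3) := by
    field_simp
  rw [e, div_eq_zero_iff, or_iff_left (by positivity)] at h0
  have e1 : H * (((H - P) * (l1 - l2 + (k1 - k2)) ^ 2 +
      (H + P) * (l1 - l2 - (k1 - k2)) ^ 2) / 2) - u * (l1 - l2) ^ 2 =
      ((H - P) * (l1 - l2 + (k1 - k2)) - (H + P) * (l1 - l2 - (k1 - k2))) ^ 2 / 4 := by
    rw [hu]
    ring
  have e2 : 56 * (14 * w ^ 2 - 15 * (42 * X ^ 2 + 224 * (X * Y) - 56 * Y ^ 2)) -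
      (88 * (Y - X)) ^ 2 = 51840 * (X - Y) ^ 2 := by
    rw [hw]
    ring
  obtain ⟨c1, c2, c3, c4⟩ := core (x := l1 - l2) (v := 88 * (Y - X)) (us := us) (ws := ws)
    (S := ((H - P) * (l1 - l2 + (k1 - k2)) ^ 2 + (H + P) * (l1 - l2 - (k1 - k2)) ^ 2) / 2)
    (R := 42 * X ^ 2 + 224 * (X * Y) - 56 * Y ^ 2) hH0 hu0 hw0 huw
    (by
      have := sq_nonneg ((H - P) * (l1 - l2 + (k1 - k2)) - (H + P) * (l1 - l2 - (k1 - k2)))
      linarith) hE
    (by
      rw [hus, hμ, hj, hu, hH, hP]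
      ring)
    (by
      rw [hws, hw, hH]
      ring)
    (by
      have : 0 ≤ 51840 * (X - Y) ^ 2 := by positivity
      linarith) h0
  have f1 : X = Y := by
    rw [e2] at c4
    have : (X - Y) ^ 2 = 0 := by linarith
    exact sub_eq_zero.1 (pow_eq_zero_iff two_ne_zero |>.1 this)
  have f2 : l1 = l2 := by
    rw [f1, sub_self, mul_zero, zero_mul, add_zero] at c3
    exact sub_eq_zero.1 ((mul_eq_zero.1 c3).resolve_left (by positivity))
  have f3 : k1 = k2 := by
    rw [e1, f2] at c1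
    have g1 : ((H - P) * (l2 - l2 + (k1 - k2)) - (H + P) * (l2 - l2 - (k1 - k2))) ^ 2 = 0 := by
      linarith
    have g2 : 2 * H * (k1 - k2) = 0 := by
      have := pow_eq_zero_iff two_ne_zero |>.1 g1
      linarith
    exact sub_eq_zero.1 ((mul_eq_zero.1 g2).resolve_left (by positivity))
  have g1 : (μ + j) * (H - P) = 0 := by linarith
  have g2 : (μ - j) * (H + P) = 0 := by linarith
  have g3 := (mul_eq_zero.1 g1).resolve_right hm.ne'
  have g4 := (mul_eq_zero.1 g2).resolve_right hp.ne'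
  exact ⟨f1, f2, f3, by linarith⟩

theorem blk_eq (J : Fin 9 → Matrix (Fin 16) (Fin 16) ℝ) (x : Pt 16) (A C : ℝ) :
    blk J x A C C = C • (1 : Matrix (Fin 16) (Fin 16) ℝ)
      + ((A - C) / (x ⬝ᵥ x)) • vecMulVec x x := by
  unfold blk pr0
  rw [div_eq_mul_inv, ← smul_smul]
  generalize (x ⬝ᵥ x)⁻¹ • vecMulVec x x = Q
  module

end Slice9

theorem monoEq9_pf : MonoEq9Stmt := by
  intro D t ht hA hB hC hJ h1 h2 hm hd0
  have dar := Mono.d_ar D ht hB hC
  unfold mass at hm hd0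
  have a0 : 0 < ar1 D t := by unfold ar1; positivity
  generalize ar1 D = ar at *
  have dA := (D.hA.differentiable (by simp) t).hasDerivAt
  have dB := (D.hB.differentiable (by simp) t).hasDerivAt
  have dC := (D.hC.differentiable (by simp) t).hasDerivAt
  have dh : HasDerivAt (hh D) (deriv (hh D) t) t := DifferentiableAt.hasDerivAt
    (((Mono.d_ll D.hB hB).const_mul 7).add ((Mono.d_ll D.hC hC).const_mul 8))
  have dP : HasDerivAt (PP D) (deriv (PP D) t) t := DifferentiableAt.hasDerivAt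
    ((((D.hb.differentiable (by simp) t).div dB.differentiableAt hB.ne').const_mul 7).add
      (((D.hc.differentiable (by simp) t).div dC.differentiableAt hC.ne').const_mul 8))
  have r0 := Real.sqrt_pos.2 ht
  have b0 := Real.sqrt_pos.2 hB
  have L0 := Real.sqrt_pos.2 (mul_pos ht hA)
  have dH : HasDerivAt (H1 D) _ t :=
    dh.fun_div (((hasDerivAt_id' t).fun_mul dA).sqrt (mul_pos ht hA).ne') L0.ne'
  have db := dB.sqrt hB.ne'
  have dw : HasDerivAt (w1 D) _ t :=
    (((hasDerivAt_const t (11 : ℝ)).fun_div db b0.ne').fun_add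
      ((db.const_mul 4).fun_div dC hC.ne')).fun_div (Real.hasDerivAt_sqrt ht.ne') r0.ne'
  have w0 : 0 < w1 D t := by unfold w1; positivity
  have dm := ((dar.rpow_const (p := (14 : ℝ) / 15) (.inl a0.ne')).const_mul (1 / 2)).fun_mul
    ((((dH.fun_pow 2).fun_sub (dP.fun_pow 2)).fun_div (dw.fun_pow 2) (by positivity)).const_sub 1)
  rw [dm.deriv, ← dH.deriv, ← dw.deriv] at hd0
  have p0 := Real.rpow_pos_of_pos a0 ((14 : ℝ) / 15)
  obtain ⟨f1, f2, f3, f4⟩ := Slice9.algEq (X := 1 / (√t * √(D.B t))) (Y := √(D.B t) / (√t * D.C t))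
    (l1 := ll D.B t / √(t * D.A t))
    (l2 := ll D.C t / √(t * D.A t)) (k0 := D.a t / D.A t) (k1 := D.b t / D.B t)
    (k2 := D.c t / D.C t)
    (Hs := 2 * t / √(t * D.A t) * deriv (H1 D) t) (Ps := 2 * t / √(t * D.A t) * deriv (PP D) t)
    (H := H1 D t) (P := PP D t) (w := w1 D t) (ws := 2 * t / √(t * D.A t) * deriv (w1 D) t)
    (μ := mu1 D t)
    (j := J1 D t / √(t * D.A t)) (by positivity) (by positivity) (by rw [H1, hh]; ring) rfl
    (by
      rw [mu1, R1, Mono.alg_R _ _ _ _ _ r0 b0 L0 hC (Real.sq_sqrt ht.le) (Real.sq_sqrt hB.le)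
        (Real.sq_sqrt (mul_pos ht hA).le), dH.deriv, H1])
    (by rw [J1, H1]; ring) (by rw [w1]; field_simp)
    (by
      have e1 := Real.sq_sqrt ht.le
      have e2 := Real.sq_sqrt hB.le
      rw [dw.deriv, ll, ll]
      clear hd0
      generalize deriv D.B t = B', deriv D.C t = C', √(t * D.A t) = L, D.C t = C at *
      generalize D.B t = B at *
      generalize √B = b, √t = r at *
      subst e1 e2
      field_simp
      ring) rfl rfl (by rwa [abs_div, abs_of_pos L0]) h1 h2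
    ((div_le_one (by positivity)).1 (sub_nonneg.1
      ((mul_nonneg_iff_of_pos_left (by positivity)).1 hm.le)))
    (by
      refine ((mul_eq_zero (a := ar t ^ ((14 : ℝ) / 15) / 2)).1 ?_).resolve_left (half_pos p0).ne'
      refine Eq.trans ?_ ((congrArg (fun z => 2 * t / √(t * D.A t) * z) hd0).trans (mul_zero _))
      rw [Real.rpow_sub_one a0.ne', show hh D t = H1 D t * √(t * D.A t) from
        (div_mul_cancel₀ _ L0.ne').symm]
      push_cast
      field_simp
      ring)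
  have eB : D.B t = D.C t := by
    have e2 := Real.sq_sqrt hB.le
    field_simp at f1
    linarith
  refine ⟨eB, ?_, ?_, ?_⟩
  · rw [eB] at f3
    field_simp at f3
    exact f3
  · field_simp at f2
    exact f2
  · exact (div_eq_zero_iff.1 f4).resolve_right L0.ne'

theorem slice9_pf (hE : EmbStmt) : Slice9Stmt := by
  intro J D t0 E ht0 h
  refine hE 16 E t0 D.C D.A (fun t => D.c t / D.C t) (fun t => D.a t / D.A t)
    (fun t => √(D.C t) • (1 : Matrix (Fin 16) (Fin 16) ℝ)) (fun _ => 0) _ _ ht0 ?_ ?_ ?_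
  · intro t ht
    obtain ⟨hA, hC, h1, h2, hm, eB, eb, el, eJ⟩ := h t ht
    have tp : 0 < t := ht0.trans ht
    have L0 := Real.sqrt_pos.2 (mul_pos tp hA)
    have eL := Real.sq_sqrt (mul_pos tp hA).le
    have eh : hh D t = 15 * ll D.C t := by rw [hh, el]; ring
    have eP : PP D t = 15 * (D.c t / D.C t) := by rw [PP, eB, eb]; ring
    have ell : D.C t + t * deriv D.C t = D.C t * ll D.C t := by rw [ll]; field_simp
    have lp : 0 < ll D.C t := by
      have : 0 < H1 D t := by linarith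
      rw [H1, eh] at this
      have := (div_pos_iff_of_pos_right L0).1 this
      linarith
    have s0 := Real.sqrt_pos.2 (mul_pos tp hC)
    have es := Real.sq_sqrt (mul_pos tp hC).le
    have ear : ar1 D t ^ ((14 : ℝ) / 15) = √(t * D.C t) ^ 14 := by
      have : ar1 D t = √(t * D.C t) ^ 15 := by
        rw [ar1, eB, Real.sqrt_mul tp.le, mul_pow, ← pow_add]
        congr 1
        rw [Real.sqrt_eq_iff_mul_self_eq (by positivity) (by positivity), ← mul_pow,
          Real.mul_self_sqrt hC.le]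
      rw [this, ← Real.rpow_natCast, ← Real.rpow_mul s0.le, ← Real.rpow_natCast]
      norm_num
    have ew : w1 D t ^ 2 = 225 / (t * D.C t) := by
      have e1 := Real.sq_sqrt tp.le
      have e2 := Real.sq_sqrt hC.le
      have r0 := Real.sqrt_pos.2 tp
      have c0 := Real.sqrt_pos.2 hC
      rw [w1, eB]
      generalize D.C t = C at *
      generalize √C = b, √t = r at *
      subst e1 e2
      field_simp
      ring
    have ef : fS 16 E (t * D.C t) = (H1 D t ^ 2 - PP D t ^ 2) * (t * D.C t) / 225 := by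
      rw [fS, ← hm, mass, ear, ew, show 16 - 2 = 14 from rfl]
      field_simp
      ring
    have dP : deriv (PP D) t = 15 * deriv (fun t => D.c t / D.C t) t := by
      rw [← deriv_const_mul_field]
      refine Filter.EventuallyEq.deriv_eq ?_
      filter_upwards [Ioi_mem_nhds ht] with s hs
      obtain ⟨-, -, -, -, -, eB, eb, -, -⟩ := h s hs
      rw [PP, eB, eb]
      ring
    refine ⟨D.hC.contDiffAt, D.hA.contDiffAt, D.hc.contDiffAt.div D.hC.contDiffAt hC.ne', hC, hA,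
      ?_, ?_, ?_, ?_⟩
    · rw [ell]
      positivity
    · rw [ef, show H1 D t ^ 2 - PP D t ^ 2 = (H1 D t + PP D t) * (H1 D t - PP D t) by ring]
      positivity
    · rw [ef, ell, H1, eh, eP, div_pow, eL]
      field_simp
      ring
    · rw [J1, dP, eh, el, eB, eb] at eJ
      rw [ell]
      linear_combination (-D.C t / 15) * eJ
  · intro t ht
    obtain ⟨hA, hC, -⟩ := h t ht
    have c0 := Real.sqrt_pos.2 hC
    have dC := ((D.hC.differentiable (by simp) t).hasDerivAt).sqrt hC.ne'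
    have eM : mD (fun t => √(D.C t) • (1 : Matrix (Fin 16) (Fin 16) ℝ)) t =
        (deriv D.C t / (2 * √(D.C t))) • (1 : Matrix (Fin 16) (Fin 16) ℝ) := by
      ext a b
      simp only [mD, Matrix.of_apply, Matrix.smul_apply, smul_eq_mul]
      exact (dC.mul_const _).deriv
    refine ⟨fun a b => ?_, by simp, ?_, ?_⟩
    · simp only [Matrix.smul_apply, smul_eq_mul]
      exact (D.hC.contDiffAt.sqrt hC.ne').mul contDiffAt_const
    · rw [transpose_smul, transpose_one, smul_mul_smul_comm, mul_one, Real.mul_self_sqrt hC.le]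
    · rw [eM, transpose_smul, transpose_one, smul_mul_smul_comm, mul_one, add_zero]
      congr 1
      field_simp
  · intro x hx
    obtain ⟨hA, hC, -, -, -, eB, eb, -⟩ := h _ hx
    have tp : 0 < x ⬝ᵥ x := ht0.trans hx
    have e1 : hopf J D.A D.B D.C x = D.C (x ⬝ᵥ x) • (1 : Matrix (Fin 16) (Fin 16) ℝ)
        + ((D.A (x ⬝ᵥ x) - D.C (x ⬝ᵥ x)) / (x ⬝ᵥ x)) • vecMulVec x x := by
      rw [hopf, eB, Slice9.blk_eq]
    refine ⟨?_, ?_⟩
    · rw [e1]
      simp
    · rw [e1, hopf, eb, Slice9.blk_eq, smul_add, smul_smul, smul_smul, add_assoc, ← add_smul]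
      congr 2
      · field_simp
      · field_simp
        ring

end Vale.Agent.P366R
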