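import Vale.Agent.P366R.Stm

/-! From round data to a slice of Schwarzschild, `Sp(m+1)` case. -/

namespace Vale.Agent.P366R

open scoped Matrix ContDiff Topology
open Filter Set Matrix
open Vale.Agent.P366 (Pt Ten IsQuat ll)
open Vale.Agent.P366S

namespace SliceSpAux

variable {n : ℕ} {J : Fin 3 → Matrix (Fin n) (Fin n) ℝ}

/-- Multiplication by the quaternion `a`. -/
def Qm (J : Fin 3 → Matrix (Fin n) (Fin n) ℝ) (a : Fin 4 → ℝ) : Matrix (Fin n) (Fin n) ℝ :=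
  a 0 • (1 : Matrix (Fin n) (Fin n) ℝ) + Jo J a

theorem Qm_apply (a : Fin 4 → ℝ) (i j : Fin n) : Qm J a i j =
    a 0 * (1 : Matrix (Fin n) (Fin n) ℝ) i j + (a 1 * J 0 i j + a 2 * J 1 i j + a 3 * J 2 i j) :=
  rfl

theorem Qm_TM (h : IsQuat J) (s p : Fin 4 → ℝ) (c : ℝ) :
    (Qm J s)ᵀ * Qm J ((c • Rq p) *ᵥ s) = (c * (s ⬝ᵥ s)) • Qm J p := by
  have e0 : ((c • Rq p) *ᵥ s) 0 = c * (p 0 * s 0 - p 1 * s 1 - p 2 * s 2 - p 3 * s 3) := by
    simp [Rq, mulVec, dotProduct, Fin.sum_univ_four]; ring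
  have e1 : ((c • Rq p) *ᵥ s) 1 = c * (p 1 * s 0 + p 0 * s 1 + p 3 * s 2 - p 2 * s 3) := by
    simp [Rq, mulVec, dotProduct, Fin.sum_univ_four]; ring
  have e2 : ((c • Rq p) *ᵥ s) 2 = c * (p 2 * s 0 - p 3 * s 1 + p 0 * s 2 + p 1 * s 3) := by
    simp [Rq, mulVec, dotProduct, Fin.sum_univ_four]; ring
  have e3 : ((c • Rq p) *ᵥ s) 3 = c * (p 3 * s 0 + p 2 * s 1 - p 1 * s 2 + p 0 * s 3) := by
    simp [Rq, mulVec, dotProduct, Fin.sum_univ_four]; ring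
  simp only [Qm, Jo, e0, e1, e2, e3, transpose_add, transpose_smul, transpose_one, h.1,
    Matrix.add_mul, Matrix.mul_add, smul_mul_smul_comm, Matrix.one_mul, Matrix.mul_one,
    Matrix.neg_mul, h.2.1, h.2.2, h.m10, h.m02, h.m20, h.m12, h.m21, dotProduct,
    Fin.sum_univ_four]
  module

theorem Qm_TT (h : IsQuat J) (s : Fin 4 → ℝ) :
    (Qm J s)ᵀ * Qm J s = (s ⬝ᵥ s) • (1 : Matrix (Fin n) (Fin n) ℝ) := by
  simp only [Qm, Jo, transpose_add, transpose_smul, transpose_one, h.1,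
    Matrix.add_mul, Matrix.mul_add, smul_mul_smul_comm, Matrix.one_mul, Matrix.mul_one,
    Matrix.neg_mul, h.2.1, h.2.2, h.m10, h.m02, h.m20, h.m12, h.m21, dotProduct,
    Fin.sum_univ_four]
  module

theorem Rq_dot (s p : Fin 4 → ℝ) (c : ℝ) : s ⬝ᵥ ((c • Rq p) *ᵥ s) = c * p 0 * (s ⬝ᵥ s) := by
  simp [Rq, mulVec, dotProduct, Fin.sum_univ_four]
  ring

theorem Rq_lin (p : Fin 4 → ℝ) (a b : Fin 4) :
    Rq p a b = ∑ k, p k * Rq (Pi.single k 1) a b := by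
  fin_cases a <;> fin_cases b <;> simp [Rq, Fin.sum_univ_four]

theorem cd_deriv {f : ℝ → ℝ} {t : ℝ} (hf : ContDiffAt ℝ ∞ f t) :
    ContDiffAt ℝ ∞ (deriv f) t := by
  have h1 : ContDiffAt ℝ ∞ (fderiv ℝ f) t := hf.fderiv_right (m := ∞) (by simp)
  exact h1.clm_apply (contDiffAt_const (c := (1 : ℝ)))

/-- The rotating frame. -/
theorem frame (hL : LinOdeStmt) (h : IsQuat J) {t0 : ℝ} {C : ℝ → ℝ} {om : ℝ → Fin 4 → ℝ}
    (hC : ∀ t, t0 < t → ContDiffAt ℝ ∞ C t ∧ 0 < C t)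
    (ho : ∀ t, t0 < t → ∀ k, ContDiffAt ℝ ∞ (fun r => om r k) t)
    (h0 : ∀ t, om t 0 = deriv C t / 2) :
    ∃ M : ℝ → Matrix (Fin n) (Fin n) ℝ, ∀ t, t0 < t →
      (∀ a b, ContDiffAt ℝ ∞ (fun s => M s a b) t) ∧ (Jo J (om t))ᵀ = -Jo J (om t) ∧
      (M t)ᵀ * M t = C t • (1 : Matrix (Fin n) (Fin n) ℝ) ∧
      (M t)ᵀ * mD M t = (deriv C t / 2) • (1 : Matrix (Fin n) (Fin n) ℝ) + Jo J (om t) := by
  obtain ⟨s, s1, hs⟩ := hL (fun t => (C t)⁻¹ • Rq (om t)) t0 (t0 + 1) (√(C (t0 + 1)) • e0)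
    (by linarith) fun t ht a b => by
      simp only [Matrix.smul_apply, smul_eq_mul]
      refine ((hC t ht).1.inv (hC t ht).2.ne').mul ?_
      simp only [Rq_lin (om _) a b]
      exact ContDiffAt.sum fun k _ => (ho t ht k).mul contDiffAt_const
  have hd : ∀ t, t0 < t → ∀ a,
      HasDerivAt (fun r => s r a) ((((C t)⁻¹ • Rq (om t)) *ᵥ s t) a) t := fun t ht a => by
    rw [← (hs t ht a).2]
    exact ((hs t ht a).1.differentiableAt (by simp)).hasDerivAt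
  have hq : ∀ t, t0 < t → HasDerivAt (fun r => (s r ⬝ᵥ s r) / C r) 0 t := fun t ht => by
    have d1 : HasDerivAt (fun r => s r ⬝ᵥ s r)
        (2 * (s t ⬝ᵥ (((C t)⁻¹ • Rq (om t)) *ᵥ s t))) t := by
      have := HasDerivAt.fun_sum (u := Finset.univ) fun a _ => (hd t ht a).mul (hd t ht a)
      refine this.congr_deriv ?_
      rw [dotProduct, Finset.mul_sum]
      exact Finset.sum_congr rfl fun a _ => by ring
    have d2 := ((hC t ht).1.differentiableAt (by simp)).hasDerivAt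
    refine (d1.div d2 (hC t ht).2.ne').congr_deriv ?_
    have := (hC t ht).2.ne'
    rw [Rq_dot, h0]
    field_simp
    ring
  have hn : ∀ t, t0 < t → s t ⬝ᵥ s t = C t := fun t ht => by
    have k : (s t ⬝ᵥ s t) / C t = (s (t0 + 1) ⬝ᵥ s (t0 + 1)) / C (t0 + 1) :=
      isOpen_Ioi.is_const_of_deriv_eq_zero (f := fun r => (s r ⬝ᵥ s r) / C r) isPreconnected_Ioi
        (fun r hr => (hq r hr).differentiableAt.differentiableWithinAt)
        (fun r hr => (hq r hr).deriv) ht (show t0 < t0 + 1 by linarith)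
    have c1 := (hC (t0 + 1) (by linarith)).2
    have e : (√(C (t0 + 1)) • e0) ⬝ᵥ (√(C (t0 + 1)) • e0) = C (t0 + 1) := by
      simp [e0, Real.mul_self_sqrt c1.le]
    rw [s1, e, div_self c1.ne', div_eq_one_iff_eq (hC t ht).2.ne'] at k
    exact k
  refine ⟨fun t => Qm J (s t), fun t ht => ⟨fun a b => ?_, Jo_T h _, ?_, ?_⟩⟩
  · simp only [Qm_apply]
    exact ((hs t ht 0).1.mul contDiffAt_const).add ((((hs t ht 1).1.mul contDiffAt_const).add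
      ((hs t ht 2).1.mul contDiffAt_const)).add ((hs t ht 3).1.mul contDiffAt_const))
  · rw [Qm_TT h, hn t ht]
  · have e : mD (fun t => Qm J (s t)) t = Qm J (((C t)⁻¹ • Rq (om t)) *ᵥ s t) := by
      ext a b
      simp only [mD, of_apply, Qm_apply]
      exact (((hd t ht 0).mul_const _).add ((((hd t ht 1).mul_const _).add
        ((hd t ht 2).mul_const _)).add ((hd t ht 3).mul_const _))).deriv
    rw [e, Qm_TM h, hn t ht, inv_mul_cancel₀ (hC t ht).2.ne', one_smul, Qm, h0]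

theorem Y_vv (x : Pt n) (u v : Fin 4 → ℝ) :
    Ym J x * vecMulVec u v * (Ym J x)ᵀ = vecMulVec (Ym J x *ᵥ u) (Ym J x *ᵥ v) := by
  rw [mul_vecMulVec, vecMulVec_mul, vecMul_transpose]

/-- The shape of a matrix with scalar vertical block. -/
theorem shape {F : M4} {C : ℝ} (hs : Fᵀ = F) (hd : F.det ≠ 0) (hC : C ≠ 0) (hp : F⁻¹ 0 0 ≠ 0)
    (hv : F.submatrix Fin.succ Fin.succ = C • (1 : Matrix (Fin 3) (Fin 3) ℝ)) :
    F - C • (1 : M4) = (F 0 0 - C) • vecMulVec e0 e0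
      + (vecMulVec ![0, F 0 1, F 0 2, F 0 3] e0 + vecMulVec e0 ![0, F 0 1, F 0 2, F 0 3]) ∧
    F 0 0 = (F⁻¹ 0 0)⁻¹ + (F 0 1 ^ 2 + F 0 2 ^ 2 + F 0 3 ^ 2) / C := by
  have v : ∀ a b : Fin 3, F a.succ b.succ = if a = b then C else 0 := fun a b => by
    have := congrFun (congrFun hv a) b
    simpa [Matrix.one_apply] using this
  have v11 : F 1 1 = C := v 0 0
  have v12 : F 1 2 = 0 := v 0 1
  have v13 : F 1 3 = 0 := v 0 2
  have v21 : F 2 1 = 0 := v 1 0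
  have v22 : F 2 2 = C := v 1 1
  have v23 : F 2 3 = 0 := v 1 2
  have v31 : F 3 1 = 0 := v 2 0
  have v32 : F 3 2 = 0 := v 2 1
  have v33 : F 3 3 = C := v 2 2
  have w1 : F 1 0 = F 0 1 := congrFun (congrFun hs 0) 1
  have w2 : F 2 0 = F 0 2 := congrFun (congrFun hs 0) 2
  have w3 : F 3 0 = F 0 3 := congrFun (congrFun hs 0) 3
  constructor
  · ext a b
    simp only [Matrix.add_apply, Matrix.sub_apply, Matrix.smul_apply, vecMulVec_apply, smul_eq_mul]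
    rcases fin4 a with rfl | rfl | rfl | rfl <;> rcases fin4 b with rfl | rfl | rfl | rfl <;>
      simp [e0, v11, v12, v13, v21, v22, v23, v31, v32, v33, w1, w2, w3]
  · have m := Matrix.nonsing_inv_mul F (Ne.isUnit hd)
    have m0 := congrFun (congrFun m 0) 0
    have m1 := congrFun (congrFun m 0) 1
    have m2 := congrFun (congrFun m 0) 2
    have m3 := congrFun (congrFun m 0) 3
    simp only [Matrix.mul_apply, Fin.sum_univ_four, v11, v12, v13, v21, v22, v23, v31, v32, v33,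
      w1, w2, w3, one_apply_eq, mul_zero, add_zero] at m0 m1 m2 m3
    rw [one_apply_ne (by decide)] at m1 m2 m3
    field_simp
    linear_combination C * m0 - F 0 1 * m1 - F 0 2 * m2 - F 0 3 * m3

theorem metric (h : IsQuat J) {x : Pt n} (hx : 0 < x ⬝ᵥ x) {F : M4} {C a : ℝ} (hs : Fᵀ = F)
    (hd : F.det ≠ 0) (hC : C ≠ 0) (hp : F⁻¹ 0 0 ≠ 0)
    (hv : F.submatrix Fin.succ Fin.succ = C • (1 : Matrix (Fin 3) (Fin 3) ℝ)) {W : Pt n}
    (hW : W = Jo J ![a, F 0 1 / (2 * (x ⬝ᵥ x)), F 0 2 / (2 * (x ⬝ᵥ x)), F 0 3 / (2 * (x ⬝ᵥ x))]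
      *ᵥ x) :
    blk J x F C = C • (1 : Matrix (Fin n) (Fin n) ℝ)
      + (2 : ℝ) • (vecMulVec W x + vecMulVec x W)
      + (((F⁻¹ 0 0)⁻¹ - C) / (x ⬝ᵥ x) + 4 * (W ⬝ᵥ W) / C) • vecMulVec x x := by
  obtain ⟨e1, e2⟩ := shape hs hd hC hp hv
  have t0 := hx.ne'
  have eW : Ym J x *ᵥ ![0, F 0 1, F 0 2, F 0 3] = (2 * (x ⬝ᵥ x)) • W := by
    rw [hW, Ym_mulVec, Jo]
    simp only [add_mulVec, smul_mulVec, smul_add, smul_smul]
    simp [mul_div_cancel₀, t0]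
  have eN : 4 * (W ⬝ᵥ W) = (F 0 1 ^ 2 + F 0 2 ^ 2 + F 0 3 ^ 2) / (x ⬝ᵥ x) := by
    have k := Y_dot_Y h x ![0, F 0 1, F 0 2, F 0 3] ![0, F 0 1, F 0 2, F 0 3]
    rw [eW, smul_dotProduct, dotProduct_smul, smul_eq_mul, smul_eq_mul] at k
    have k2 : (![0, F 0 1, F 0 2, F 0 3] : Fin 4 → ℝ) ⬝ᵥ ![0, F 0 1, F 0 2, F 0 3] =
        F 0 1 ^ 2 + F 0 2 ^ 2 + F 0 3 ^ 2 := by
      simp [dotProduct, Fin.sum_univ_four]
      ring
    rw [k2] at k
    rw [eq_div_iff t0]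
    apply mul_left_cancel₀ t0
    linear_combination k
  have eS : ((F⁻¹ 0 0)⁻¹ - C) / (x ⬝ᵥ x) + 4 * (W ⬝ᵥ W) / C = (x ⬝ᵥ x)⁻¹ * (F 0 0 - C) := by
    rw [eN, e2]
    field_simp
    ring
  have eT : (x ⬝ᵥ x)⁻¹ * (2 * (x ⬝ᵥ x)) = 2 := by field_simp
  rw [blk_eq, ph, e1, eS]
  simp only [Matrix.mul_smul, Matrix.smul_mul, Matrix.mul_add, Matrix.add_mul, Y_vv, Ym_e0, eW,
    smul_vecMulVec, vecMulVec_smul, smul_add, smul_smul, eT]
  abel

theorem second (x : Pt n) (F : M4) {C : ℝ} (hC : C ≠ 0) (c l : ℝ) :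
    blk J x ((c / C) • F + l • vecMulVec e0 e0) c =
      (c / C) • blk J x F C + (l / (x ⬝ᵥ x)) • vecMulVec x x := by
  have e : blk J x (l • vecMulVec e0 e0) 0 = (l / (x ⬝ᵥ x)) • vecMulVec x x := by
    rw [blk, zero_smul, add_zero, Matrix.mul_smul, Matrix.smul_mul, Y_vv, Ym_e0, smul_smul,
      div_eq_inv_mul]
  rw [blk_smul, ← e, blk_add, div_mul_cancel₀ _ hC, add_zero]

/-- The mass function of round data. -/
theorem mass_eq (hn : 4 < n) {S : Sca} {t E : ℝ} (ht : 0 < t) (hC : 0 < S.C t)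
    (h1 : S.e1 t = 3 * S.C t) (h3 : S.e3 t = S.C t ^ 3) (hm : mass n S t = E) :
    fS n E (t * S.C t) =
      (H1 ((n : ℝ) - 4) S t ^ 2 - S.P t ^ 2) * (t * S.C t) / ((n : ℝ) - 1) ^ 2 := by
  obtain ⟨u, u0, hu⟩ : ∃ u : ℝ, 0 < u ∧ S.C t = u ^ 2 :=
    ⟨√(S.C t), Real.sqrt_pos.2 hC, (Real.sq_sqrt hC.le).symm⟩
  obtain ⟨v, v0, rfl⟩ : ∃ v : ℝ, 0 < v ∧ t = v ^ 2 :=
    ⟨√t, Real.sqrt_pos.2 ht, (Real.sq_sqrt ht.le).symm⟩
  obtain ⟨k, rfl⟩ : ∃ k, n = k + 5 := ⟨n - 5, by omega⟩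
  have n1 : ((k + 5 : ℕ) : ℝ) - 1 = ((k + 4 : ℕ) : ℝ) := by push_cast; ring
  have n2 : ((k + 5 : ℕ) : ℝ) - 2 = ((k + 3 : ℕ) : ℝ) := by push_cast; ring
  have n0 : ((k + 4 : ℕ) : ℝ) ≠ 0 := by positivity
  have a1 : ar1 (k + 5) S (v ^ 2) = (v * u) ^ (k + 4) := by
    rw [ar1, h3, hu, Real.sqrt_sq v0.le, show k + 5 - 1 = k + 4 from rfl,
      show k + 5 - 4 = k + 1 from rfl, show (u ^ 2) ^ 3 * (u ^ 2) ^ (k + 1) = (u ^ (k + 4)) ^ 2 by
        ring, Real.sqrt_sq (by positivity), mul_pow]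
  have a2 : ((v * u) ^ (k + 4)) ^ (((k + 3 : ℕ) : ℝ) / ((k + 4 : ℕ) : ℝ)) = (v * u) ^ (k + 3) := by
    rw [← Real.rpow_natCast, ← Real.rpow_mul (by positivity), mul_div_cancel₀ _ n0,
      Real.rpow_natCast]
  have a3 : ((u ^ 2) ^ 3) ^ ((1 : ℝ) / 6) = u := by
    rw [← pow_mul, one_div]
    exact Real.pow_rpow_inv_natCast u0.le (n := 6) (by norm_num)
  have a4 : w1 (((k + 5 : ℕ) : ℝ) - 4) S (v ^ 2) = ((k + 4 : ℕ) : ℝ) / (v * u) := by
    rw [w1, h1, h3, hu, a3, Real.sqrt_sq v0.le, show (u ^ 2) ^ 3 = (u ^ 3) ^ 2 by ring,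
      Real.sqrt_sq (by positivity)]
    push_cast
    field_simp
    ring
  rw [mass, a1, a4, n1, n2, a2] at hm
  rw [fS, ← hm, n1, hu, show v ^ 2 * u ^ 2 = (v * u) ^ 2 by ring, Real.sqrt_sq (by positivity),
    show k + 5 - 2 = k + 3 from rfl]
  field_simp
  ring

end SliceSpAux

open SliceSpAux

theorem sliceSp_pf (hE : EmbStmt) (hL : LinOdeStmt) (hJac : P366S.JacStmt) : SliceSpStmt := by
  intro n J D t0 E S hn hJ h0 hS H
  have hp : ∀ t, t0 < t → 0 < (D.F t)⁻¹ 0 0 := fun t ht => (H t ht).1.inv.diag_pos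
  have hd : ∀ t, t0 < t → (D.F t).det ≠ 0 := fun t ht => (H t ht).1.det_pos.ne'
  let om : ℝ → Fin 4 → ℝ := fun t =>
    ![deriv D.C t / 2, D.F t 0 1 / (2 * t), D.F t 0 2 / (2 * t), D.F t 0 3 / (2 * t)]
  obtain ⟨M, hM⟩ := frame hL hJ (t0 := t0) (C := D.C) (om := om)
    (fun t ht => ⟨D.hC t (h0.trans ht), (H t ht).2.1⟩) (fun t ht k => by
      have t1 := h0.trans ht
      have k1 : ∀ b, ContDiffAt ℝ ∞ (fun r => D.F r 0 b / (2 * r)) t := fun b =>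
        (D.hF t t1 0 b).div (contDiffAt_const.mul contDiffAt_id) (by positivity)
      rcases fin4 k with rfl | rfl | rfl | rfl
      exacts [(cd_deriv (D.hC t t1)).div_const 2, k1 1, k1 2, k1 3]) fun _ => rfl
  refine hE n E t0 D.C (fun t => ((D.F t)⁻¹ 0 0)⁻¹) (fun t => D.c t / D.C t)
    (fun t => ((D.F t)⁻¹ * D.K t * (D.F t)⁻¹) 0 0 / (D.F t)⁻¹ 0 0) M (fun t => Jo J (om t)) _ _ h0
    (fun t ht => ?_) hM fun x hx => ?_
  · obtain ⟨-, c0, p1, p2, hm, hr, hP, hH, hD⟩ := H t ht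
    have t1 := h0.trans ht
    have q0 := hp t ht
    have n1 : (0 : ℝ) < (n : ℝ) - 1 := by
      have : (4 : ℝ) < n := by exact_mod_cast hn
      linarith
    have sp : S.p t = (D.F t)⁻¹ 0 0 := by rw [hS]; rfl
    have sC : S.C = D.C := by rw [hS]; rfl
    have s1 : S.e1 t = 3 * S.C t := by
      have : S.e1 t = ((D.F t).submatrix Fin.succ Fin.succ).trace := by rw [hS]; rfl
      rw [this, hr.1, sC]
      simp [mul_comm]
    have s3 : S.e3 t = S.C t ^ 3 := by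
      have : S.e3 t = ((D.F t).submatrix Fin.succ Fin.succ).det := by rw [hS]; rfl
      rw [this, hr.1, sC]
      simp
    have g0 : 0 < sg S t := Real.sqrt_pos.2 (by rw [sp]; positivity)
    have g2 : sg S t ^ 2 = (D.F t)⁻¹ 0 0 / t := by
      rw [sg, Real.sq_sqrt (by rw [sp]; positivity), sp]
    have l1 : D.C t + t * deriv D.C t = D.C t * ll D.C t := by
      rw [ll]
      field_simp
    have l0 : 0 < ll D.C t := by
      have : 0 < ((n : ℝ) - 1) * (ll D.C t * sg S t) := by linarith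
      exact (mul_pos_iff_of_pos_right g0).1 ((mul_pos_iff_of_pos_left n1).1 this)
    have hf := mass_eq hn t1 (by rwa [sC]) s1 s3 hm
    rw [sC] at hf
    have hk : ContDiffAt ℝ ∞ (fun t => D.c t / D.C t) t := (D.hc t t1).div (D.hC t t1) c0.ne'
    refine ⟨D.hC t t1, ((hJac.2 D.F t (D.hF t t1) (hd t ht)).1 0 0).inv q0.ne', hk, c0,
      inv_pos.2 q0, by rw [l1]; positivity, ?_, ?_, ?_⟩
    · rw [hf, sq_sub_sq]
      positivity
    · rw [hf, hH, hP, l1, mul_pow, mul_pow, g2]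
      field_simp
    · have e : deriv S.P t = ((n : ℝ) - 1) * deriv (fun t => D.c t / D.C t) t := by
        rw [← deriv_const_mul_field]
        exact Filter.EventuallyEq.deriv_eq
          ((eventually_gt_nhds ht).mono fun r hr => (H r hr).2.2.2.2.2.2.1)
      rw [e, hH] at hD
      rw [l1]
      apply mul_left_cancel₀ (mul_pos n1 g0).ne'
      linear_combination D.C t * hD
  · obtain ⟨-, c0, -, -, -, hr, -⟩ := H _ hx
    refine ⟨metric hJ (h0.trans hx) (D.sF _) (hd _ hx) c0.ne' (hp _ hx).ne' hr.1 rfl, ?_⟩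
    simp only [hopf]
    conv_lhs => rw [hr.2, second x _ c0.ne', div_eq_mul_inv _ ((D.F (x ⬝ᵥ x))⁻¹ 0 0)]

end Vale.Agent.P366R
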