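import Vale.Agent.P366R.Stm

/-! A level set touching a coordinate sphere from inside has the larger expansion. -/

namespace Vale.Agent.P366R

open scoped Matrix ContDiff Topology
open Filter Set Matrix
open Vale.Agent.P366 (Pt Ten rad pd chr meanCurv trS gradNorm nu)

namespace TouchAux

variable {n : ℕ}

theorem min2 {h : ℝ → ℝ} (hc : ContinuousAt h 0) (hm : IsLocalMin h 0) :
    0 ≤ deriv (deriv h) 0 := by
  by_contra hn
  have hM := isLocalMax_of_deriv_deriv_neg (not_le.1 hn) hm.deriv_eq_zero hc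
  have e : h =ᶠ[𝓝 0] fun _ => h 0 := (hm.and hM).mono fun x hx => le_antisymm hx.2 hx.1
  have e2 := e.deriv.deriv_eq
  have e3 : deriv (fun _ : ℝ => h 0) = fun _ => 0 := funext fun x => deriv_const x _
  rw [e3, deriv_const] at e2
  exact hn e2.ge

theorem dif2 {f : Pt n → ℝ} (hf : ContDiff ℝ ∞ f) : Differentiable ℝ (fderiv ℝ f) :=
  (hf.fderiv_right (m := 1) (by norm_cast)).differentiable one_ne_zero

theorem curve {f : Pt n → ℝ} (hf : ContDiff ℝ ∞ f) (p v w : Pt n) (h0 : f p = 0)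
    (hp : ∀ s : ℝ, 0 ≤ f (p + s • v + s ^ 2 • w)) :
    fderiv ℝ f p v = 0 ∧ 0 ≤ fderiv ℝ (fderiv ℝ f) p v v + 2 * fderiv ℝ f p w := by
  have hγ : ∀ s : ℝ, HasDerivAt (fun s : ℝ => p + s • v + s ^ 2 • w) (v + (2 * s) • w) s :=
    fun s => by
      have := (((hasDerivAt_id s).smul_const v).const_add p).fun_add
        ((hasDerivAt_pow 2 s).smul_const w)
      simpa using this
  have d1 : Differentiable ℝ f := hf.differentiable (by simp)
  have h1 : ∀ s : ℝ, HasDerivAt (fun s : ℝ => f (p + s • v + s ^ 2 • w))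
      (fderiv ℝ f (p + s • v + s ^ 2 • w) (v + (2 * s) • w)) s :=
    fun s => (d1 _).hasFDerivAt.comp_hasDerivAt s (hγ s)
  have h3 : HasDerivAt (fun s : ℝ => v + (2 * s) • w) ((2 : ℝ) • w) 0 := by
    have := ((((hasDerivAt_id (0 : ℝ)).const_mul (2 : ℝ)).smul_const w).const_add v)
    simpa using this
  have h2 := ((dif2 hf _).hasFDerivAt.comp_hasDerivAt (0 : ℝ) (hγ 0)).clm_apply h3
  have hm : IsLocalMin (fun s : ℝ => f (p + s • v + s ^ 2 • w)) 0 :=
    Filter.Eventually.of_forall fun s => by simpa [h0] using hp s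
  have a1 := hm.hasDerivAt_eq_zero (h1 0)
  have a2 := min2 (h1 0).continuousAt hm
  have e : deriv (fun s : ℝ => f (p + s • v + s ^ 2 • w)) =
      fun s => fderiv ℝ f (p + s • v + s ^ 2 • w) (v + (2 * s) • w) := funext fun s => (h1 s).deriv
  rw [e] at a2
  have a3 := a2.trans_eq h2.deriv
  exact ⟨by simpa using a1, by simpa using a3⟩

theorem hess {f : Pt n → ℝ} (hf : ContDiff ℝ ∞ f) (p : Pt n) (i j : Fin n) :
    pd i (pd j f) p = fderiv ℝ (fderiv ℝ f) p (Pi.single i 1) (Pi.single j 1) := by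
  have h := ((dif2 hf p).hasFDerivAt.clm_apply (hasFDerivAt_const (Pi.single j (1 : ℝ) : Pt n) p))
  have e : pd j f = fun x => fderiv ℝ f x (Pi.single j 1) := rfl
  rw [e, pd, h.fderiv]
  simp

theorem bil (B : Pt n →L[ℝ] Pt n →L[ℝ] ℝ) (v : Pt n) :
    B v v = ∑ i, ∑ j, v i * v j * B (Pi.single i 1) (Pi.single j 1) := by
  have ev : v = ∑ i, v i • (Pi.single i 1 : Pt n) := by
    ext j
    simp [Finset.sum_apply, Pi.single_apply]
  calc B v v = B (∑ i, v i • (Pi.single i 1 : Pt n)) (∑ i, v i • (Pi.single i 1 : Pt n)) := by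
        rw [← ev]
    _ = _ := by
        simp only [map_sum, map_smul, _root_.sum_apply, _root_.smul_apply,
          smul_eq_mul, Finset.mul_sum]
        rw [Finset.sum_comm]
        exact Finset.sum_congr rfl fun i _ => Finset.sum_congr rfl fun j _ => by ring

theorem alg {G : Matrix (Fin n) (Fin n) ℝ} (A : Fin n → Fin n → ℝ) (p : Pt n) {γ : ℝ}
    (hG : G.PosSemidef) (hγ : γ ^ 2 = ∑ i, ∑ j, G i j * p i * p j) (γ0 : γ ≠ 0)
    (hA : ∀ v : Pt n, v ⬝ᵥ p = 0 → 0 ≤ ∑ i, ∑ j, v i * v j * A i j) :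
    0 ≤ ∑ i, ∑ j, (G i j - (∑ k, G i k * p k) / γ * ((∑ k, G j k * p k) / γ)) * A i j := by
  obtain ⟨m, B, hB⟩ := Matrix.posSemidef_iff_eq_sum_vecMulVec.1 hG
  have e : ∀ i j, G i j = ∑ k, B k i * B k j := fun i j => by
    rw [hB]
    simp [Matrix.sum_apply, vecMulVec_apply]
  obtain ⟨u, hu⟩ : ∃ u : Fin m → ℝ, ∀ k, u k = ∑ j, B k j * p j := ⟨_, fun _ => rfl⟩
  obtain ⟨w, hw⟩ : ∃ w : Fin n → ℝ, ∀ i, w i = ∑ k, G i k * p k := ⟨_, fun _ => rfl⟩
  have w1 : ∀ i, w i = ∑ k, B k i * u k := fun i => by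
    simp only [hw, e, hu, Finset.sum_mul, Finset.mul_sum, mul_assoc]
    exact Finset.sum_comm
  have w2 : ∑ i, w i * p i = γ ^ 2 := by
    simp only [hγ, hw, Finset.sum_mul]
    exact Finset.sum_congr rfl fun i _ => Finset.sum_congr rfl fun j _ => by ring
  have w3 : ∑ k, u k * u k = γ ^ 2 := by
    rw [← w2]
    simp only [w1, Finset.sum_mul]
    rw [Finset.sum_comm]
    refine Finset.sum_congr rfl fun k _ => ?_
    rw [hu k, Finset.sum_mul]
    exact Finset.sum_congr rfl fun j _ => by rw [← hu k]; ring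
  have q : ∀ i j, G i j - w i / γ * (w j / γ) =
      ∑ k, (B k i - u k / γ ^ 2 * w i) * (B k j - u k / γ ^ 2 * w j) := fun i j => by
    have : ∀ k, (B k i - u k / γ ^ 2 * w i) * (B k j - u k / γ ^ 2 * w j) =
        B k i * B k j - B k i * u k * (w j / γ ^ 2) - B k j * u k * (w i / γ ^ 2)
          + u k * u k * (w i * w j / γ ^ 4) := fun k => by ring
    simp only [this, Finset.sum_add_distrib, Finset.sum_sub_distrib, ← Finset.sum_mul, ← w1, ← e, w3]
    field_simp
    ring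
  simp only [← hw, q, Finset.sum_mul]
  have : ∀ i, ∑ j, ∑ k, (B k i - u k / γ ^ 2 * w i) * (B k j - u k / γ ^ 2 * w j) * A i j =
      ∑ k, ∑ j, (B k i - u k / γ ^ 2 * w i) * (B k j - u k / γ ^ 2 * w j) * A i j :=
    fun i => Finset.sum_comm
  simp only [this]
  rw [Finset.sum_comm]
  refine Finset.sum_nonneg fun k _ => hA (fun i => B k i - u k / γ ^ 2 * w i) ?_
  simp only [dotProduct, sub_mul, Finset.sum_sub_distrib, mul_assoc, ← Finset.mul_sum, w2, ← hu]
  field_simp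
  ring

theorem nonneg {f : Pt n → ℝ} (hf : Continuous f) {R : ℝ} (hR : 0 < R)
    (h : ∀ x, R < rad x → 0 < f x) (x : Pt n) (hx : R ≤ rad x) : 0 ≤ f x := by
  have c : Tendsto (fun s : ℝ => f (s • x)) (𝓝[>] 1) (𝓝 (f ((1 : ℝ) • x))) :=
    ((hf.comp (continuous_id.smul continuous_const)).tendsto 1).mono_left nhdsWithin_le_nhds
  rw [one_smul] at c
  refine ge_of_tendsto c (eventually_nhdsWithin_of_forall fun s hs => (h _ ?_).le)
  have hs' : (1 : ℝ) < s := hs
  have e : rad (s • x) = s * rad x := by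
    rw [rad, smul_dotProduct, dotProduct_smul, smul_eq_mul, smul_eq_mul, ← mul_assoc,
      Real.sqrt_mul (mul_self_nonneg s), Real.sqrt_mul_self (by linarith), rad]
  rw [e]
  nlinarith

end TouchAux

open TouchAux

theorem touch_pf : TouchStmt := by
  intro n g K f p R hR hp hg hf h0 hd hpos
  have hn : ∀ x, p ⬝ᵥ p ≤ x ⬝ᵥ x → 0 ≤ f x := fun x hx =>
    nonneg hf.continuous hR hpos x (hp ▸ Real.sqrt_le_sqrt hx)
  have pp : 0 < p ⬝ᵥ p := Real.sqrt_pos.1 (by rw [← hp] at hR; exact hR)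
  have p0 : p ≠ 0 := fun h => by simp [h] at pp
  have hv : ∀ v : Pt n, v ⬝ᵥ p = 0 → fderiv ℝ f p v = 0 ∧
      0 ≤ fderiv ℝ (fderiv ℝ f) p v v + 2 * fderiv ℝ f p (-(v ⬝ᵥ v / (2 * p ⬝ᵥ p)) • p) := by
    intro v hv
    refine curve hf p v _ h0 fun s => hn _ ?_
    have hv' : p ⬝ᵥ v = 0 := by rw [dotProduct_comm, hv]
    simp only [add_dotProduct, dotProduct_add, smul_dotProduct, dotProduct_smul, smul_eq_mul, hv, hv']
    have e : v ⬝ᵥ v = 2 * (v ⬝ᵥ v / (2 * p ⬝ᵥ p)) * p ⬝ᵥ p := by field_simp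
    generalize v ⬝ᵥ v / (2 * p ⬝ᵥ p) = a at e ⊢
    rw [e]
    nlinarith [mul_nonneg (sq_nonneg (s ^ 2 * a)) pp.le]
  obtain ⟨c, hc⟩ : ∃ c : ℝ, c = fderiv ℝ f p p / p ⬝ᵥ p := ⟨_, rfl⟩
  have c1 : ∀ x, fderiv ℝ f p x = c * x ⬝ᵥ p := fun x => by
    have := (hv (x - (x ⬝ᵥ p / p ⬝ᵥ p) • p) (by
      rw [sub_dotProduct, smul_dotProduct, smul_eq_mul, div_mul_cancel₀ _ pp.ne', sub_self])).1
    rw [map_sub, map_smul, smul_eq_mul, sub_eq_zero] at this
    rw [this, hc]
    ring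
  have c2 : 0 ≤ c := by
    have := (curve hf p 0 p h0 fun s => hn _ (by
      simp only [smul_zero, add_zero, add_dotProduct, dotProduct_add, smul_dotProduct,
        dotProduct_smul, smul_eq_mul]
      nlinarith [mul_nonneg (sq_nonneg s) pp.le, mul_nonneg (sq_nonneg (s ^ 2)) pp.le])).2
    rw [map_zero, zero_add] at this
    rw [hc]
    exact div_nonneg (by linarith) pp.le
  have c3 : 0 < c := c2.lt_of_ne fun h => hd (by ext x; rw [c1, ← h]; simp)
  have c4 : ∀ i, pd i f p = c * p i := fun i => by rw [pd, c1, single_dotProduct, one_mul]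
  have hG := hg.inv
  have s0 : 0 < ∑ i, ∑ j, (g p)⁻¹ i j * p i * p j := by
    refine (hG.dotProduct_mulVec_pos p0).trans_eq ?_
    simp only [dotProduct, mulVec, star_trivial, Finset.mul_sum]
    exact Finset.sum_congr rfl fun i _ => Finset.sum_congr rfl fun j _ => by ring
  have γ0 : 0 < gradNorm g p := Real.sqrt_pos.2 s0
  have g1 : gradF g f p = c * gradNorm g p := by
    rw [gradF, gradNorm, ← Real.sqrt_mul_self c2, ← Real.sqrt_mul (mul_self_nonneg c)]
    simp only [c4, Finset.mul_sum]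
    exact congrArg _ (Finset.sum_congr rfl fun i _ => Finset.sum_congr rfl fun j _ => by ring)
  have g2 : ∀ i, nuF g f p i = nu g p i := fun i => by
    rw [nuF, nu, g1, ← mul_div_mul_left _ (gradNorm g p) c3.ne', Finset.mul_sum]
    simp only [c4]
    exact congrArg (· / _) (Finset.sum_congr rfl fun j _ => by ring)
  have key := alg (fun i j => pd i (pd j f) p - c * if i = j then 1 else 0) p hG.posSemidef
    (Real.sq_sqrt s0.le) γ0.ne' fun v h => by
      have a := (hv v h).2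
      rw [c1, bil, smul_dotProduct, smul_eq_mul] at a
      have e : 2 * (c * (-(v ⬝ᵥ v / (2 * p ⬝ᵥ p)) * p ⬝ᵥ p)) = -(c * v ⬝ᵥ v) := by field_simp
      rw [e, ← sub_eq_add_neg] at a
      refine a.trans_eq ?_
      simp only [hess hf, mul_sub, Finset.sum_sub_distrib, mul_ite, mul_one, mul_zero,
        Finset.sum_ite_eq, Finset.mem_univ, if_true, dotProduct, Finset.mul_sum]
      exact congrArg _ (Finset.sum_congr rfl fun i _ => mul_comm _ _)
  unfold thetaF meanCurv trS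
  simp only [g2, g1, c4]
  refine add_le_add ?_ le_rfl
  rw [← mul_div_mul_left _ (gradNorm g p) c3.ne']
  refine div_le_div_of_nonneg_right ?_ (mul_pos c3 γ0).le
  rw [← sub_nonneg]
  refine key.trans_eq ?_
  simp only [Finset.mul_sum, ← Finset.sum_sub_distrib]
  refine Finset.sum_congr rfl fun i _ => Finset.sum_congr rfl fun j _ => ?_
  have e : ∑ k, chr g k i j p * (c * p k) = c * ∑ k, chr g k i j p * p k := by
    rw [Finset.mul_sum]
    exact Finset.sum_congr rfl fun k _ => by ring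
  rw [e]
  unfold nu gradNorm
  ring

end Vale.Agent.P366R
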