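import Vale.Agent.P366C.All
import Vale.Agent.P366R.MainN
import Vale.Agent.P366R.Touch
import Vale.Agent.P366R.Schw
import Vale.Agent.P366R.PhiJet
import Vale.Agent.P366R.EmbAlg
import Vale.Agent.P366R.LinOde
import Vale.Agent.P366R.Emb
import Vale.Agent.P366R.MonoAbsEq
import Vale.Agent.P366R.MonoEq
import Vale.Agent.P366R.KeyDiagEq
import Vale.Agent.P366R.Round
import Vale.Agent.P366R.SliceSp
import Vale.Agent.P366R.Slice9

/-! The cohomogeneity one theorems: general boundary and equality case. -/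

namespace Vale.Agent.P366R

open Vale.Agent.P366 (IsQuat cont_pf genR_pf rad_pf sph_pf)
open Vale.Agent.P366C

theorem emb_all : EmbStmt := emb_pf schw_pf phiJet_pf embAlg_pf tau_pf

open Vale.Agent.P366N in
theorem all_spin (S : Fin 9 → Matrix (Fin 16) (Fin 16) ℝ) (hS : IsCliff S) :
    PenroseRigid (spinGroup S) :=
  have hT := tm_pf bm_pf
  have hc := chr_pf jet_pf
  have hO := ode_pf (mono_pf monoAlg_pf) cont_pf lim_pf evPos_pf
  have hU := setup_spin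
    (scal_pf genR_pf smooth_pf rad_pf hc (v_pf hT) (w_pf hT) (q_pf hT)) k_pf
    (h_pf hc (v_pf hT) (gx_pf bm_pf hT))
    (cur_pf jet_pf k_pf hc (v_pf hT) (gx_pf bm_pf hT) (div_pf bm_pf)) cs_pf
    (flux_pf sph_pf jet_pf k_pf (div_pf bm_pf) det_pf) (decay_pf jet_pf (div_pf bm_pf)) smooth_pf
    congr_pf (inv9_pf grp_pf (iso_pf grp_pf tri_pf) (trans9_pf grp_pf tri_pf) cut_pf)
  main_spin hU hO touch_pf sph_pf
    (odeRigA9_pf (mono_pf monoAlg_pf) cont_pf lim_pf evPos_pf) monoEq9_pf (slice9_pf emb_all) S hS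

open Vale.Agent.P366S in
theorem all_sp (n : ℕ) (hn : 4 < n) (J : Fin 3 → Matrix (Fin n) (Fin n) ℝ) (hJ : IsQuat J) :
    PenroseRigid (spGroup J) :=
  have hc := chr_pf jet_pf
  have hH := hh_pf jac_pf
  have hO := ode_pf (mono_pf monoAbs_pf hj_pf) cont_pf lim_pf evPos_pf
  have hD := dec_pf (scal_pf genR_pf smooth_pf rad_pf radY_pf hc (v_pf tm_pf) (w_pf tm_pf v0_pf)
    (q_pf tm_pf) v0_pf jac_pf hH) k_pf
    (cur_pf jet_pf k_pf hc tm_pf (v_pf tm_pf) div_pf jac_pf) cs_pf pos_pf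
  have hU : SetupSp := setup_sp k_pf (h_pf hc tm_pf (v_pf tm_pf) v0_pf hH) hD
    (keyDiag_pf algR_pf (algJ_pf v0_pf) algK_pf hH jac_pf (reg_pf jac_pf)) rotB_pf
    pos_pf (m2s_pf jac_pf) (flux_pf sph_pf sphOdd_pf jet_pf div_pf det_pf hH jac_pf)
    (decay_pf jet_pf div_pf) smooth_pf congr_pf (invSp_pf trans_pf cut_pf)
  main_sp hU hO (reg_pf jac_pf) touch_pf sph_pf
    (odeRigA_pf (mono_pf monoAbs_pf hj_pf) cont_pf lim_pf evPos_pf)
    (round_pf hD (keyDiagEq_pf algR_pf (algJ_pf v0_pf) algK_pf hH jac_pf (reg_pf jac_pf))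
      (monoEq_pf monoAbsEq_pf hj_pf) (reg_pf jac_pf))
    (sliceSp_pf emb_all linOde_pf jac_pf) n hn J hJ

end Vale.Agent.P366R
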