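import Vale.Agent.P366C.Defs

/-! General boundaries given as level sets; slices of the Schwarzschild-Tangherlini spacetime. -/

namespace Vale.Agent.P366R

open scoped Matrix ContDiff Topology
open Vale.Agent.P366 Vale.Agent.P366C Filter

variable {n : ℕ}

/-- `|∇f|_g`. -/
noncomputable def gradF (g : Ten n) (f : Pt n → ℝ) (x : Pt n) : ℝ :=
  √(∑ i, ∑ j, (g x)⁻¹ i j * pd i f x * pd j f x)

/-- The unit normal `∇f / |∇f|_g` of the level set of `f` through `x`. -/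
noncomputable def nuF (g : Ten n) (f : Pt n → ℝ) (x : Pt n) (i : Fin n) : ℝ :=
  (∑ j, (g x)⁻¹ i j * pd j f x) / gradF g f x

/-- The expansion `θ_+ = H + tr_S K` of the level set `S` of `f` through `x`. -/
noncomputable def thetaF (g K : Ten n) (f : Pt n → ℝ) (x : Pt n) : ℝ :=
  (∑ i, ∑ j, ((g x)⁻¹ i j - nuF g f x i * nuF g f x j) *
      (pd i (pd j f) x - ∑ k, chr g k i j x * pd k f x)) / gradF g f x
    + ∑ i, ∑ j, ((g x)⁻¹ i j - nuF g f x i * nuF g f x j) * K x i j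

/-- The hypotheses of the conjecture for the exterior `{f ≥ 0}` with boundary `{f = 0}`, whose data
are `G`-invariant outside the smallest centred ball (of radius `R`) containing the boundary. -/
def Adm (G : Set (Matrix (Fin n) (Fin n) ℝ)) (g K : Ten n) (f : Pt n → ℝ) (R E : ℝ) (P : Pt n) :
    Prop :=
  ContDiff ℝ ∞ f ∧ (∀ x, f x = 0 → fderiv ℝ f x ≠ 0) ∧
  (∃ p, f p = 0 ∧ rad p = R) ∧ (∀ x, R < rad x → 0 < f x) ∧
  Exterior g K R ∧ Invt G g R ∧ Invt G K R ∧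
  (∀ x, 0 ≤ f x → curNorm g K x ≤ mu g K x) ∧
  (∀ x, f x = 0 → thetaF g K f x ≤ 0) ∧
  Tendsto (energyFlux g) atTop (𝓝 E) ∧ ∀ i, Tendsto (momFlux g K i) atTop (𝓝 (P i))

/-- The function `1 - 2m / |y|^(n-2)`. -/
noncomputable def lapse2 (m : ℝ) (y : Pt n) : ℝ := 1 - 2 * m / rad y ^ (n - 2)

/-- The Schwarzschild-Tangherlini metric `-f dT^2 + f⁻¹ dρ^2 + ρ^2 dΩ^2` of mass `m` in the
coordinates `(T, y)`, `ρ = |y|`. -/
noncomputable def schw (n : ℕ) (m : ℝ) : Ten (n + 1) := fun z =>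
  Matrix.of fun a b => Fin.cases
    (Fin.cases (-lapse2 m (Fin.tail z)) (fun _ => 0) b)
    (fun i => Fin.cases 0 (fun j => (if i = j then 1 else 0) +
      ((lapse2 m (Fin.tail z))⁻¹ - 1) * (z i.succ * z j.succ) / rad (Fin.tail z) ^ 2) b) a

/-- `φ` embeds `U` in the spacetime `G` with induced metric `g` and second fundamental form `K`
(for the future unit normal). -/
def IsSlice (G : Ten (n + 1)) (φ : Pt n → Pt (n + 1)) (g K : Ten n) (U : Set (Pt n)) : Prop :=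
  Set.InjOn φ U ∧ ∀ x ∈ U, (∀ a, ContDiffAt ℝ ∞ (fun y => φ y a) x) ∧
    ∃ N : Pt (n + 1), 0 < N 0 ∧ ∑ a, ∑ b, G (φ x) a b * N a * N b = -1 ∧
      (∀ i, ∑ a, ∑ b, G (φ x) a b * N a * pd i (fun y => φ y b) x = 0) ∧
      ∀ i j, g x i j = ∑ a, ∑ b, G (φ x) a b * pd i (fun y => φ y a) x * pd j (fun y => φ y b) x ∧
        K x i j = -∑ a, ∑ b, G (φ x) a b * N a * (pd i (pd j fun y => φ y b) x +
          ∑ c, ∑ d, chr G b c d (φ x) * pd i (fun y => φ y c) x * pd j (fun y => φ y d) x)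

/-- The Penrose inequality and its equality case for `G`-invariant data. -/
def PenroseRigid (G : Set (Matrix (Fin n) (Fin n) ℝ)) : Prop :=
  ∀ (g K : Ten n) (f : Pt n → ℝ) (R E : ℝ) (P : Pt n), Adm G g K f R E P →
    (rad P ≤ E ∧ ∃ r, R ≤ r ∧
      1 / 2 * (area g r / omega n) ^ (((n : ℝ) - 2) / ((n : ℝ) - 1)) ≤ √(E ^ 2 - rad P ^ 2)) ∧
    ∀ A, 0 ≤ A → (∀ r, R ≤ r → A ≤ area g r) →
      (∀ r, R < r → ∃ x, rad x = r ∧ 0 < meanCurv g x + trS g K x) →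
      √(E ^ 2 - rad P ^ 2) = 1 / 2 * (A / omega n) ^ (((n : ℝ) - 2) / ((n : ℝ) - 1)) →
      A = area g R ∧
      ∃ φ : Pt n → Pt (n + 1), IsSlice (schw n √(E ^ 2 - rad P ^ 2)) φ g K {x | R < rad x} ∧
        ∀ x, R < rad x → 0 < lapse2 √(E ^ 2 - rad P ^ 2) (Fin.tail (φ x))

end Vale.Agent.P366R
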