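import Vale.Agent.P366C.MainS
import Vale.Agent.P366R.OdeRigA

/-! Assembly: general boundary and equality case for `Sp(m+1)`. -/

namespace Vale.Agent.P366R

open scoped Matrix ContDiff Topology
open Filter Set
open Vale.Agent.P366 (Pt Ten rad mu cur curNorm meanCurv trS omega area energyFlux momFlux Decay
  IsQuat exists_rad)
open Vale.Agent.P366C
open Vale.Agent.P366S

theorem rad_sq {n : ℕ} (x : Pt n) : rad x ^ 2 = x ⬝ᵥ x := by
  rw [rad, Real.sq_sqrt]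
  exact Finset.sum_nonneg fun i _ => mul_self_nonneg _

theorem rad_nonneg {n : ℕ} (x : Pt n) : 0 ≤ rad x := Real.sqrt_nonneg _

theorem lt_rad_iff {n : ℕ} {R : ℝ} (hR : 0 < R) (x : Pt n) : R < rad x ↔ R ^ 2 < x ⬝ᵥ x := by
  rw [← rad_sq]
  exact (pow_lt_pow_iff_left₀ hR.le (rad_nonneg x) two_ne_zero).symm

theorem IsSlice.congr {n : ℕ} {G : Ten (n + 1)} {φ : Pt n → Pt (n + 1)} {g K g' K' : Ten n}
    {U : Set (Pt n)} (h : IsSlice G φ g' K' U) (e : ∀ x ∈ U, g x = g' x ∧ K x = K' x) :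
    IsSlice G φ g K U := by
  refine ⟨h.1, fun x hx => ?_⟩
  rw [(e x hx).1, (e x hx).2]
  exact h.2 x hx

theorem setup_sp (hK : KStmt) (hH : HStmt) (hDec : DecStmt) (hKey : KeyDiagStmt)
    (hRot : RotStmt) (hPos : PosStmt) (hM : M2SStmt) (hF : FluxStmt)
    (hD : DecayStmt) (hSm : SmoothStmt) (hCg : CongrStmt) (hI : InvSpStmt)
    (n : ℕ) (hn : 4 < n) (J : Fin 3 → Matrix (Fin n) (Fin n) ℝ) (hJ : IsQuat J)
    (g K : Ten n) (R E : ℝ) (P : Pt n) (hex : Exterior g K R) (hg : Invt (spGroup J) g R)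
    (hKi : Invt (spGroup J) K R) (hDEC : ∀ x, R < rad x → curNorm g K x ≤ mu g K x)
    (hE : Tendsto (energyFlux g) atTop (𝓝 E))
    (hP : ∀ i, Tendsto (momFlux g K i) atTop (𝓝 (P i))) :
    ∃ D : Dat, (∀ x, R ≤ rad x → g x = hopf J D.F D.C x ∧ K x = hopf J D.K D.c x) ∧
      (∀ t, R ^ 2 ≤ t → (D.F t).PosDef ∧ 0 < D.C t) ∧
      (∀ x, R < rad x → curNorm (hopf J D.F D.C) (hopf J D.K D.c) x ≤
        mu (hopf J D.F D.C) (hopf J D.K D.c) x) ∧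
      (∀ x, R ≤ rad x → meanCurv g x + trS g K x =
        H1 ((n : ℝ) - 4) (toSca ((n : ℝ) - 4) D) (x ⬝ᵥ x) + (toSca ((n : ℝ) - 4) D).P (x ⬝ᵥ x)) ∧
      (∀ r, R ≤ r → area g r / omega n = ar1 n (toSca ((n : ℝ) - 4) D) (r ^ 2)) ∧ rad P = 0 ∧
      (∀ t, R ^ 2 < t → Key ((n : ℝ) - 4) (toSca ((n : ℝ) - 4) D) t) ∧
      Asym n (toSca ((n : ℝ) - 4) D) ∧
      Tendsto (fun t : ℝ => √t ^ (n - 2) * F1 ((n : ℝ) - 4) (toSca ((n : ℝ) - 4) D) t
        / (2 * ((n : ℝ) - 1))) atTop (𝓝 E) := by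
  obtain ⟨hR, ⟨R₀, hR₀, hsm⟩, hpd, τ, hτ, hdec⟩ := hex
  obtain ⟨F, C, eg, sF, hF', hC'⟩ := hI n J g R₀ R hn hJ hR hR₀ (fun x hx i j => (hsm x hx i j).1)
    (fun x hx => by simpa using (hpd x hx).1.1.eq) hg
  obtain ⟨F2, c, eK, sK, hK', hc⟩ := hI n J K R₀ R hn hJ hR hR₀ (fun x hx i j => (hsm x hx i j).2)
    (fun x hx => (hpd x hx).2) hKi
  let D : Dat := ⟨F, F2, C, c, sF, sK, fun t _ a b => (hF' a b).contDiffAt,
    fun t _ a b => (hK' a b).contDiffAt, fun t _ => hC'.contDiffAt, fun t _ => hc.contDiffAt⟩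
  have cg := fun R' (hR' : R ≤ R') => hCg n g (hopf J D.F D.C) K (hopf J D.K D.c) R'
    (hR.trans_le hR') (fun x hx => ⟨eg x (hR'.trans hx), eK x (hR'.trans hx)⟩) (fun x hx i j =>
      ⟨(hsm x (hR₀.trans_le (hx ▸ hR')) i j).1.of_le (by exact_mod_cast le_top),
        (hSm n J F C x (ne_zero_of_rad hR (hx ▸ hR')) (fun a b => (hF' a b).contDiffAt)
          hC'.contDiffAt i j).of_le (by norm_num)⟩)
  obtain ⟨c1, -, c3, c4, c5⟩ := cg R le_rfl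
  have hn0 : 0 < n := by omega
  have hq : (0 : ℝ) ≤ (n : ℝ) - 4 := by
    have : (4 : ℝ) ≤ n := by exact_mod_cast hn.le
    linarith
  have hR2 : 0 < R ^ 2 := by positivity
  have hpos : ∀ t, R ^ 2 ≤ t → (D.F t).PosDef ∧ 0 < D.C t := by
    intro t ht
    obtain ⟨x, hx, hxt, hrx⟩ := exists_rad hn0 (hR2.trans_le ht)
    have h1 : R ≤ rad x := by rw [hrx]; exact Real.le_sqrt_of_sq_le ht
    have h2 := (hpd x h1).1
    rw [eg x h1, hopf, hxt] at h2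
    exact (hPos n J x _ _ hn hJ hx (sF t)).1 h2
  have hfl : ∀ r, R ≤ r → _ := fun r hr =>
    have h2 : R ^ 2 ≤ r ^ 2 := by gcongr
    hF n J D r hn hJ (hR.trans_le hr) (hpos _ h2).1 (hpos _ h2).2
  have hP0 : P = 0 := by
    funext i
    refine tendsto_nhds_unique (hP i) ?_
    refine tendsto_const_nhds.congr' ?_
    filter_upwards [eventually_gt_atTop R] with r hr
    exact (((c4 r hr).2 i).trans ((hfl r hr.le).2.1 i)).symm
  have hD' : ∀ x, R < rad x → curNorm (hopf J D.F D.C) (hopf J D.K D.c) x ≤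
      mu (hopf J D.F D.C) (hopf J D.K D.c) x := by
    intro x h0
    have h1 := hDEC x h0
    rwa [(c1 x h0).1, (c1 x h0).2] at h1
  refine ⟨D, fun x hx => ⟨eg x hx, eK x hx⟩, hpos, hD', fun x hx => ?_, fun r hr => ?_,
    by simp [hP0, rad], fun t ht => ?_,
    hM n D hn (hD n J D (R + 1) τ hn hJ (by linarith) hτ (c5 τ hdec)), ?_⟩
  · have hx0 := ne_zero_of_rad hR hx
    obtain ⟨hA, hB⟩ := hpos (x ⬝ᵥ x) (by rw [← rad_sq]; gcongr)
    obtain ⟨e1, e2⟩ := (cg (rad x) hx).2.1 x rfl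
    rw [e1, e2, hH n J D x hJ hx0 hA hB,
      (hK n J D x hJ hx0 hA.det_pos.ne' (hA.inv.diag_pos) hB.ne').2.2]
  · rw [c3 r hr, (hfl r hr).2.2]
  · obtain ⟨x, hx, hxt, hrx⟩ := exists_rad hn0 (hR2.trans ht)
    obtain ⟨hA, hB⟩ := hpos t ht.le
    have h0 : R < rad x := by rw [hrx]; exact Real.lt_sqrt_of_sq_lt ht
    have h1 := hD' x h0
    obtain ⟨J', D', hJ', r1, r2, r3, r4, r5, r6, r7⟩ := hRot n J D ((n : ℝ) - 4) t hJ
    have hB' : 0 < D'.C t := by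
      have : D'.C = D.C := congrArg Sca.C r3
      rw [this]; exact hB
    rw [← r1, ← r2] at h1
    have h2 := hDec n J' D' x hn hJ' hx (by rw [hxt]; exact r4 hA) (by rw [hxt]; exact hB') h1
    rw [hxt] at h2
    rw [← r3]
    exact hKey _ D' t hq (hR2.trans ht) (r4 hA) hB' r5 r6 r7 h2
  · refine (hE.comp Real.tendsto_sqrt_atTop).congr' ?_
    filter_upwards [eventually_gt_atTop (R ^ 2)] with t ht
    have h1 : R < √t := Real.lt_sqrt_of_sq_lt ht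
    have h2 := (hfl _ h1.le).1
    rw [Real.sq_sqrt (hR2.le.trans ht.le)] at h2
    exact ((c4 _ h1).1).trans h2

/-- The conclusion of `setup_sp`, as a statement. -/
def SetupSp : Prop :=
  ∀ (n : ℕ), 4 < n → ∀ (J : Fin 3 → Matrix (Fin n) (Fin n) ℝ), IsQuat J →
    ∀ (g K : Ten n) (R E : ℝ) (P : Pt n), Exterior g K R → Invt (spGroup J) g R →
    Invt (spGroup J) K R → (∀ x, R < rad x → curNorm g K x ≤ mu g K x) →
    Tendsto (energyFlux g) atTop (𝓝 E) → (∀ i, Tendsto (momFlux g K i) atTop (𝓝 (P i))) →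
    ∃ D : Dat, (∀ x, R ≤ rad x → g x = hopf J D.F D.C x ∧ K x = hopf J D.K D.c x) ∧
      (∀ t, R ^ 2 ≤ t → (D.F t).PosDef ∧ 0 < D.C t) ∧
      (∀ x, R < rad x → curNorm (hopf J D.F D.C) (hopf J D.K D.c) x ≤
        mu (hopf J D.F D.C) (hopf J D.K D.c) x) ∧
      (∀ x, R ≤ rad x → meanCurv g x + trS g K x =
        H1 ((n : ℝ) - 4) (toSca ((n : ℝ) - 4) D) (x ⬝ᵥ x) + (toSca ((n : ℝ) - 4) D).P (x ⬝ᵥ x)) ∧
      (∀ r, R ≤ r → area g r / omega n = ar1 n (toSca ((n : ℝ) - 4) D) (r ^ 2)) ∧ rad P = 0 ∧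
      (∀ t, R ^ 2 < t → Key ((n : ℝ) - 4) (toSca ((n : ℝ) - 4) D) t) ∧
      Asym n (toSca ((n : ℝ) - 4) D) ∧
      Tendsto (fun t : ℝ => √t ^ (n - 2) * F1 ((n : ℝ) - 4) (toSca ((n : ℝ) - 4) D) t
        / (2 * ((n : ℝ) - 1))) atTop (𝓝 E)

theorem main_sp (hS : SetupSp) (hO : OdeStmt) (hReg : RegStmt) (hT : TouchStmt)
    (hSph : P366.SphStmt) (hOr : OdeRigAStmt) (hRd : RoundStmt) (hSl : SliceSpStmt)
    (n : ℕ) (hn : 4 < n) (J : Fin 3 → Matrix (Fin n) (Fin n) ℝ) (hJ : IsQuat J) :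
    PenroseRigid (spGroup J) := by
  rintro g K f R E P ⟨hf, hdf, ⟨p, hp, hpR⟩, hout, hex, hg, hKi, hDEC, htrap, hE, hP⟩
  obtain ⟨D, e, hpos, hD, hth, har, hP0, hkey, hA, hE'⟩ := hS n hn J hJ g K R E P hex hg hKi
    (fun x hx => hDEC x (hout x hx).le) hE hP
  have hR := hex.1
  have hn0 : 0 < n := by omega
  have hR2 : 0 < R ^ 2 := by positivity
  have hreg := fun t (ht : R ^ 2 ≤ t) => hReg ((n : ℝ) - 4) D t (hR2.trans_le ht) (hpos t ht).1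
    (hpos t ht).2
  have hz : H1 ((n : ℝ) - 4) (toSca ((n : ℝ) - 4) D) (R ^ 2) + (toSca ((n : ℝ) - 4) D).P (R ^ 2)
      ≤ 0 := by
    have h1 := (hT n g K f p R hR hpR (hex.2.2.1 p hpR.ge).1 hf hp (hdf p hp) hout).trans
      (htrap p hp)
    rwa [hth p hpR.ge, ← rad_sq, hpR] at h1
  obtain ⟨t, ht, hle⟩ := hO n (toSca ((n : ℝ) - 4) D) (R ^ 2) E hn hR2 hreg hkey hz hA hE'
  have hE0 : 0 ≤ E := by
    refine le_trans ?_ hle
    have : 0 ≤ ar1 n (toSca ((n : ℝ) - 4) D) t := by unfold ar1; positivity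
    positivity
  have hm : √(E ^ 2 - rad P ^ 2) = E := by rw [hP0]; simp [Real.sqrt_sq hE0]
  rw [hm]
  refine ⟨⟨by rw [hP0]; exact hE0, √t, Real.le_sqrt_of_sq_le ht, ?_⟩, fun A hA0 har0 hom heq => ?_⟩
  · rwa [har _ (Real.le_sqrt_of_sq_le ht), Real.sq_sqrt (hR2.le.trans ht)]
  have hω := (hSph n hn0).1
  have hp : ∀ t, R ^ 2 < t → 0 < H1 ((n : ℝ) - 4) (toSca ((n : ℝ) - 4) D) t
      + (toSca ((n : ℝ) - 4) D).P t := by
    intro t ht
    have h1 : R < √t := Real.lt_sqrt_of_sq_lt ht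
    obtain ⟨x, hx, h2⟩ := hom _ h1
    rwa [hth x (hx ▸ h1.le), ← rad_sq, hx, Real.sq_sqrt (hR2.le.trans ht.le)] at h2
  obtain ⟨hAa, hEpos, hr⟩ := hOr n (toSca ((n : ℝ) - 4) D) (R ^ 2) E (A / omega n) hn
    (div_nonneg hA0 hω.le) hR2 hreg hkey hz hp
    (fun t ht => by
      have h1 : R ≤ √t := Real.le_sqrt_of_sq_le ht
      have h2 := har _ h1
      rw [Real.sq_sqrt (hR2.le.trans ht)] at h2
      rw [← h2]
      exact div_le_div_of_nonneg_right (har0 _ h1) hω.le) hA hE' heq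
  obtain ⟨φ, h1, h2⟩ := hSl n J D (R ^ 2) E _ hn hJ hR2 rfl (fun t ht => by
    obtain ⟨x, hx, hxt, -⟩ := exists_rad hn0 (hR2.trans ht)
    have h1 : R < rad x := (lt_rad_iff hR x).2 (hxt ▸ ht)
    obtain ⟨a1, a2, a3⟩ := hr t ht
    obtain ⟨b1, b2⟩ := hpos t ht.le
    have b3 := hp t ht
    subst hxt
    exact ⟨b1, b2, b3, a1, a2, hRd n J D x hn hJ hx b1 b2 (hD x h1) _ rfl b3 a1
      (by rw [a2]; exact hEpos) a3⟩)
  have hU : {x : Pt n | R < rad x} = {x | R ^ 2 < x ⬝ᵥ x} := Set.ext fun x => lt_rad_iff hR x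
  rw [← har R le_rfl] at hAa
  refine ⟨(div_left_inj' hω.ne').1 hAa, φ, ?_, fun x hx => h2 x ((lt_rad_iff hR x).1 hx)⟩
  rw [← hU] at h1
  exact h1.congr fun x hx => e x (le_of_lt hx)

end Vale.Agent.P366R
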