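import Vale.Agent.P366R.Stm
import Vale.Agent.P366S.Ode
import Vale.Agent.P366N.Ode

/-! The one-variable argument in the equality case. -/

namespace Vale.Agent.P366R

open scoped Matrix ContDiff Topology
open Matrix Filter Set
open Vale.Agent.P366 (ll ode_last ode_ll)

namespace OdeRigAux

theorem crit {w : ℝ → ℝ} {w' t : ℝ} (M : ℕ) (ht : 0 < t) (hw : 0 < w t) (hd : HasDerivAt w w' t)
    (h : IsLocalMin (fun s => √s ^ (M + 1) * √(w s)) t) : (M + 1) * w t + t * w' = 0 := by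
  have d := h.hasDerivAt_eq_zero
    (((Real.hasDerivAt_sqrt ht.ne').fun_pow (M + 1)).fun_mul (hd.sqrt hw.ne'))
  have r0 := Real.sqrt_pos.2 ht
  have z0 := Real.sqrt_pos.2 hw
  have r2 := Real.sq_sqrt ht.le
  have z2 := Real.sq_sqrt hw.le
  generalize √t = r at d r0 r2
  generalize √(w t) = z at d z0 z2
  have e : ((M + 1 : ℕ) : ℝ) * r ^ (M + 1 - 1) * (1 / (2 * r)) * z + r ^ (M + 1) * (w' / (2 * z)) =
      r ^ M / (2 * r * z) * ((M + 1) * z ^ 2 + r ^ 2 * w') := by
    rw [Nat.add_sub_cancel]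
    push_cast
    field_simp
    ring
  rw [e, r2, z2] at d
  exact (mul_eq_zero.1 d).resolve_left (by positivity)

theorem rig (hC : P366.ContStmt) {H P m a : ℝ → ℝ} {κ t0 E : ℝ} (hκ : 0 < κ)
    (c1 : ContinuousOn H (Ici t0)) (c2 : ContinuousOn P (Ici t0)) (c5 : ContinuousOn m (Ici t0))
    (p4 : ∀ t ∈ Ici t0, 0 < a t) (hm : ∀ t, H t ^ 2 - P t ^ 2 = 0 → m t = 1 / 2 * a t ^ κ)
    (hi : H t0 + P t0 = 0) (hpos : ∀ t, t0 < t → 0 < H t + P t) (hmin : ∀ t, t0 ≤ t → a t0 ≤ a t)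
    (hev : ∀ᶠ t in atTop, 0 < H t + P t ∧ 0 < H t - P t) (hlim : Tendsto m atTop (𝓝 E))
    (hE : E = 1 / 2 * a t0 ^ κ)
    (hmono : ∀ t, t0 < t → 0 < H t + P t → 0 < H t - P t → 0 ≤ m t →
      DifferentiableAt ℝ m t ∧ 0 ≤ deriv m t)
    (hder : ∀ t, t0 < t → IsLocalMin a t → H t = 0) :
    0 < E ∧ ∀ t, t0 < t → 0 < H t - P t ∧ m t = E ∧ deriv m t = 0 := by
  obtain ⟨t1, h1, h2, h3⟩ := ode_last (m := fun t => min (H t + P t) (H t - P t))
    (continuous_min.comp_continuousOn ((c1.add c2).prodMk (c1.sub c2))) (min_le_of_left_le hi.le)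
    (hev.mono fun t h => lt_min h.1 h.2)
  have h4 : H t1 ^ 2 - P t1 ^ 2 = 0 := by
    rw [sq_sub_sq, mul_eq_zero]
    exact (min_choice _ _).imp (fun h => h.symm.trans h2) fun h => h.symm.trans h2
  have h5 := hm t1 h4
  have h6 : 0 < m t1 := by
    rw [h5]
    exact mul_pos one_half_pos (Real.rpow_pos_of_pos (p4 t1 h1) _)
  have up : ∀ s, t1 ≤ s → 0 < m s → ∀ u, s ≤ u → m s ≤ m u := fun s hs hp =>
    hC m s (c5.mono (Ici_subset_Ici.2 (h1.trans hs))) hp fun t h h' =>
      hmono t ((h1.trans hs).trans_lt h) (lt_min_iff.1 (h3 t (hs.trans_lt h))).1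
        (lt_min_iff.1 (h3 t (hs.trans_lt h))).2 h'
  have le : ∀ s, t1 ≤ s → m s ≤ E := fun s hs =>
    ge_of_tendsto hlim ((eventually_ge_atTop s).mono (up s hs (h6.trans_le (up t1 le_rfl h6 s hs))))
  have h7 : t1 = t0 := by
    refine le_antisymm (not_lt.1 fun h => ?_) h1
    have k1 := le t1 le_rfl
    rw [h5, hE] at k1
    have k2 : a t1 ≤ a t0 :=
      (Real.rpow_le_rpow_iff (p4 t1 h1).le (p4 t0 self_mem_Ici).le hκ).1 (by linarith)
    have k3 : IsLocalMin a t1 :=
      Filter.Eventually.mono (Ioi_mem_nhds h) fun s hs => k2.trans (hmin s (le_of_lt hs))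
    have k4 := hder t1 h k3
    have k5 := hpos t1 h
    rw [k4] at h4 k5
    nlinarith
  subst h7
  have h8 : ∀ t, t1 < t → m t = E := fun t h =>
    le_antisymm (le t h.le) (by rw [hE, ← h5]; exact up t1 le_rfl h6 t h.le)
  refine ⟨by rw [hE, ← h5]; exact h6, fun t h => ⟨(lt_min_iff.1 (h3 t h)).2, h8 t h, ?_⟩⟩
  have k : m =ᶠ[𝓝 t] fun _ => E := Filter.Eventually.mono (Ioi_mem_nhds h) fun s hs => h8 s hs
  rw [k.deriv_eq, deriv_const]

end OdeRigAux

open OdeRigAux Vale.Agent.P366S in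
theorem odeRig_pf (hM : P366S.MonoStmt) (hC : P366.ContStmt) (hL : P366S.LimStmt)
    (hE : P366S.EvPosStmt) : OdeRigStmt := by
  intro n S t0 E hn h0 hp hd hi hpos hmin ha hF hE'
  have hq : (0 : ℝ) < (n : ℝ) - 4 := sub_pos.2 (by exact_mod_cast hn)
  have ht : ∀ t ∈ Ici t0, 0 < t := fun t h => h0.trans_le h
  have q1 : ∀ t ∈ Ici t0, 0 < S.e1 t := fun t h => (hp t h).2.1
  have q3 : ∀ t ∈ Ici t0, 0 < S.e3 t := fun t h => (hp t h).2.2.1
  have qC : ∀ t ∈ Ici t0, 0 < S.C t := fun t h => (hp t h).2.2.2.1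
  have cp : ContinuousOn S.p (Ici t0) := fun t h =>
    (hp t h).2.2.2.2.1.continuousAt.continuousWithinAt
  have c1' : ContinuousOn S.e1 (Ici t0) := fun t h =>
    (hp t h).2.2.2.2.2.1.continuousAt.continuousWithinAt
  have c3' : ContinuousOn S.e3 (Ici t0) := fun t h =>
    (hp t h).2.2.2.2.2.2.1.continuousAt.continuousWithinAt
  have cC : ContinuousOn S.C (Ici t0) := fun t h =>
    (hp t h).2.2.2.2.2.2.2.1.continuousAt.continuousWithinAt
  have c2 : ContinuousOn S.P (Ici t0) := fun t h =>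
    (hp t h).2.2.2.2.2.2.2.2.continuousAt.continuousWithinAt
  have d3 : ContinuousOn (deriv S.e3) (Ici t0) := fun t h =>
    (ode_der (hp t h).2.2.2.2.2.2.1).continuousWithinAt
  have dC : ContinuousOn (deriv S.C) (Ici t0) := fun t h =>
    (ode_der (hp t h).2.2.2.2.2.2.2.1).continuousWithinAt
  have cl : ContinuousOn (ll S.C) (Ici t0) :=
    continuousOn_const.add ((continuousOn_id.mul dC).div cC fun t h => (qC t h).ne')
  have c1 : ContinuousOn (H1 ((n : ℝ) - 4) S) (Ici t0) :=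
    ((continuousOn_const.add ((continuousOn_id.mul d3).div c3' fun t h => (q3 t h).ne')).add
      (continuousOn_const.mul cl)).mul (cp.div continuousOn_id fun t h => (ht t h).ne').sqrt
  have cr : ContinuousOn (fun t => S.e3 t ^ ((1 : ℝ) / 6)) (Ici t0) :=
    c3'.rpow_const fun t h => .inl (q3 t h).ne'
  have c3 : ContinuousOn (w1 ((n : ℝ) - 4) S) (Ici t0) :=
    ((c1'.div c3'.sqrt fun t h => (Real.sqrt_pos.2 (q3 t h)).ne').add (continuousOn_const.mul
      ((continuousOn_const.div cr fun t h => (Real.rpow_pos_of_pos (q3 t h) _).ne').add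
        (cr.div cC fun t h => (qC t h).ne')))).div continuousOn_id.sqrt
      fun t h => (Real.sqrt_pos.2 (ht t h)).ne'
  have c4 : ContinuousOn (ar1 n S) (Ici t0) :=
    (continuousOn_id.sqrt.pow _).mul (c3'.mul (cC.pow _)).sqrt
  have p3 : ∀ t ∈ Ici t0, 0 < w1 ((n : ℝ) - 4) S t := fun t h => by
    have a0 := q1 t h
    have a1 := q3 t h
    have a2 := qC t h
    have a3 := ht t h
    unfold w1
    positivity
  have p4 : ∀ t ∈ Ici t0, 0 < ar1 n S t := fun t h => by
    have a1 := q3 t h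
    have a2 := qC t h
    have a3 := ht t h
    unfold ar1
    positivity
  have c5 : ContinuousOn (mass n S) (Ici t0) :=
    (continuousOn_const.mul (c4.rpow_const fun t h => .inl (p4 t h).ne')).mul
      (continuousOn_const.sub (((c1.pow 2).sub (c2.pow 2)).div (c3.pow 2)
        fun t h => (pow_pos (p3 t h) 2).ne'))
  refine rig hC (div_pos (by linarith) (by linarith)) c1 c2 c5 p4
    (fun t h => by rw [mass, h, zero_div, sub_zero, mul_one]) hi hpos hmin (hE n S hn ha)
    (hL n S E hn ha hF) hE' (fun t h a1 a2 a3 => hM n S t hn (ht t h.le) (hp t h.le) (hd t h) a1 a2 a3)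
    fun t h hl => ?_
  obtain ⟨k, rfl⟩ : ∃ k, n = k + 5 := ⟨n - 5, by omega⟩
  have a1 := q3 t h.le
  have a2 := qC t h.le
  have a3 := ht t h.le
  have e3 := ((hp t h.le).2.2.2.2.2.2.1.differentiableAt (by norm_num)).hasDerivAt
  have eC := ((hp t h.le).2.2.2.2.2.2.2.1.differentiableAt (by norm_num)).hasDerivAt
  have k1 := crit (k + 3) a3 (w := fun s => S.e3 s * S.C s ^ (k + 1)) (by positivity)
    (e3.fun_mul (eC.fun_pow (k + 1))) hl
  have k2 : hh (((k + 5 : ℕ) : ℝ) - 4) S t * (S.e3 t * S.C t ^ (k + 1)) = 0 := by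
    rw [← k1, hh, ll, Nat.add_sub_cancel]
    push_cast
    field_simp
    ring
  rw [H1, (mul_eq_zero.1 k2).resolve_right (by positivity), zero_mul]

open OdeRigAux Vale.Agent.P366N in
theorem odeRig9_pf (hM : P366N.MonoStmt) (hC : P366.ContStmt) (hL : P366N.LimStmt)
    (hE : P366N.EvPosStmt) : OdeRig9Stmt := by
  intro D t0 E h0 hp hd hi hpos hmin ha hF hE'
  have ht : ∀ t ∈ Ici t0, 0 < t := fun t h => h0.trans_le h
  have cA := D.hA.continuous
  have cB := D.hB.continuous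
  have cC := D.hC.continuous
  have c1 : ContinuousOn (H1 D) (Ici t0) :=
    ((continuousOn_const.mul (ode_ll D.hB fun t h => (hp t h).2.1)).add
      (continuousOn_const.mul (ode_ll D.hC fun t h => (hp t h).2.2))).div (by fun_prop)
      fun t h => (Real.sqrt_pos.2 (mul_pos (ht t h) (hp t h).1)).ne'
  have c2 : ContinuousOn (PP D) (Ici t0) :=
    (continuousOn_const.mul (D.hb.continuous.continuousOn.div cB.continuousOn
      fun t h => (hp t h).2.1.ne')).add (continuousOn_const.mul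
        (D.hc.continuous.continuousOn.div cC.continuousOn fun t h => (hp t h).2.2.ne'))
  have c3 : ContinuousOn (w1 D) (Ici t0) :=
    ((continuousOn_const.div (by fun_prop) fun t h => (Real.sqrt_pos.2 (hp t h).2.1).ne').add
      (ContinuousOn.div (by fun_prop) cC.continuousOn fun t h => (hp t h).2.2.ne')).div
      (by fun_prop) fun t h => (Real.sqrt_pos.2 (ht t h)).ne'
  have c4 : Continuous (ar1 D) := by
    unfold ar1
    fun_prop
  have p3 : ∀ t ∈ Ici t0, 0 < w1 D t := fun t h => by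
    obtain ⟨-, a1, a2⟩ := hp t h
    have a3 := ht t h
    unfold w1
    positivity
  have p4 : ∀ t ∈ Ici t0, 0 < ar1 D t := fun t h => by
    obtain ⟨-, a1, a2⟩ := hp t h
    have a3 := ht t h
    unfold ar1
    positivity
  have c5 : ContinuousOn (mass D) (Ici t0) :=
    (continuousOn_const.mul (c4.continuousOn.rpow_const fun t h => .inl (p4 t h).ne')).mul
      (continuousOn_const.sub (((c1.pow 2).sub (c2.pow 2)).div (c3.pow 2)
        fun t h => (pow_pos (p3 t h) 2).ne'))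
  refine rig hC (by norm_num) c1 c2 c5 p4
    (fun t h => by rw [mass, h, zero_div, sub_zero, mul_one]) hi hpos hmin (hE D ha)
    (hL D E ha hF) hE' (fun t h a1 a2 a3 => hM D t (ht t h.le) (hp t h.le).1 (hp t h.le).2.1
      (hp t h.le).2.2 (hd t h) a1 a2 a3) fun t h hl => ?_
  obtain ⟨-, a1, a2⟩ := hp t h.le
  have a3 := ht t h.le
  have eB := (D.hB.differentiable (by simp) t).hasDerivAt
  have eC := (D.hC.differentiable (by simp) t).hasDerivAt
  have k1 := crit 14 a3 (w := fun s => D.B s ^ 7 * D.C s ^ 8) (by positivity)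
    ((eB.fun_pow 7).fun_mul (eC.fun_pow 8)) hl
  have k2 : hh D t * (D.B t ^ 7 * D.C t ^ 8) = 0 := by
    rw [← k1, hh, ll, ll]
    push_cast
    field_simp
    ring
  rw [H1, (mul_eq_zero.1 k2).resolve_right (by positivity), zero_div]

end Vale.Agent.P366R
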