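import Vale.Agent.P366R.Defs
import Vale.Agent.P366C.Stm

/-! Statements for the general boundary and for the equality case. -/

namespace Vale.Agent.P366R

open scoped Matrix ContDiff Topology
open Filter Set Matrix
open Vale.Agent.P366 (Pt Ten rad pd chr meanCurv trS IsQuat ll)

def TouchStmt : Prop :=
  ∀ (n : ℕ) (g K : Ten n) (f : Pt n → ℝ) (p : Pt n) (R : ℝ), 0 < R → rad p = R → (g p).PosDef →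
    ContDiff ℝ ∞ f → f p = 0 → fderiv ℝ f p ≠ 0 → (∀ x, R < rad x → 0 < f x) →
    meanCurv g p + trS g K p ≤ thetaF g K f p

/-- The lapse as a function of `s = |y|^2`. -/
noncomputable def fS (n : ℕ) (m s : ℝ) : ℝ := 1 - 2 * m / √s ^ (n - 2)

/-- Metric and lowered Christoffel symbols of Schwarzschild. -/
def SchwStmt : Prop :=
  ∀ (n : ℕ) (m T f f' χ : ℝ) (y : Pt n), y ≠ 0 → f = fS n m (y ⬝ᵥ y) → f ≠ 0 →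
    f' = deriv (fS n m) (y ⬝ᵥ y) → χ = (f⁻¹ - 1) / (y ⬝ᵥ y) →
    lapse2 m y = f ∧
    (∀ U V : Pt (n + 1), ∑ a, ∑ b, schw n m (Fin.cons T y) a b * U a * V b =
      -f * U 0 * V 0 + Fin.tail U ⬝ᵥ Fin.tail V + χ * (y ⬝ᵥ Fin.tail U) * (y ⬝ᵥ Fin.tail V)) ∧
    ∀ N U V : Pt (n + 1), ∑ a, ∑ b, schw n m (Fin.cons T y) a b * N a *
        ∑ c, ∑ d, chr (schw n m) b c d (Fin.cons T y) * U c * V d =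
      -f' * ((y ⬝ᵥ Fin.tail U) * V 0 * N 0 + (y ⬝ᵥ Fin.tail V) * U 0 * N 0
          - (y ⬝ᵥ Fin.tail N) * U 0 * V 0)
        + (-f' / (f ^ 2 * (y ⬝ᵥ y)) - χ / (y ⬝ᵥ y)) *
          (y ⬝ᵥ Fin.tail U) * (y ⬝ᵥ Fin.tail V) * (y ⬝ᵥ Fin.tail N)
        + χ * (Fin.tail U ⬝ᵥ Fin.tail V) * (y ⬝ᵥ Fin.tail N)

/-- Entrywise derivative of a matrix function. -/
noncomputable def mD {n : ℕ} (M : ℝ → Matrix (Fin n) (Fin n) ℝ) (t : ℝ) :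
    Matrix (Fin n) (Fin n) ℝ := Matrix.of fun a b => deriv (fun s => M s a b) t

noncomputable def emb {n : ℕ} (τ : ℝ → ℝ) (M : ℝ → Matrix (Fin n) (Fin n) ℝ) (x : Pt n) :
    Pt (n + 1) := Fin.cons (τ (x ⬝ᵥ x)) (M (x ⬝ᵥ x) *ᵥ x)

def PhiJetStmt : Prop :=
  ∀ (n : ℕ) (τ : ℝ → ℝ) (M : ℝ → Matrix (Fin n) (Fin n) ℝ) (x : Pt n),
    ContDiffAt ℝ ∞ τ (x ⬝ᵥ x) → (∀ a b, ContDiffAt ℝ ∞ (fun s => M s a b) (x ⬝ᵥ x)) →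
    (∀ a, ContDiffAt ℝ ∞ (fun y => emb τ M y a) x) ∧
    (∀ i, (fun a => pd i (fun y => emb τ M y a) x) =
      Fin.cons (2 * x i * deriv τ (x ⬝ᵥ x))
        (M (x ⬝ᵥ x) *ᵥ Pi.single i 1 + (2 * x i) • (mD M (x ⬝ᵥ x) *ᵥ x))) ∧
    ∀ i j, (fun a => pd i (pd j fun y => emb τ M y a) x) =
      Fin.cons (2 * (if i = j then 1 else 0) * deriv τ (x ⬝ᵥ x)
          + 4 * x i * x j * deriv (deriv τ) (x ⬝ᵥ x))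
        ((2 * x j) • (mD M (x ⬝ᵥ x) *ᵥ Pi.single i 1) + (2 * x i) • (mD M (x ⬝ᵥ x) *ᵥ Pi.single j 1)
          + (2 * (if i = j then 1 else 0) : ℝ) • (mD M (x ⬝ᵥ x) *ᵥ x)
          + (4 * x i * x j) • (mD (mD M) (x ⬝ᵥ x) *ᵥ x))

/-- The radial data of a slice of Schwarzschild. -/
def SlData (n : ℕ) (m t0 : ℝ) (C N κ k0 : ℝ → ℝ) : Prop :=
  ∀ t, t0 < t → ContDiffAt ℝ ∞ C t ∧ ContDiffAt ℝ ∞ N t ∧ ContDiffAt ℝ ∞ κ t ∧ 0 < C t ∧ 0 < N t ∧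
    0 < C t + t * deriv C t ∧ 0 < fS n m (t * C t) ∧
    fS n m (t * C t) = (C t + t * deriv C t) ^ 2 / (N t * C t) - t * C t * κ t ^ 2 ∧
    2 * t * C t * deriv κ t = (C t + t * deriv C t) * (k0 t - κ t)

def EmbStmt : Prop :=
  ∀ (n : ℕ) (m t0 : ℝ) (C N κ k0 : ℝ → ℝ) (M W : ℝ → Matrix (Fin n) (Fin n) ℝ) (g K : Ten n),
    0 < t0 → SlData n m t0 C N κ k0 →
    (∀ t, t0 < t → (∀ a b, ContDiffAt ℝ ∞ (fun s => M s a b) t) ∧ (W t)ᵀ = -W t ∧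
      (M t)ᵀ * M t = C t • (1 : Matrix (Fin n) (Fin n) ℝ) ∧
      (M t)ᵀ * mD M t = (deriv C t / 2) • (1 : Matrix (Fin n) (Fin n) ℝ) + W t) →
    (∀ x : Pt n, t0 < x ⬝ᵥ x →
      g x = C (x ⬝ᵥ x) • (1 : Matrix (Fin n) (Fin n) ℝ)
        + (2 : ℝ) • (vecMulVec (W (x ⬝ᵥ x) *ᵥ x) x + vecMulVec x (W (x ⬝ᵥ x) *ᵥ x))
        + ((N (x ⬝ᵥ x) - C (x ⬝ᵥ x)) / (x ⬝ᵥ x)
          + 4 * ((W (x ⬝ᵥ x) *ᵥ x) ⬝ᵥ (W (x ⬝ᵥ x) *ᵥ x)) / C (x ⬝ᵥ x)) • vecMulVec x x ∧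
      K x = κ (x ⬝ᵥ x) • g x
        + ((k0 (x ⬝ᵥ x) - κ (x ⬝ᵥ x)) * N (x ⬝ᵥ x) / (x ⬝ᵥ x)) • vecMulVec x x) →
    ∃ φ : Pt n → Pt (n + 1), IsSlice (schw n m) φ g K {x | t0 < x ⬝ᵥ x} ∧
      ∀ x : Pt n, t0 < x ⬝ᵥ x → 0 < lapse2 m (Fin.tail (φ x))

/-- The pointwise algebra of the embedding. -/
def EmbAlgStmt : Prop :=
  ∀ t C C1 C2 κ κ1 k0 N f f' z τ1 τ2 χ : ℝ, t ≠ 0 → C ≠ 0 → f ≠ 0 → z ≠ 0 → C + t * C1 ≠ 0 →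
    f = z ^ 2 - t * C * κ ^ 2 → N = (C + t * C1) ^ 2 / (C * z ^ 2) →
    2 * t * C * κ1 = (C + t * C1) * (k0 - κ) → χ = (f⁻¹ - 1) / (t * C) →
    τ1 = (C + t * C1) * κ / (2 * z * f) →
    τ2 = (((2 * C1 + t * C2) * κ + (C + t * C1) * κ1) * (z * f) - (C + t * C1) * κ *
      ((f' * (C + t * C1) + (C + t * C1) * κ ^ 2 + 2 * t * C * κ * κ1) / (2 * z) * f
        + z * (f' * (C + t * C1)))) / (2 * (z * f) ^ 2) →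
    -4 * f * τ1 ^ 2 + 2 * C1 + t * C1 ^ 2 / C + χ * (C + t * C1) ^ 2 = (N - C) / t ∧
    4 * z * τ2 - κ / f * (2 * C1 + 2 * t * C2 - t * C1 ^ 2 / C)
      + f' * (4 * (C + t * C1) * τ1 * z / f - 4 * κ * (t * C) * τ1 ^ 2)
      - (-f' / (f ^ 2 * (t * C)) - χ / (t * C)) * (C + t * C1) ^ 2 * κ * (t * C)
      - κ * (f⁻¹ - 1) * (2 * C1 + t * C1 ^ 2 / C) = (k0 * N - κ * C) / t

def TauStmt : Prop :=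
  ∀ (h : ℝ → ℝ) (t0 : ℝ), (∀ t, t0 < t → ContDiffAt ℝ ∞ h t) →
    ∃ τ : ℝ → ℝ, ∀ t, t0 < t → ContDiffAt ℝ ∞ τ t ∧ deriv τ t = h t

def LinOdeStmt : Prop :=
  ∀ (A : ℝ → P366S.M4) (t0 t1 : ℝ) (s1 : Fin 4 → ℝ), t0 < t1 →
    (∀ t, t0 < t → ∀ a b, ContDiffAt ℝ ∞ (fun s => A s a b) t) →
    ∃ s : ℝ → Fin 4 → ℝ, s t1 = s1 ∧ ∀ t, t0 < t → ∀ a,
      ContDiffAt ℝ ∞ (fun r => s r a) t ∧ deriv (fun r => s r a) t = (A t *ᵥ s t) a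

/-! ### The equality case, `Sp(m+1)` -/

section Sp
open Vale.Agent.P366S

def MonoAbsEqStmt : Prop :=
  ∀ (m lam kap gam : Fin 4 → ℝ) (d H P w ws Hs Ps k0 R : ℝ), (∀ i, 0 < m i) → d = ∑ i, m i →
    H = ∑ i, m i * lam i → P = ∑ i, m i * kap i → w = -∑ i, m i * gam i → 0 < w →
    ws = ∑ i, m i * gam i * lam i → R ≤ w ^ 2 - ∑ i, m i * gam i ^ 2 →
    Hs + Ps ≤ R / 2 + k0 * (H + P) - (H ^ 2 - P ^ 2) / 2 - (∑ i, m i * (lam i + kap i) ^ 2) / 2 →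
    Hs - Ps ≤ R / 2 - k0 * (H - P) - (H ^ 2 - P ^ 2) / 2 - (∑ i, m i * (lam i - kap i) ^ 2) / 2 →
    0 < H + P → 0 < H - P → H ^ 2 - P ^ 2 < w ^ 2 →
    (d - 1) / d * H * (1 - (H ^ 2 - P ^ 2) / w ^ 2) - (2 * H * Hs - 2 * P * Ps) / w ^ 2
      + 2 * (H ^ 2 - P ^ 2) * ws / w ^ 3 = 0 →
    (∀ i, lam i = H / d ∧ kap i = P / d ∧ gam i = -w / d) ∧
    Hs + Ps = R / 2 + k0 * (H + P) - (H ^ 2 - P ^ 2) / 2 - (∑ i, m i * (lam i + kap i) ^ 2) / 2 ∧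
    Hs - Ps = R / 2 - k0 * (H - P) - (H ^ 2 - P ^ 2) / 2 - (∑ i, m i * (lam i - kap i) ^ 2) / 2

/-- The two sides of the inequalities in `Key`. -/
noncomputable def keyL (q : ℝ) (S : Sca) (t ε : ℝ) : ℝ :=
  2 * t * sg S t * deriv (H1 q S) t + ε * (2 * t * sg S t * deriv S.P t)

noncomputable def keyR (q : ℝ) (S : Sca) (t : ℝ) (g g' κ : Fin 3 → ℝ) (k0 kh ε : ℝ) : ℝ :=
  RS q t (S.C t) g / 2 + ε * k0 * (H1 q S t + ε * S.P t) - (H1 q S t ^ 2 - S.P t ^ 2) / 2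
    - (∑ a, ((1 + t * g' a / g a) * sg S t + ε * κ a) ^ 2
      + q * (ll S.C t * sg S t + ε * kh) ^ 2) / 2

def KeyB (q : ℝ) (S : Sca) (t : ℝ) (g g' κ : Fin 3 → ℝ) (k0 kh : ℝ) : Prop :=
  (∀ a, 0 < g a) ∧ S.e1 t = ∑ a, g a ∧ S.e3 t = ∏ a, g a ∧
    deriv S.e1 t = ∑ a, g' a ∧ deriv S.e3 t = S.e3 t * ∑ a, g' a / g a ∧
    S.P t = ∑ a, κ a + q * kh ∧
    ∀ ε : ℝ, ε = 1 ∨ ε = -1 → keyL q S t ε ≤ keyR q S t g g' κ k0 kh ε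

def MonoEqStmt : Prop :=
  ∀ (n : ℕ) (S : Sca) (t : ℝ) (g g' κ : Fin 3 → ℝ) (k0 kh : ℝ), 4 < n → 0 < t → Reg S t →
    KeyB ((n : ℝ) - 4) S t g g' κ k0 kh →
    0 < H1 ((n : ℝ) - 4) S t + S.P t → 0 < H1 ((n : ℝ) - 4) S t - S.P t →
    0 < mass n S t → deriv (mass n S) t = 0 →
    (∀ a, g a = S.C t ∧ κ a = kh) ∧ H1 ((n : ℝ) - 4) S t = ((n : ℝ) - 1) * (ll S.C t * sg S t) ∧
    (∀ ε : ℝ, ε = 1 ∨ ε = -1 →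
      keyL ((n : ℝ) - 4) S t ε = keyR ((n : ℝ) - 4) S t g g' κ k0 kh ε) ∧
    2 * t * sg S t * deriv S.P t = H1 ((n : ℝ) - 4) S t * (k0 - kh)

def OdeRigStmt : Prop :=
  ∀ (n : ℕ) (S : Sca) (t0 E : ℝ), 4 < n → 0 < t0 → (∀ t, t0 ≤ t → Reg S t) →
    (∀ t, t0 < t → Key ((n : ℝ) - 4) S t) → H1 ((n : ℝ) - 4) S t0 + S.P t0 = 0 →
    (∀ t, t0 < t → 0 < H1 ((n : ℝ) - 4) S t + S.P t) → (∀ t, t0 ≤ t → ar1 n S t0 ≤ ar1 n S t) →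
    Asym n S →
    Tendsto (fun t : ℝ => √t ^ (n - 2) * F1 ((n : ℝ) - 4) S t / (2 * ((n : ℝ) - 1))) atTop (𝓝 E) →
    E = 1 / 2 * ar1 n S t0 ^ (((n : ℝ) - 2) / ((n : ℝ) - 1)) →
    0 < E ∧ ∀ t, t0 < t → 0 < H1 ((n : ℝ) - 4) S t - S.P t ∧ mass n S t = E ∧
      deriv (mass n S) t = 0

def KeyDiagEqStmt : Prop :=
  ∀ (q : ℝ) (D : Dat) (t : ℝ), 0 ≤ q → 0 < t → (D.F t).PosDef → 0 < D.C t →
    D.F t 1 2 = 0 → D.F t 1 3 = 0 → D.F t 2 3 = 0 → DecM q D t →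
    ∀ (g g' κ : Fin 3 → ℝ) (k0 : ℝ), g = (fun a => D.F t a.succ a.succ) →
      g' = (fun a => md D.F t a.succ a.succ) → κ = (fun a => D.K t a.succ a.succ / g a) →
      k0 = ((D.F t)⁻¹ * D.K t * (D.F t)⁻¹) 0 0 / (D.F t)⁻¹ 0 0 →
      KeyB q (toSca q D) t g g' κ k0 (D.c t / D.C t) ∧
      ((∀ ε : ℝ, ε = 1 ∨ ε = -1 →
        keyL q (toSca q D) t ε = keyR q (toSca q D) t g g' κ k0 (D.c t / D.C t) ε) →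
        D.K t 1 2 = 0 ∧ D.K t 1 3 = 0 ∧ D.K t 2 3 = 0 ∧
          ∀ a : Fin 3, (D.K t *ᵥ ((D.F t)⁻¹ *ᵥ e0)) a.succ = 0)

/-- Roundness of the data at `t`, in rotation invariant form. -/
def Round (D : Dat) (t : ℝ) : Prop :=
  (D.F t).submatrix Fin.succ Fin.succ = D.C t • (1 : Matrix (Fin 3) (Fin 3) ℝ) ∧
  D.K t = (D.c t / D.C t) • D.F t +
    ((((D.F t)⁻¹ * D.K t * (D.F t)⁻¹) 0 0 / (D.F t)⁻¹ 0 0 - D.c t / D.C t) / (D.F t)⁻¹ 0 0) •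
      vecMulVec e0 e0

/-- Pointwise consequence of equality. -/
def RoundStmt : Prop :=
  ∀ (n : ℕ) (J : Fin 3 → Matrix (Fin n) (Fin n) ℝ) (D : Dat) (x : Pt n), 4 < n → IsQuat J → x ≠ 0 →
    (D.F (x ⬝ᵥ x)).PosDef → 0 < D.C (x ⬝ᵥ x) →
    P366.curNorm (hopf J D.F D.C) (hopf J D.K D.c) x ≤ P366.mu (hopf J D.F D.C) (hopf J D.K D.c) x →
    ∀ S, S = toSca ((n : ℝ) - 4) D →
    0 < H1 ((n : ℝ) - 4) S (x ⬝ᵥ x) + S.P (x ⬝ᵥ x) → 0 < H1 ((n : ℝ) - 4) S (x ⬝ᵥ x) - S.P (x ⬝ᵥ x) →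
    0 < mass n S (x ⬝ᵥ x) → deriv (mass n S) (x ⬝ᵥ x) = 0 →
    Round D (x ⬝ᵥ x) ∧ S.P (x ⬝ᵥ x) = ((n : ℝ) - 1) * (D.c (x ⬝ᵥ x) / D.C (x ⬝ᵥ x)) ∧
    H1 ((n : ℝ) - 4) S (x ⬝ᵥ x) = ((n : ℝ) - 1) * (ll D.C (x ⬝ᵥ x) * sg S (x ⬝ᵥ x)) ∧
    2 * (x ⬝ᵥ x) * sg S (x ⬝ᵥ x) * deriv S.P (x ⬝ᵥ x) = H1 ((n : ℝ) - 4) S (x ⬝ᵥ x) *
      (((D.F (x ⬝ᵥ x))⁻¹ * D.K (x ⬝ᵥ x) * (D.F (x ⬝ᵥ x))⁻¹) 0 0 / (D.F (x ⬝ᵥ x))⁻¹ 0 0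
        - D.c (x ⬝ᵥ x) / D.C (x ⬝ᵥ x))

/-- From roundness on `(t0, ∞)` to a slice. -/
def SliceSpStmt : Prop :=
  ∀ (n : ℕ) (J : Fin 3 → Matrix (Fin n) (Fin n) ℝ) (D : Dat) (t0 E : ℝ) (S : Sca), 4 < n →
    IsQuat J → 0 < t0 → S = toSca ((n : ℝ) - 4) D →
    (∀ t, t0 < t → (D.F t).PosDef ∧ 0 < D.C t ∧
      0 < H1 ((n : ℝ) - 4) S t + S.P t ∧ 0 < H1 ((n : ℝ) - 4) S t - S.P t ∧ mass n S t = E ∧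
      Round D t ∧ S.P t = ((n : ℝ) - 1) * (D.c t / D.C t) ∧
      H1 ((n : ℝ) - 4) S t = ((n : ℝ) - 1) * (ll D.C t * sg S t) ∧
      2 * t * sg S t * deriv S.P t = H1 ((n : ℝ) - 4) S t *
        (((D.F t)⁻¹ * D.K t * (D.F t)⁻¹) 0 0 / (D.F t)⁻¹ 0 0 - D.c t / D.C t)) →
    ∃ φ : Pt n → Pt (n + 1), IsSlice (schw n E) φ (hopf J D.F D.C) (hopf J D.K D.c)
      {x | t0 < x ⬝ᵥ x} ∧ ∀ x : Pt n, t0 < x ⬝ᵥ x → 0 < lapse2 E (Fin.tail (φ x))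

end Sp

/-! ### The equality case, `Spin(9)` -/

section Spin
open Vale.Agent.P366N
open Vale.Agent.P366 (Dat)

def MonoEq9Stmt : Prop :=
  ∀ (D : Dat) (t : ℝ), 0 < t → 0 < D.A t → 0 < D.B t → 0 < D.C t →
    |J1 D t| / √(t * D.A t) ≤ mu1 D t → 0 < H1 D t + PP D t → 0 < H1 D t - PP D t →
    0 < mass D t → deriv (mass D) t = 0 →
    D.B t = D.C t ∧ D.b t = D.c t ∧ ll D.B t = ll D.C t ∧ J1 D t = 0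

def OdeRig9Stmt : Prop :=
  ∀ (D : Dat) (t0 E : ℝ), 0 < t0 → (∀ t, t0 ≤ t → 0 < D.A t ∧ 0 < D.B t ∧ 0 < D.C t) →
    (∀ t, t0 < t → |J1 D t| / √(t * D.A t) ≤ mu1 D t) → H1 D t0 + PP D t0 = 0 →
    (∀ t, t0 < t → 0 < H1 D t + PP D t) → (∀ t, t0 ≤ t → ar1 D t0 ≤ ar1 D t) → Asym D →
    Tendsto (fun t : ℝ => √t ^ 14 * F1 D t / 30) atTop (𝓝 E) →
    E = 1 / 2 * ar1 D t0 ^ ((14 : ℝ) / 15) →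
    0 < E ∧ ∀ t, t0 < t → 0 < H1 D t - PP D t ∧ mass D t = E ∧ deriv (mass D) t = 0

def Slice9Stmt : Prop :=
  ∀ (J : Fin 9 → Matrix (Fin 16) (Fin 16) ℝ) (D : Dat) (t0 E : ℝ), 0 < t0 →
    (∀ t, t0 < t → 0 < D.A t ∧ 0 < D.C t ∧ 0 < H1 D t + PP D t ∧ 0 < H1 D t - PP D t ∧
      mass D t = E ∧ D.B t = D.C t ∧ D.b t = D.c t ∧ ll D.B t = ll D.C t ∧ J1 D t = 0) →
    ∃ φ : Pt 16 → Pt (16 + 1), IsSlice (schw 16 E) φ (hopf J D.A D.B D.C) (hopf J D.a D.b D.c)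
      {x | t0 < x ⬝ᵥ x} ∧ ∀ x : Pt 16, t0 < x ⬝ᵥ x → 0 < lapse2 E (Fin.tail (φ x))

end Spin

end Vale.Agent.P366R
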