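import Vale.Agent.P366S.RotB
import Vale.Agent.P366R.Stm

/-! Rotating the quaternionic structure, with the rotation exposed. -/

namespace Vale.Agent.P366R

open scoped Matrix ContDiff
open Matrix
open Vale.Agent.P366 (Pt IsQuat)
open Vale.Agent.P366S

theorem rot2 (n : ℕ) (J : Fin 3 → Matrix (Fin n) (Fin n) ℝ) (D : Dat) (q t : ℝ) (hJ : IsQuat J) :
    ∃ (J' : Fin 3 → Matrix (Fin n) (Fin n) ℝ) (D' : Dat), IsQuat J' ∧
      hopf J' D'.F D'.C = hopf J D.F D.C ∧ hopf J' D'.K D'.c = hopf J D.K D.c ∧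
      toSca q D' = toSca q D ∧ ((D.F t).PosDef → (D'.F t).PosDef) ∧
      D'.F t 1 2 = 0 ∧ D'.F t 1 3 = 0 ∧ D'.F t 2 3 = 0 ∧ D'.C = D.C ∧ D'.c = D.c ∧
      ∃ O : Matrix (Fin 3) (Fin 3) ℝ, Oᵀ * O = 1 ∧ (∀ s, D'.F s = (hat O)ᵀ * D.F s * hat O) ∧
        ∀ s, D'.K s = (hat O)ᵀ * D.K s * hat O := by
  obtain ⟨O, hO, hdet, hdiag⟩ := exists_rot ((D.F t).submatrix Fin.succ Fin.succ)
    (by rw [Matrix.transpose_submatrix, D.sF])
  have hO' : O * Oᵀ = 1 := mul_eq_one_comm.1 hO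
  have hH : (hat O)ᵀ * hat O = 1 := hat_mul hO
  have hH' : hat O * (hat O)ᵀ = 1 := mul_eq_one_comm.1 hH
  have hinv : (hat O)⁻¹ = (hat O)ᵀ := Matrix.inv_eq_left_inv hH
  have hinv' : ((hat O)ᵀ)⁻¹ = hat O := Matrix.inv_eq_left_inv hH'
  have hadj : O.adjugate = Oᵀ := by
    have := Matrix.inv_eq_left_inv hO
    rw [Matrix.inv_def, hdet] at this
    simpa using this
  have e := fun i j => congrFun (congrFun hO i) j
  simp only [Matrix.mul_apply, Fin.sum_univ_three, Matrix.transpose_apply] at e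
  have a := fun j => congrFun (congrFun hadj 2) j
  have a0 := a 0
  have a1 := a 1
  have a2 := a 2
  simp [Matrix.adjugate_fin_three] at a0 a1 a2
  let J' : Fin 3 → Matrix (Fin n) (Fin n) ℝ := fun b => O 0 b • J 0 + O 1 b • J 1 + O 2 b • J 2
  have hJ' : IsQuat J' := by
    refine ⟨fun b => ?_, fun b => ?_, ?_⟩
    · simp only [J', Matrix.transpose_add, Matrix.transpose_smul, hJ.1]; module
    · have eb := e b b
      rw [Matrix.one_apply_eq] at eb
      simp only [J', Matrix.add_mul, Matrix.mul_add, smul_mul_smul_comm, hJ.2.1, hJ.2.2, hJ.m10,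
        hJ.m02, hJ.m20, hJ.m12, hJ.m21]
      have : (-1 : Matrix (Fin n) (Fin n) ℝ) =
        (O 0 b * O 0 b + O 1 b * O 1 b + O 2 b * O 2 b) • (-1 : Matrix (Fin n) (Fin n) ℝ) := by
        rw [eb, one_smul]
      conv_rhs => rw [this]
      module
    · have eb := e 0 1
      rw [Matrix.one_apply_ne (by decide)] at eb
      simp only [J', Matrix.add_mul, Matrix.mul_add, smul_mul_smul_comm, hJ.2.1, hJ.2.2, hJ.m10,
        hJ.m02, hJ.m20, hJ.m12, hJ.m21]
      rw [← a0, ← a1, ← a2]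
      have : (O 0 0 * O 0 1 + O 1 0 * O 1 1 + O 2 0 * O 2 1) • (-1 : Matrix (Fin n) (Fin n) ℝ)
        = 0 := by rw [eb, zero_smul]
      rw [← sub_eq_zero, ← this]
      module
  have hY : ∀ x, Ym J' x = Ym J x * hat O := by
    intro x
    ext i b
    have e1 : (Ym J x * hat O) i b = (Ym J x *ᵥ fun a => hat O a b) i := rfl
    have e2 : Ym J' x i b = (J4 J' b *ᵥ x) i := rfl
    rw [e1, e2, Ym_mulVec]
    rcases fin4 b with rfl | rfl | rfl | rfl <;>
      simp only [J4_0, J4_1, J4_2, J4_3, J', Matrix.add_mulVec, Matrix.smul_mulVec] <;> simp [hat]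
  have hblk : ∀ x (F : M4) C, blk J' x ((hat O)ᵀ * F * hat O) C = blk J x F C := by
    intro x F C
    have e1 : Ym J x * hat O * ((hat O)ᵀ * F * hat O) * (Ym J x * hat O)ᵀ =
        Ym J x * (hat O * (hat O)ᵀ) * F * (hat O * (hat O)ᵀ) * (Ym J x)ᵀ := by
      simp only [Matrix.transpose_mul, Matrix.mul_assoc]
    have e2 : Ym J x * hat O * (Ym J x * hat O)ᵀ = Ym J x * (hat O * (hat O)ᵀ) * (Ym J x)ᵀ := by
      simp only [Matrix.transpose_mul, Matrix.mul_assoc]
    rw [blk, blk, hY, e1, e2, hH', Matrix.mul_one, Matrix.mul_one]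
  have hsm : ∀ (F : ℝ → M4) (s : ℝ), (∀ a b, ContDiffAt ℝ ∞ (fun s => F s a b) s) →
      ∀ a b, ContDiffAt ℝ ∞ (fun s => ((hat O)ᵀ * F s * hat O) a b) s := by
    intro F s hF a b
    simp only [Matrix.mul_apply]
    exact ContDiffAt.sum fun c _ => (ContDiffAt.sum fun d _ =>
      contDiffAt_const.mul (hF d c)).mul contDiffAt_const
  have hsy : ∀ F : M4, Fᵀ = F → ((hat O)ᵀ * F * hat O)ᵀ = (hat O)ᵀ * F * hat O := by
    intro F hF
    simp only [Matrix.transpose_mul, Matrix.transpose_transpose, hF, Matrix.mul_assoc]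
  have hi : ∀ F : M4, ((hat O)ᵀ * F * hat O)⁻¹ = (hat O)ᵀ * F⁻¹ * hat O := by
    intro F
    rw [Matrix.mul_inv_rev, Matrix.mul_inv_rev, hinv, hinv', Matrix.mul_assoc]
  have hm : ∀ F G : M4, (hat O)ᵀ * F * hat O * ((hat O)ᵀ * G * hat O) =
      (hat O)ᵀ * (F * G) * hat O := by
    intro F G
    calc _ = (hat O)ᵀ * F * (hat O * (hat O)ᵀ) * G * hat O := by simp only [Matrix.mul_assoc]
      _ = _ := by rw [hH', Matrix.mul_one, Matrix.mul_assoc ((hat O)ᵀ)]
  have htr : ∀ F : M4, ((hat O)ᵀ * F * hat O).trace = F.trace := by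
    intro F
    rw [Matrix.trace_mul_cycle, hH', Matrix.one_mul]
  refine ⟨J', ⟨fun s => (hat O)ᵀ * D.F s * hat O, fun s => (hat O)ᵀ * D.K s * hat O, D.C, D.c,
    fun s => hsy _ (D.sF s), fun s => hsy _ (D.sK s), fun s hs => hsm _ s (D.hF s hs),
    fun s hs => hsm _ s (D.hK s hs), D.hC, D.hc⟩, hJ', funext fun x => hblk _ _ _,
    funext fun x => hblk _ _ _, ?_, fun hp => ?_, ?_, ?_, ?_, rfl, rfl, O, hO,
    fun _ => rfl, fun _ => rfl⟩
  · simp only [toSca, hi, hm, htr, hat_00, hat_sub]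
    congr 1
    · funext s
      rw [Matrix.trace_mul_cycle, hO', Matrix.one_mul]
    · funext s
      rw [Matrix.det_mul, Matrix.det_mul, Matrix.det_transpose, hdet, one_mul, mul_one]
  · have := hp.conjTranspose_mul_mul_same (B := hat O) (by
      intro u v huv
      have := congrArg (fun w => (hat O)ᵀ *ᵥ w) huv
      simpa [Matrix.mulVec_mulVec, hH] using this)
    simpa using this
  · have := hdiag 0 1 (by decide)
    rw [← hat_sub] at this
    exact this
  · have := hdiag 0 2 (by decide)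
    rw [← hat_sub] at this
    exact this
  · have := hdiag 1 2 (by decide)
    rw [← hat_sub] at this
    exact this

end Vale.Agent.P366R
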